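import Vale.Agent.P110.MathlibUsed
import Vale.Agent.PNT.MathlibUsed
import Vale.Agent.PNT.Main

set_option linter.all false

section

section

/-!
# P110: interfaces between the modules

Every module proves one of the `...Statement` propositions below; the final file combines them.
-/

namespace Vale.Agent.P110

open Finset

/-- `e t = exp(2 pi i t)` -/
noncomputable def e (t : ℝ) : ℂ := Complex.exp (((2 * Real.pi * t : ℝ) : ℂ) * Complex.I)

/-! ## Final goal -/

/-- the target: flat Littlewood polynomials of arbitrarily large length -/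
def FlatStatement : Prop :=
  ∀ c : ℝ, 0 < c → ∀ N₀ : ℕ, ∃ N : ℕ, N₀ ≤ N ∧ ∃ ε : ℕ → ℝ, (∀ k, ε k = 1 ∨ ε k = -1) ∧
    ∀ θ : ℝ, (1 - c) * Real.sqrt N ≤ ‖∑ k ∈ range N, (ε k : ℂ) * e (k * θ)‖ ∧
      ‖∑ k ∈ range N, (ε k : ℂ) * e (k * θ)‖ ≤ (1 + c) * Real.sqrt N

/-! ## RT: rounding -/

/-- RT. Real coefficients in `[-1,1]`, most of them near `±1`, can be rounded to signs. -/
def RoundingStatement : Prop :=
  ∀ c : ℝ, 0 < c → ∃ δ : ℝ, 0 < δ ∧ ∃ N₁ : ℕ, ∀ N : ℕ, N₁ ≤ N → ∀ x : ℕ → ℝ,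
    (∀ k, |x k| ≤ 1) → ∑ k ∈ range N, (1 - x k ^ 2) ≤ δ * N →
    ∃ ε : ℕ → ℝ, (∀ k, ε k = 1 ∨ ε k = -1) ∧
      ∀ θ : ℝ, ‖∑ k ∈ range N, ((ε k - x k : ℝ) : ℂ) * e (k * θ)‖ ≤ c * Real.sqrt N

/-- RT1: colouring of a constant proportion of the variables. -/
def PartialColoringStatement : Prop :=
  ∃ C : ℝ, ∃ c : ℝ, 0 < c ∧ ∀ (n m : ℕ), 1 ≤ n → n ≤ m → ∀ a : Fin m → Fin n → ℝ,
    (∀ i j, |a i j| ≤ 1) → ∃ χ : Fin n → ℝ, (∀ j, χ j = -1 ∨ χ j = 0 ∨ χ j = 1) ∧
      c * n ≤ ((univ.filter fun j => χ j ≠ 0).card : ℝ) ∧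
      ∀ i, |∑ j, a i j * χ j| ≤ C * (m / n : ℝ) ^ (1 / 4 : ℝ) * Real.sqrt n

/-- RT2 (full colouring) -/
def FullColoringStatement : Prop :=
  ∃ C : ℝ, ∀ (n m : ℕ), n ≤ m → ∀ a : Fin m → Fin n → ℝ,
    (∀ i j, |a i j| ≤ 1) → ∃ χ : Fin n → ℝ, (∀ j, χ j = -1 ∨ χ j = 1) ∧
      ∀ i, |∑ j, a i j * χ j| ≤ C * (m * n : ℝ) ^ (1 / 4 : ℝ)

/-- RT3 (linear rounding). `p` = probabilities in `[0,1]`, `m` linear functionals. -/
def LinearRoundingStatement : Prop :=
  ∃ C : ℝ, ∀ (N m : ℕ), 1 ≤ N → N ≤ m → ∀ a : Fin m → Fin N → ℝ, (∀ i j, |a i j| ≤ 1) →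
    ∀ p : Fin N → ℝ, (∀ j, 0 ≤ p j ∧ p j ≤ 1) → ∃ B : Fin N → ℝ, (∀ j, B j = 0 ∨ B j = 1) ∧
      ∀ i, |∑ j, a i j * (B j - p j)| ≤
        1 + C * (m * (∑ j, p j + (m * N : ℝ) ^ (1 / 4 : ℝ) + 1)) ^ (1 / 4 : ℝ)

/-- RT4 (grid to circle): a polynomial bounded on a grid of `3N` points is bounded. -/
def GridStatement : Prop :=
  ∀ (N : ℕ), 1 ≤ N → ∀ q : ℕ → ℂ, ∀ B : ℝ,
    (∀ j : ℕ, ‖∑ k ∈ range N, q k * e (k * (j / (3 * N : ℝ)))‖ ≤ B) →
    ∀ θ : ℝ, ‖∑ k ∈ range N, q k * e (k * θ)‖ ≤ 3 * B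

/-! ## Slot systems (interface between the combinatorial and the analytic part) -/

/-- A slot system. `[0,1/2]` is cut into `n` slots `[τ i, τ (i+1)]`; slot `i` belongs to the
frequency block `blk i < P`; in an `up` slot the frequency sweeps the block upwards, otherwise
downwards; `ω i` is the phase; `β p` is the length of block `p`. -/
structure SlotSystem (η : ℝ) where
  n : ℕ
  P : ℕ
  τ : ℕ → ℝ
  up : ℕ → Bool
  blk : ℕ → ℕ
  ω : ℕ → ℝ
  β : ℕ → ℝ
  n_pos : 0 < n
  τ_zero : τ 0 = 0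
  τ_last : τ n = 1 / 2
  τ_lt : ∀ i < n, τ i < τ (i + 1)
  blk_lt : ∀ i < n, blk i < P
  β_pos : ∀ p, 0 < β p
  sum_β : ∑ p ∈ range P, β p ≤ 1 + η
  alg : ∀ p < P, ∀ k : ℤ, ∀ ζ : ℝ,
    |∑ i ∈ (range n).filter (fun i => blk i = p),
      2 * Real.sqrt ((τ (i + 1) - τ i) / β p) *
        Real.cos (2 * Real.pi * (ω i - k * (if up i then τ i else τ (i + 1))
          - (if up i then 1 else -1) * (τ (i + 1) - τ i) * ζ))| ≤ 1

/-- CT: slot systems exist. -/
def SlotSystemStatement : Prop := ∀ η : ℝ, 0 < η → Nonempty (SlotSystem η)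

/-- AT: a slot system gives flat real polynomials with coefficients almost in `[-1,1]`
and length at most `(1+η+ε) N`. -/
def AnalyticStatement : Prop :=
  ∀ η : ℝ, 0 < η → ∀ _S : SlotSystem η, ∀ ε : ℝ, 0 < ε → ∃ N₀ : ℕ, ∀ N : ℕ, N₀ ≤ N →
    ∃ (N' : ℕ) (x : ℕ → ℝ), (N' : ℝ) ≤ (1 + η + ε) * N ∧ (∀ k, |x k| ≤ 1 + η + ε) ∧
      ∀ θ : ℝ, |‖∑ k ∈ range N', (x k : ℂ) * e (k * θ)‖ - Real.sqrt N| ≤ ε * Real.sqrt N

/-! ## AT: internal interfaces -/

/-- AT-vdC1 (first derivative test), `φ` is the phase, `g = φ'`, monotone. -/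
def VdC1Statement : Prop :=
  ∀ (a b lam : ℝ), a ≤ b → 0 < lam → ∀ φ g g' : ℝ → ℝ,
    (∀ x ∈ Set.Icc a b, HasDerivAt φ (g x) x) → (∀ x ∈ Set.Icc a b, HasDerivAt g (g' x) x) →
    ContinuousOn g' (Set.Icc a b) → (∀ x ∈ Set.Icc a b, 0 ≤ g' x) →
    ((∀ x ∈ Set.Icc a b, lam ≤ g x) ∨ (∀ x ∈ Set.Icc a b, g x ≤ -lam)) →
    ‖∫ x in a..b, e (φ x)‖ ≤ 1 / lam

/-- AT-vdC2 (second derivative test). -/
def VdC2Statement : Prop :=
  ∀ (a b ρ : ℝ), a ≤ b → 0 < ρ → ∀ φ g g' : ℝ → ℝ,
    (∀ x ∈ Set.Icc a b, HasDerivAt φ (g x) x) → (∀ x ∈ Set.Icc a b, HasDerivAt g (g' x) x) →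
    ContinuousOn g' (Set.Icc a b) →
    ((∀ x ∈ Set.Icc a b, ρ ≤ g' x) ∨ (∀ x ∈ Set.Icc a b, g' x ≤ -ρ)) →
    ‖∫ x in a..b, e (φ x)‖ ≤ 4 / Real.sqrt ρ

/-- AT-Fresnel. -/
def FresnelStatement : Prop :=
  ∃ C : ℝ, ∀ R : ℝ, 0 < R → ‖(∫ s in (-R)..R, e (s ^ 2 / 2)) - e (1 / 8)‖ ≤ C / R

/-- A sweep profile `B` with its stationary phase expansion, error `ε`.
Here `D` is the amplitude and `Ψ` the (Legendre transformed) phase; only the stated
properties matter. -/
structure Profile (ε : ℝ) where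
  B : ℝ → ℝ
  B' : ℝ → ℝ
  D : ℝ → ℝ
  Ψ : ℝ → ℝ
  hasDeriv : ∀ u, HasDerivAt B (B' u) u
  contB' : Continuous B'
  B_zero : B 0 = 0
  B_one : B 1 = 1
  B'_ge : ∀ u, 1 / 2 ≤ B' u
  D_nonneg : ∀ y, 0 ≤ D y
  D_le : ∀ y, D y ≤ 1 + ε
  sp : ∃ Λ₀ : ℝ, ∀ Λ : ℝ, Λ₀ ≤ Λ → 0 < Λ → ∀ y : ℝ,
    ‖(Real.sqrt Λ : ℂ) * (∫ u in (0 : ℝ)..1, e (Λ * ((∫ v in (0 : ℝ)..u, B v) - y * u)))
      - (if 0 ≤ y ∧ y < 1 then (D y : ℂ) * e (1 / 8 - Λ * Ψ y) else 0)‖ ≤ ε

/-- AT-SP (uniform stationary phase for a profile that is steep at both ends), e.g.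
`B u = (1-μ) u + μ ((2u-1)^(2n+1) + 1)/2`. -/
def ProfileStatement : Prop := ∀ ε : ℝ, 0 < ε → Nonempty (Profile ε)

namespace SlotSystem
variable {η : ℝ} (S : SlotSystem η)

/-- left end of the main part of slot `i` -/
noncomputable def sL (κ : ℝ) (i : ℕ) : ℝ := S.τ i + κ * (S.τ (i + 1) - S.τ i) / 2
/-- right end of the main part of slot `i` -/
noncomputable def sR (κ : ℝ) (i : ℕ) : ℝ := S.τ (i + 1) - κ * (S.τ (i + 1) - S.τ i) / 2
/-- left end of connector `i`, `0 ≤ i ≤ n` -/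
noncomputable def cL (κ : ℝ) (i : ℕ) : ℝ := if i = 0 then 0 else S.sR κ (i - 1)
/-- right end of connector `i`, `0 ≤ i ≤ n` -/
noncomputable def cR (κ : ℝ) (i : ℕ) : ℝ := if i = S.n then 1 / 2 else S.sL κ i
/-- first integer frequency of block `p` at scale `N` -/
noncomputable def X (N p : ℕ) : ℕ := ∑ q ∈ range p, ⌈(N : ℝ) * S.β q⌉₊
/-- the anchor of slot `i` inside its main part -/
noncomputable def anc (κ : ℝ) (i : ℕ) : ℝ := if S.up i then S.sL κ i else S.sR κ i
/-- `±1` -/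
noncomputable def sg (i : ℕ) : ℝ := if S.up i then 1 else -1

end SlotSystem

/-- AT-A: the frequency function `b`. -/
def FreqStatement : Prop :=
  ∀ η : ℝ, 0 < η → ∀ S : SlotSystem η, ∀ ε : ℝ, 0 < ε → ∀ Pr : Profile ε,
    ∀ κ : ℝ, 0 < κ → κ < 1 / 2 → ∀ ε' : ℝ, 0 < ε' →
    ∃ L : ℝ, 0 < L ∧ ∃ N₀ : ℕ, ∀ N : ℕ, N₀ ≤ N → ∃ b : ℝ → ℝ,
      (∀ x y, |b x - b y| ≤ L * |x - y|) ∧
      (∀ x, 0 ≤ b x ∧ b x ≤ 1 + η + ε') ∧
      (∀ x, b (-x) = b x) ∧ (∀ x, b (x + 1) = b x) ∧
      (∀ i < S.n, ∀ θ ∈ Set.Icc (S.sL κ i) (S.sR κ i),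
        b θ = S.X N (S.blk i) / N + S.β (S.blk i) *
          Pr.B (S.sg i * (θ - S.anc κ i) / ((1 - κ) * (S.τ (i + 1) - S.τ i)))) ∧
      (∀ i < S.n, ∃ z : ℤ, N * (∫ t in (0 : ℝ)..(S.anc κ i), b t) =
        S.ω i + S.X N (S.blk i) * S.anc κ i - S.sg i / 8 + z) ∧
      (∃ z : ℤ, 2 * N * (∫ t in (0 : ℝ)..(1 / 2), b t) = z) ∧
      (∀ i ≤ S.n, ∀ k : ℤ,
        ‖(Real.sqrt N : ℂ) * ∫ θ in (S.cL κ i)..(S.cR κ i),
          e (N * (∫ t in (0 : ℝ)..θ, b t) - k * θ)‖ ≤ 16 * Real.sqrt κ)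

/-- AT-B: coefficients. -/
def CoeffStatement : Prop :=
  ∀ η : ℝ, 0 < η → ∀ _S : SlotSystem η, ∀ ε : ℝ, 0 < ε →
    ∃ L : ℝ, 0 < L ∧ ∃ N₀ : ℕ, ∀ N : ℕ, N₀ ≤ N → ∃ b : ℝ → ℝ,
      (∀ x y, |b x - b y| ≤ L * |x - y|) ∧
      (∀ x, 0 ≤ b x ∧ b x ≤ 1 + η + ε) ∧ (∀ x, b (x + 1) = b x) ∧
      (∃ z : ℤ, N * (∫ t in (0 : ℝ)..1, b t) = z) ∧
      ∀ k : ℤ, ∃ f : ℝ, |f| ≤ 1 + η + ε ∧
        (f : ℂ) = Real.sqrt N * ∫ t in (0 : ℝ)..1, e (N * (∫ s in (0 : ℝ)..t, b s) - k * t)

/-- AT-C: smooth truncation of the Fourier expansion of a slowly varying chirp. -/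
def TruncStatement : Prop :=
  ∀ L T ε : ℝ, 0 < L → 0 < T → 0 < ε → ∃ N₀ : ℕ, ∀ N : ℕ, N₀ ≤ N → ∀ b : ℝ → ℝ,
    (∀ x y, |b x - b y| ≤ L * |x - y|) → (∀ x, 0 ≤ b x ∧ b x ≤ T) → (∀ x, b (x + 1) = b x) →
    (∃ z : ℤ, N * (∫ t in (0 : ℝ)..1, b t) = z) →
    ∃ (K K' : ℕ) (v : ℤ → ℝ), (K : ℝ) ≤ ε * N ∧ (K' : ℝ) ≤ (T + ε) * N ∧
      (∀ k, 0 ≤ v k ∧ v k ≤ 1) ∧
      ∀ θ : ℝ, ‖(∑ k ∈ Finset.Ico (-(K : ℤ)) K', (v k : ℂ) *
          (∫ t in (0 : ℝ)..1, e (N * (∫ s in (0 : ℝ)..t, b s) - k * t)) * e (k * θ))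
        - e (N * ∫ t in (0 : ℝ)..θ, b t)‖ ≤ ε

/-! ## Combinatorial part -/

/-- integer dot product -/
def dot {d : ℕ} (x y : Fin d → ℤ) : ℤ := ∑ i, x i * y i

/-- A finite set of integer vectors whose last nonzero coordinate is `1` (so distinct elements are
never parallel), and a vector `V` with `χ·V > 0` on the set. -/
structure GoodSet (d : ℕ) (X : Finset (Fin d → ℤ)) (V : Fin d → ℤ) : Prop where
  two_le : 2 ≤ d
  nonempty : X.Nonempty
  top : ∀ χ ∈ X, ∃ j, χ j = 1 ∧ ∀ i, j < i → χ i = 0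
  V_pos : ∀ χ ∈ X, 0 < dot χ V

/-- F: a real trigonometric polynomial with `|F| ≤ 1` and `‖F‖₂² ≥ 1 - η` whose spectrum is
`±X`. -/
def NearSignStatement : Prop :=
  ∀ η : ℝ, 0 < η → ∃ (d : ℕ) (X : Finset (Fin d → ℤ)) (V : Fin d → ℤ) (a : (Fin d → ℤ) → ℝ),
    GoodSet d X V ∧ (∀ χ ∈ X, a χ ≠ 0) ∧
    (∀ γ : Fin d → ℝ,
      |2 * ∑ χ ∈ X, a χ * Real.cos (2 * Real.pi * ∑ i, χ i * γ i)| ≤ 1) ∧
    1 - η ≤ 2 * ∑ χ ∈ X, a χ ^ 2

/-- COL: the random colouring lemma. `J` = number of shifts, `c χ j` = shift. -/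
def ColoringStatement : Prop :=
  ∀ (d : ℕ) (X : Finset (Fin d → ℤ)) (V : Fin d → ℤ), GoodSet d X V →
    ∀ p : (Fin d → ℤ) → ℝ, (∀ χ ∈ X, 0 < p χ) → 2 * ∑ χ ∈ X, p χ = 1 →
    ∀ (J : ℕ) (c : (Fin d → ℤ) → ℕ → ℕ), 1 ≤ J → ∀ ε : ℝ, 0 < ε →
    ∃ m₀ : ℕ, ∀ m : ℕ, m₀ ≤ m → m.Prime →
      ∃ (col : ZMod m → Option (Fin d → ℤ)) (G : Finset ((Fin d → ZMod m) × ℕ)),
        (∀ t, col t ≠ none → col (-1 - t) = none) ∧
        (∀ r ∈ G, r.2 < J) ∧
        (∀ r ∈ G, ∀ χ ∈ X, col (∑ i, (χ i : ZMod m) * r.1 i + c χ r.2) = some χ) ∧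
        (∀ χ ∈ X, ∀ t : ZMod m, ∀ j < J,
          (((G.filter fun r => r.2 = j ∧
            ∑ i, (χ i : ZMod m) * r.1 i + c χ r.2 = t).card : ℝ) * (J * m * p χ)
            ≤ (1 + ε) * G.card)) ∧
        (∏ χ ∈ X, p χ) / 2 * (m : ℝ) ^ d ≤ G.card

/-- GAUSS: chirps on `ZMod m`. -/
def GaussStatement : Prop :=
  ∀ m : ℕ, Odd m → ∀ A : ℤ, IsCoprime A (m : ℤ) → ∃ w : ℕ → ℝ, ∀ k : ℤ,
    ∑ s ∈ range m, e (w s - k * s / m) = (Real.sqrt m : ℂ) * e (-(A * k ^ 2 / m))

/-- A comb system: `P` combs with vectors `R p`, mode `χ` of comb `p` occupies the integers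
`χ·R_p + i + s q_χ g`, `0 ≤ i < χ·V`, `s` any integer. -/
structure CombSystem (d : ℕ) (X : Finset (Fin d → ℤ)) (V : Fin d → ℤ) where
  g : ℕ
  P : ℕ
  q : (Fin d → ℤ) → ℕ
  c : Fin d → ℤ
  R : ℕ → Fin d → ℤ
  g_pos : 0 < g
  g_even : Even g
  P_pos : 0 < P
  q_odd : ∀ χ ∈ X, Odd (q χ)
  q_coprime : ∀ χ ∈ X, ∀ χ' ∈ X, χ ≠ χ' → (q χ).Coprime (q χ')
  c_dvd : ∀ χ ∈ X, (q χ : ℤ) ∣ dot χ c
  c_coprime : ∀ χ ∈ X, ∀ χ' ∈ X, χ ≠ χ' → IsCoprime (dot χ' c) (q χ : ℤ)
  disj : ∀ p < P, ∀ p' < P, ∀ χ ∈ X, ∀ χ' ∈ X, ∀ x i i' : ℤ,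
    0 ≤ i → i < dot χ V → 0 ≤ i' → i' < dot χ' V →
    ((q χ : ℤ) * g) ∣ (x - dot χ (R p) - i) →
    ((q χ' : ℤ) * g) ∣ (x - dot χ' (R p') - i') → p = p' ∧ χ = χ'
  disj' : ∀ p < P, ∀ p' < P, ∀ χ ∈ X, ∀ χ' ∈ X, ∀ x i i' : ℤ,
    0 ≤ i → i < dot χ V → 0 ≤ i' → i' < dot χ' V →
    ((q χ : ℤ) * g) ∣ (x - dot χ (R p) - i) →
    ¬ ((q χ' : ℤ) * g) ∣ ((-1 - x) - dot χ' (R p') - i')

/-- COMB: comb systems with near optimal density exist. -/
def CombStatement : Prop :=
  ∀ (d : ℕ) (X : Finset (Fin d → ℤ)) (V : Fin d → ℤ), GoodSet d X V →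
    ∀ p : (Fin d → ℤ) → ℝ, (∀ χ ∈ X, 0 < p χ) → 2 * ∑ χ ∈ X, p χ = 1 →
    ∀ ε : ℝ, 0 < ε → ∃ S : CombSystem d X V, ∀ χ ∈ X,
      (S.P * dot χ V : ℝ) / (S.g * p χ) ≤ S.q χ ∧
      (S.q χ : ℝ) ≤ (1 + ε) * ((S.P * dot χ V : ℝ) / (S.g * p χ))

/-- A cell system: the half circle `[0,1/2]` is cut into `K` cells; slots are indexed by a finite
type and are intervals of cells; blocks are indexed by a finite type. -/
structure CellSystem (η : ℝ) where
  K : ℕ
  ι : Type
  κ : Type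
  fι : Fintype ι
  fκ : Fintype κ
  dκ : DecidableEq κ
  start : ι → ℕ
  len : ι → ℕ
  up : ι → Bool
  ω : ι → ℝ
  blk : ι → κ
  β : κ → ℝ
  K_pos : 0 < K
  len_pos : ∀ i, 0 < len i
  le_K : ∀ i, start i + len i ≤ K
  cover : ∀ j < K, ∃! i, start i ≤ j ∧ j < start i + len i
  β_pos : ∀ p, 0 < β p
  sum_β : ∑ p, β p ≤ 1 + η
  alg : ∀ p, ∀ k : ℤ, ∀ ζ : ℝ,
    |∑ i ∈ univ.filter (fun i => blk i = p),
      2 * Real.sqrt ((len i : ℝ) / (2 * K) / β p) *
        Real.cos (2 * Real.pi * (ω i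
          - k * (if up i then (start i : ℝ) / (2 * K) else ((start i + len i : ℕ) : ℝ) / (2 * K))
          - (if up i then 1 else -1) * ((len i : ℝ) / (2 * K)) * ζ))| ≤ 1

/-- SORT -/
def SortStatement : Prop := ∀ η : ℝ, 0 < η → ∀ _C : CellSystem η, Nonempty (SlotSystem η)

/-- CELL: cell systems exist (from NearSign, Comb, Gauss). -/
def CellStatement : Prop := ∀ η : ℝ, 0 < η → Nonempty (CellSystem η)

end Vale.Agent.P110
end
end

section

section

/-!
Shared definitions for the analytic part (AT): basic facts on `e`, profiles, slot integrals,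
frequency paths and their oscillatory integrals `J`.
-/

namespace Vale.Agent.P110.AT

open Vale.Agent.P110 (e)

theorem norm_e (x : ℝ) : ‖e x‖ = 1 := by
  unfold e
  rw [Complex.norm_exp_ofReal_mul_I]

theorem e_add (x y : ℝ) : e (x + y) = e x * e y := by
  unfold e
  rw [← Complex.exp_add]
  congr 1
  push_cast
  ring

theorem e_neg (x : ℝ) : e (-x) = starRingEnd ℂ (e x) := by
  unfold e
  rw [← Complex.exp_conj, map_mul, Complex.conj_ofReal, Complex.conj_I]
  congr 1
  push_cast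
  ring

theorem e_zero : e 0 = 1 := by simp only [e, mul_zero, Complex.ofReal_zero, zero_mul, Complex.exp_zero]

theorem e_int (m : ℤ) : e m = 1 := by
  unfold e
  rw [Complex.exp_eq_one_iff]
  exact ⟨m, by push_cast; ring⟩

theorem e_add_int (x : ℝ) (m : ℤ) : e (x + m) = e x := by
  rw [e_add, e_int, mul_one]

theorem e_re (x : ℝ) : (e x).re = Real.cos (2 * Real.pi * x) := by
  unfold e
  rw [Complex.exp_ofReal_mul_I_re]

theorem continuous_e : Continuous e := by
  unfold e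
  fun_prop

theorem hasDerivAt_e (x : ℝ) : HasDerivAt e (2 * Real.pi * Complex.I * e x) x := by
  unfold e
  have h1 : HasDerivAt (fun x : ℝ => ((2 * Real.pi * x : ℝ) : ℂ) * Complex.I)
      (((2 * Real.pi : ℝ) : ℂ) * Complex.I) x := by
    apply HasDerivAt.mul_const
    have : HasDerivAt (fun x : ℝ => 2 * Real.pi * x) (2 * Real.pi) x := by
      simpa using (hasDerivAt_id x).const_mul (2 * Real.pi)
    exact this.ofReal_comp
  have h2 := h1.cexp
  convert h2 using 1
  push_cast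
  ring

/-- A slowly varying profile `D` (the derivative of the time change on a slot). -/
structure Prof (D : ℝ → ℝ) (κ L : ℝ) : Prop where
  kpos : 0 < κ
  kle : κ ≤ 1
  lip : ∀ x y, |D x - D y| ≤ L * |x - y|
  lower : ∀ x, κ ≤ D x
  upper : ∀ x, D x ≤ 1
  left : ∀ x ≤ 0, D x = κ
  right : ∀ x, 1 ≤ x → D x = κ

/-- The oscillatory integral of one slot. -/
noncomputable def slotInt (D : ℝ → ℝ) (lam a : ℝ) : ℂ :=
  ∫ y in (0 : ℝ)..1, (D y : ℂ) * e (lam * ∫ u in a..y, D u * (u - a))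

/-- `B` is a frequency path on `[0,l]` from `b0` to `b1` (constant outside `[0,l]`). -/
structure IsPath (B : ℝ → ℝ) (l b0 b1 L : ℝ) : Prop where
  lip : ∀ x y, |B x - B y| ≤ L * |x - y|
  left : ∀ x ≤ 0, B x = b0
  right : ∀ x, l ≤ x → B x = b1

/-- The oscillatory integral of a path. -/
noncomputable def J (B : ℝ → ℝ) (l k : ℝ) : ℂ :=
  ∫ x in (0 : ℝ)..l, e ((∫ t in (0 : ℝ)..x, B t) - k * x)

end Vale.Agent.P110.AT
end
end

section

section

/-! # P110, C4: auxiliary lemmas for comb systems (primes in windows, CRT, labels) -/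

namespace Vale.Agent.P110.CombB

open Finset Filter

/-! ### primes in short windows -/

theorem exists_primes_window (n : ℕ) : ∀ δ : ℝ, 0 < δ → ∀ᶠ x : ℝ in atTop,
    ∃ T : Finset ℕ, n ≤ T.card ∧ ∀ p ∈ T, p.Prime ∧ x < p ∧ (p : ℝ) ≤ (1 + δ) * x := by
  induction n with
  | zero =>
    intro δ _
    exact Eventually.of_forall fun x => ⟨∅, le_rfl, by simp only [notMem_empty, IsEmpty.forall_iff, implies_true]⟩
  | succ n ih =>
    intro δ hδ
    set δ' : ℝ := min δ 1 / 3 with hδ'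
    have h0 : 0 < min δ 1 := lt_min hδ one_pos
    have h1 : 0 < δ' := by positivity
    have h2 : δ' ≤ 1 / 3 := by
      have := min_le_right δ 1
      rw [hδ']; linarith only [this]
    have h3 : δ' ≤ δ / 3 := by
      have := min_le_left δ 1
      rw [hδ']; linarith only [this]
    have h4 : (1 + δ') * (1 + δ') ≤ 1 + δ := by nlinarith only [h1, h3, h2]
    have hmul : Tendsto (fun x : ℝ => (1 + δ') * x) atTop atTop :=
      tendsto_id.const_mul_atTop (by linarith only [h1])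
    filter_upwards [ih δ' h1, hmul.eventually (Vale.Agent.PNT.exists_prime_Ioc h1),
      eventually_gt_atTop 0] with x hx hx2 hx0
    obtain ⟨T, hT, hTp⟩ := hx
    obtain ⟨p, hp, hp1, hp2⟩ := hx2
    have hpT : p ∉ T := fun h => absurd (hTp p h).2.2 (not_le.2 hp1)
    refine ⟨insert p T, ?_, ?_⟩
    · rw [card_insert_of_notMem hpT]
      omega
    · intro p' hp'
      rcases mem_insert.1 hp' with rfl | hp'
      · refine ⟨hp, ?_, ?_⟩
        · nlinarith only [hp1, hδ', h0]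
        · calc (p' : ℝ) ≤ (1 + δ') * ((1 + δ') * x) := hp2
            _ = (1 + δ') * (1 + δ') * x := by ring
            _ ≤ (1 + δ) * x := by nlinarith only [h4, hx0]
      · obtain ⟨a1, a2, a3⟩ := hTp p' hp'
        refine ⟨a1, a2, a3.trans ?_⟩
        nlinarith only [a3, a2, h4, hδ', h0]

/-! ### distinct representatives -/

theorem exists_inj_choice {α : Type*} [DecidableEq α] (n : ℕ) (T : α → Finset ℕ) (X : Finset α) :
    X.card ≤ n → (∀ χ ∈ X, n ≤ (T χ).card) →
    ∃ q : α → ℕ, (∀ χ ∈ X, q χ ∈ T χ) ∧ ∀ χ ∈ X, ∀ χ' ∈ X, q χ = q χ' → χ = χ' := by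
  induction X using Finset.induction_on with
  | empty =>
    intro _ _
    exact ⟨fun _ => 0, by simp only [notMem_empty, IsEmpty.forall_iff, implies_true], by simp⟩
  | insert a s ha ih =>
    intro hcard hT
    rw [card_insert_of_notMem ha] at hcard
    obtain ⟨q, hq1, hq2⟩ := ih (by omega) fun χ hχ => hT χ (mem_insert_of_mem hχ)
    have hex : ∃ x ∈ T a, x ∉ s.image q := by
      by_contra hcon
      push Not at hcon
      have h1 : (T a).card ≤ (s.image q).card := card_le_card fun x hx => hcon x hx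
      have h2 := hT a (mem_insert_self _ _)
      have h3 : (s.image q).card ≤ s.card := card_image_le
      omega
    obtain ⟨x, hx1, hx2⟩ := hex
    refine ⟨fun χ => if χ = a then x else q χ, ?_, ?_⟩
    · intro χ hχ
      rcases mem_insert.1 hχ with rfl | hχ
      · simpa using hx1
      · have : χ ≠ a := fun e => ha (e ▸ hχ)
        simpa [this] using hq1 χ hχ
    · intro χ hχ χ' hχ' h
      rcases mem_insert.1 hχ with h1 | h1 <;> rcases mem_insert.1 hχ' with h2 | h2
      · rw [h1, h2]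
      · exfalso
        have h' : χ' ≠ a := fun e => ha (e ▸ h2)
        simp only [if_pos h1, if_neg h'] at h
        exact hx2 (mem_image.2 ⟨χ', h2, h.symm⟩)
      · exfalso
        have h' : χ ≠ a := fun e => ha (e ▸ h1)
        simp only [if_pos h2, if_neg h'] at h
        exact hx2 (mem_image.2 ⟨χ, h1, h⟩)
      · have h1' : χ ≠ a := fun e => ha (e ▸ h1)
        have h2' : χ' ≠ a := fun e => ha (e ▸ h2)
        simp only [if_neg h1', if_neg h2'] at h
        exact hq2 χ h1 χ' h2 h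

/-! ### Chinese remainder theorem over the integers -/

theorem int_crt {α : Type*} (X : Finset α) (q : α → ℕ) (hq : ∀ χ ∈ X, (q χ).Prime)
    (hinj : ∀ χ ∈ X, ∀ χ' ∈ X, q χ = q χ' → χ = χ') (a : α → ℤ) :
    ∃ z : ℤ, ∀ χ ∈ X, (q χ : ℤ) ∣ z - a χ := by
  have hpp : Set.Pairwise (X : Set α) (Function.onFun Nat.Coprime q) := by
    intro χ hχ χ' hχ' hne
    exact (Nat.coprime_primes (hq χ hχ) (hq χ' hχ')).2 fun h => hne (hinj χ hχ χ' hχ' h)
  obtain ⟨k, hk⟩ := Nat.chineseRemainderOfFinset (fun χ => (a χ % (q χ : ℤ)).toNat) q X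
    (fun χ hχ => (hq χ hχ).pos.ne') hpp
  refine ⟨k, fun χ hχ => ?_⟩
  have h1 := (Nat.modEq_iff_dvd.1 (hk χ hχ))
  have hpos : (0 : ℤ) < q χ := by exact_mod_cast (hq χ hχ).pos
  rw [Int.toNat_of_nonneg (Int.emod_nonneg _ hpos.ne')] at h1
  have h2 : (q χ : ℤ) ∣ a χ - a χ % (q χ : ℤ) := Int.dvd_self_sub_emod
  have h3 := (dvd_add h1 h2)
  have h4 : a χ % (q χ : ℤ) - (k : ℤ) + (a χ - a χ % (q χ : ℤ)) = -((k : ℤ) - a χ) := by ring
  rw [h4] at h3
  exact (dvd_neg).1 h3

/-! ### labels -/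

theorem exists_label {α β : Type*} [DecidableEq α] [DecidableEq β] (G : Finset α) (u : α → β)
    (q : ℕ) (h : ∀ r ∈ G, (G.filter (fun r' => u r' = u r)).card ≤ q) :
    ∃ lab : α → ℕ, (∀ r ∈ G, lab r < q) ∧
      ∀ r ∈ G, ∀ r' ∈ G, u r = u r' → lab r = lab r' → r = r' := by
  classical
  let idx : α → ℕ := fun r => if hr : r ∈ G then (G.equivFin ⟨r, hr⟩ : ℕ) else 0
  have hidx : ∀ r ∈ G, ∀ r' ∈ G, idx r = idx r' → r = r' := by
    intro r hr r' hr' he
    simp only [idx, hr, hr', dif_pos] at he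
    have := G.equivFin.injective (Fin.ext he)
    exact congrArg Subtype.val this
  have hlt : ∀ r ∈ G, ∀ r' ∈ G, u r = u r' → idx r < idx r' →
      (G.filter (fun s => u s = u r ∧ idx s < idx r)).card <
        (G.filter (fun s => u s = u r' ∧ idx s < idx r')).card := by
    intro r hr r' hr' hu hi
    apply card_lt_card
    rw [ssubset_iff_of_subset]
    · refine ⟨r, mem_filter.2 ⟨hr, hu, hi⟩, fun hc => ?_⟩
      exact lt_irrefl _ (mem_filter.1 hc).2.2
    · intro s hs
      obtain ⟨h1, h2, h3⟩ := mem_filter.1 hs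
      exact mem_filter.2 ⟨h1, h2.trans hu, h3.trans hi⟩
  refine ⟨fun r => (G.filter (fun s => u s = u r ∧ idx s < idx r)).card, ?_, ?_⟩
  · intro r hr
    refine lt_of_lt_of_le ?_ (h r hr)
    apply card_lt_card
    rw [ssubset_iff_of_subset]
    · refine ⟨r, mem_filter.2 ⟨hr, rfl⟩, fun hc => ?_⟩
      exact lt_irrefl _ (mem_filter.1 hc).2.2
    · intro s hs
      obtain ⟨h1, h2, -⟩ := mem_filter.1 hs
      exact mem_filter.2 ⟨h1, h2⟩
  · intro r hr r' hr' hu hl
    simp only at hl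
    rcases lt_trichotomy (idx r) (idx r') with h1 | h1 | h1
    · exact absurd hl (hlt r hr r' hr' hu h1).ne
    · exact hidx r hr r' hr' h1
    · exact absurd hl (hlt r' hr' r hr hu.symm h1).ne'

/-! ### counting shifts -/

theorem card_shift_le (L b' o : ℕ) (hL : 0 < L) :
    ((range (b' * L)).filter (fun j => (j * L) % (b' * L) = o)).card ≤ L := by
  calc ((range (b' * L)).filter (fun j => (j * L) % (b' * L) = o)).card
      ≤ (range L).card := by
        apply card_le_card_of_injOn (fun j => j / b')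
        · intro j hj
          rw [mem_coe, mem_filter, mem_range] at hj
          rw [mem_coe, mem_range]
          exact Nat.div_lt_of_lt_mul hj.1
        · intro j hj j' hj' h
          rw [mem_coe, mem_filter] at hj hj'
          have h1 := hj.2.trans hj'.2.symm
          rw [Nat.mul_mod_mul_right, Nat.mul_mod_mul_right] at h1
          have h2 : j % b' = j' % b' := Nat.eq_of_mul_eq_mul_right hL h1
          have h3 : j / b' = j' / b' := h
          rw [← Nat.div_add_mod j b', ← Nat.div_add_mod j' b', h2, h3]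
    _ = L := card_range L

theorem divmod_unique {b a a' s s' : ℤ} (hs : 0 ≤ s) (hs1 : s < b) (hs2 : 0 ≤ s') (hs3 : s' < b)
    (h : b * a + s = b * a' + s') : a = a' ∧ s = s' := by
  have ha : a = a' := by
    rcases lt_trichotomy a a' with h1 | h1 | h1
    · (clear * - hs1 hs2 h h1 hs; nlinarith)
    · exact h1
    · nlinarith only [h1, hs, hs3, h, hs1]
  subst ha
  exact ⟨rfl, by linarith only [h]⟩

/-! ### the vectors `c` -/

variable {d : ℕ}

theorem exists_cvec {X : Finset (Fin d → ℤ)} {V : Fin d → ℤ} (hX : GoodSet d X V)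
    {χ : Fin d → ℤ} (hχ : χ ∈ X) : ∃ v : Fin d → ℤ, dot χ v = 0 ∧
      ∀ χ' ∈ X, χ ≠ χ' → dot χ' v ≠ 0 := by
  classical
  obtain ⟨j, hj, hj2⟩ := hX.top χ hχ
  let Q : (Fin d → ℤ) → Polynomial ℤ := fun χ' =>
    ∑ i : Fin d, Polynomial.C (χ' i - χ' j * χ i) * Polynomial.X ^ (i : ℕ)
  have hcoeff : ∀ χ' (i : Fin d), (Q χ').coeff (i : ℕ) = χ' i - χ' j * χ i := by
    intro χ' i
    simp only [Polynomial.finsetSum_coeff, Polynomial.coeff_C_mul_X_pow, Q]
    rw [Finset.sum_eq_single i]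
    · simp
    · intro k _ hk
      rw [if_neg]
      intro h
      exact hk (Fin.ext h.symm)
    · simp only [mem_univ, not_true_eq_false, ↓reduceIte, IsEmpty.forall_iff]
  have hQ : ∀ χ' ∈ X, χ ≠ χ' → Q χ' ≠ 0 := by
    intro χ' hχ' hne h0
    have h1 : ∀ k, χ' k = χ' j * χ k := by
      intro k
      have := hcoeff χ' k
      rw [h0, Polynomial.coeff_zero] at this
      linarith only [this]
    obtain ⟨j', hj', hj2'⟩ := hX.top χ' hχ'
    have h2 : χ' j ≠ 0 := by
      intro h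
      have := h1 j'
      rw [h, zero_mul, hj'] at this
      exact one_ne_zero this
    have h3 : j ≤ j' := by
      by_contra hlt
      push Not at hlt
      exact h2 (hj2' j hlt)
    have h4 : j' ≤ j := by
      by_contra hlt
      push Not at hlt
      have := h1 j'
      rw [hj', hj2 j' hlt, mul_zero] at this
      exact one_ne_zero this
    have h5 : j' = j := le_antisymm h4 h3
    rw [h5] at hj'
    apply hne
    funext k
    rw [h1 k, hj', one_mul]
  have hprod : (∏ χ' ∈ X.filter (fun χ' => χ ≠ χ'), Q χ') ≠ 0 := by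
    rw [Finset.prod_ne_zero_iff]
    intro χ' hχ'
    rw [mem_filter] at hχ'
    exact hQ χ' hχ'.1 hχ'.2
  obtain ⟨T, hT⟩ : ∃ T : ℤ, (∏ χ' ∈ X.filter (fun χ' => χ ≠ χ'), Q χ').eval T ≠ 0 := by
    by_contra hcon
    push Not at hcon
    apply hprod
    apply Polynomial.funext
    intro T
    rw [hcon T, Polynomial.eval_zero]
  rw [Polynomial.eval_prod, Finset.prod_ne_zero_iff] at hT
  have hgen : ∀ χ' : Fin d → ℤ,
      dot χ' (fun i => T ^ (i : ℕ) - if i = j then ∑ k : Fin d, χ k * T ^ (k : ℕ) else 0) =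
        (Q χ').eval T := by
    intro χ'
    simp only [Q, dot, Polynomial.eval_finsetSum, Polynomial.eval_mul, Polynomial.eval_C,
      Polynomial.eval_pow, Polynomial.eval_X]
    simp only [mul_sub, Finset.sum_sub_distrib, mul_ite, mul_zero, Finset.sum_ite_eq', mem_univ,
      if_true, sub_mul]
    rw [Finset.mul_sum]
    congr 1
    apply Finset.sum_congr rfl
    intro i _
    ring
  refine ⟨fun i => T ^ (i : ℕ) - if i = j then ∑ k : Fin d, χ k * T ^ (k : ℕ) else 0, ?_, ?_⟩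
  · rw [hgen]
    simp only [eq_intCast, Int.cast_sub, Int.cast_mul, hj, Int.cast_one, one_mul, sub_self, zero_mul, sum_const_zero, Polynomial.eval_zero, Q]
  · intro χ' hχ' hne
    rw [hgen]
    exact hT χ' (mem_filter.2 ⟨hχ', hne⟩)

end Vale.Agent.P110.CombB
end
end

section

section

/-! # P110, C4: comb systems exist -/

namespace Vale.Agent.P110.CombB

open Finset Filter

variable {d : ℕ}

/-- the coloured point of mode `χ` of the comb `r` -/
noncomputable def tt (V : Fin d → ℤ) (m b : ℕ) (χ : Fin d → ℤ) (r : (Fin d → ZMod m) × ℕ) : ZMod m :=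
  ∑ i, (χ i : ZMod m) * r.1 i + ((r.2 * (dot χ V).toNat / b : ℕ) : ZMod m)

/-- the offset inside the block -/
def oo (V : Fin d → ℤ) (b : ℕ) (χ : Fin d → ℤ) (j : ℕ) : ℕ := (j * (dot χ V).toNat) % b

/-- the residue modulo `g = m b` of mode `χ` of the comb `r` -/
noncomputable def uu (V : Fin d → ℤ) (m b : ℕ) (χ : Fin d → ℤ) (r : (Fin d → ZMod m) × ℕ) : ℕ :=
  b * (tt V m b χ r).val + oo V b χ r.2

/-- the vector of a comb with prescribed labels -/
theorem exists_vec {X : Finset (Fin d → ℤ)} {V : Fin d → ℤ} (hX : GoodSet d X V) {m b : ℕ}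
    [NeZero m] (q : (Fin d → ℤ) → ℕ) (hq : ∀ χ ∈ X, (q χ).Prime)
    (hinj : ∀ χ ∈ X, ∀ χ' ∈ X, q χ = q χ' → χ = χ') (r : (Fin d → ZMod m) × ℕ)
    (lab : (Fin d → ℤ) → ℤ) :
    ∃ v : Fin d → ℤ, ∀ χ ∈ X,
      ((q χ : ℤ) * (m * b : ℕ)) ∣
        (dot χ v - ((uu V m b χ r : ℤ) + (m * b : ℕ) * lab χ)) := by
  classical
  -- the number `w` with `b χ·σ + j L = u + g w`
  have hw : ∀ χ ∈ X, ∃ w : ℤ, (b : ℤ) * (∑ i, χ i * ((r.1 i).val : ℤ)) +
      r.2 * dot χ V = uu V m b χ r + (m * b : ℕ) * w := by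
    intro χ hχ
    have hL : ((dot χ V).toNat : ℤ) = dot χ V :=
      Int.toNat_of_nonneg (hX.V_pos χ hχ).le
    have hdvd : (m : ℤ) ∣ (∑ i, χ i * ((r.1 i).val : ℤ) +
        ((r.2 * (dot χ V).toNat / b : ℕ) : ℤ)) - ((tt V m b χ r).val : ℤ) := by
      rw [← ZMod.intCast_zmod_eq_zero_iff_dvd, Int.cast_sub, Int.cast_add, Int.cast_natCast,
        Int.cast_natCast, Int.cast_sum]
      simp only [Int.cast_mul, Int.cast_natCast, ZMod.natCast_zmod_val]
      exact sub_self _
    obtain ⟨w, hw⟩ := hdvd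
    refine ⟨w, ?_⟩
    have h1 : ((b : ℤ) * ((r.2 * (dot χ V).toNat / b : ℕ) : ℤ)) +
        ((oo V b χ r.2 : ℕ) : ℤ) = r.2 * dot χ V := by
      have := Nat.div_add_mod (r.2 * (dot χ V).toNat) b
      rw [← hL]
      exact_mod_cast this
    rw [uu]
    push_cast
    rw [← h1]
    have h2 : (b : ℤ) * (∑ i, χ i * ((r.1 i).val : ℤ)) + (b : ℤ) *
        ((r.2 * (dot χ V).toNat / b : ℕ) : ℤ) =
        b * ((tt V m b χ r).val : ℤ) + b * (m * w) := by
      rw [← hw]; ring
    push_cast at h2 ⊢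
    (clear * - h2; linarith)
  choose! w hw using hw
  have hne : Nonempty (Fin d) := ⟨⟨0, by have := hX.two_le; omega⟩⟩
  have htop : ∀ χ ∈ X, ∃ j, χ j = 1 := fun χ hχ => by
    obtain ⟨j, hj, -⟩ := hX.top χ hχ
    exact ⟨j, hj⟩
  choose! jj hjj using htop
  have hz := fun i : Fin d =>
    int_crt X q hq hinj (fun χ => if i = jj χ then lab χ - w χ else 0)
  choose z hz using hz
  refine ⟨fun i => b * ((r.1 i).val : ℤ) + r.2 * V i + (m * b : ℕ) * z i, fun χ hχ => ?_⟩
  have hsum : dot χ (fun i => b * ((r.1 i).val : ℤ) + r.2 * V i + (m * b : ℕ) * z i) =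
      (b : ℤ) * (∑ i, χ i * ((r.1 i).val : ℤ)) + r.2 * dot χ V + (m * b : ℕ) * dot χ z := by
    simp only [dot, mul_add, Finset.sum_add_distrib]
    rw [Finset.mul_sum, Finset.mul_sum, Finset.mul_sum]
    congr 1
    · congr 1
      · apply Finset.sum_congr rfl
        intro i _
        ring
      · apply Finset.sum_congr rfl
        intro i _
        ring
    · apply Finset.sum_congr rfl
      intro i _
      ring
  have hdz : (q χ : ℤ) ∣ dot χ z - (lab χ - w χ) := by
    have h1 : (q χ : ℤ) ∣ dot χ z -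
        ∑ i, χ i * (if i = jj χ then lab χ - w χ else 0) := by
      rw [dot, ← Finset.sum_sub_distrib]
      apply Finset.dvd_sum
      intro i _
      rw [← mul_sub]
      exact Dvd.dvd.mul_left (hz i χ hχ) _
    have h2 : ∑ i, χ i * (if i = jj χ then lab χ - w χ else 0) = lab χ - w χ := by
      simp only [mul_ite, mul_zero, Finset.sum_ite_eq', mem_univ, if_true]
      rw [hjj χ hχ, one_mul]
    rwa [h2] at h1
  rw [hsum, hw χ hχ]
  obtain ⟨y, hy⟩ := hdz
  refine ⟨y, ?_⟩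
  have e1 : dot χ z = lab χ - w χ + q χ * y := by linarith only [hy]
  rw [e1]
  ring

theorem oo_facts {X : Finset (Fin d → ℤ)} {V : Fin d → ℤ} (hX : GoodSet d X V) {b : ℕ} (hb : 0 < b)
    (hbL : ∀ χ ∈ X, (dot χ V).toNat ∣ b) {χ : Fin d → ℤ} (hχ : χ ∈ X) (j : ℕ) :
    dot χ V ∣ ((oo V b χ j : ℕ) : ℤ) ∧
      ((oo V b χ j : ℕ) : ℤ) + dot χ V ≤ b := by
  have hL : ((dot χ V).toNat : ℤ) = dot χ V :=
    Int.toNat_of_nonneg (hX.V_pos χ hχ).le
  have h1 : (dot χ V).toNat ∣ oo V b χ j :=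
    (Nat.dvd_mod_iff (hbL χ hχ)).2 (dvd_mul_left _ _)
  have h2 : oo V b χ j < b := Nat.mod_lt _ hb
  rw [← hL]
  refine ⟨by exact_mod_cast h1, ?_⟩
  obtain ⟨x, hx⟩ := h1
  obtain ⟨y, hy⟩ := hbL χ hχ
  have hLpos : 0 < (dot χ V).toNat := by
    have := hX.V_pos χ hχ
    omega
  have h3 : x < y := by
    rw [hx] at h2
    conv_rhs at h2 => rw [hy]
    exact Nat.lt_of_mul_lt_mul_left h2
  have h4 : oo V b χ j + (dot χ V).toNat ≤ b := by
    rw [hx]
    conv_rhs => rw [hy]
    calc (dot χ V).toNat * x + (dot χ V).toNat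
        = (dot χ V).toNat * (x + 1) := by ring
      _ ≤ _ := Nat.mul_le_mul_left _ h3
  exact_mod_cast h4

/-- position of a cell of a comb modulo `g` -/
theorem pos_facts {X : Finset (Fin d → ℤ)} {V : Fin d → ℤ} (hX : GoodSet d X V) {m b : ℕ} [NeZero m]
    (hb : 0 < b) (hbL : ∀ χ ∈ X, (dot χ V).toNat ∣ b) {χ : Fin d → ℤ}
    (hχ : χ ∈ X) (r : (Fin d → ZMod m) × ℕ) {i : ℤ} (hi : 0 ≤ i)
    (hi1 : i < dot χ V) :
    0 ≤ (oo V b χ r.2 : ℤ) + i ∧ (oo V b χ r.2 : ℤ) + i < b ∧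
      0 ≤ (uu V m b χ r : ℤ) + i ∧ (uu V m b χ r : ℤ) + i < (m * b : ℕ) ∧
      (uu V m b χ r : ℤ) + i = b * ((tt V m b χ r).val : ℤ) + ((oo V b χ r.2 : ℤ) + i) := by
  obtain ⟨h1, h2⟩ := oo_facts hX hb hbL hχ r.2
  have h3 : 0 ≤ (oo V b χ r.2 : ℤ) := by (clear * -; positivity)
  have h4 : (uu V m b χ r : ℤ) + i = b * ((tt V m b χ r).val : ℤ) + ((oo V b χ r.2 : ℤ) + i) := by
    rw [uu]; push_cast; ring
  have h5 : ((tt V m b χ r).val : ℤ) + 1 ≤ m := by
    have := ZMod.val_lt (tt V m b χ r)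
    exact_mod_cast this
  have h6 : (0 : ℤ) ≤ ((tt V m b χ r).val : ℤ) := by (clear * -; positivity)
  have hb' : (0 : ℤ) < b := by exact_mod_cast hb
  refine ⟨by linarith only [hi], by linarith only [hi1, h2], ?_, ?_, h4⟩
  · rw [h4]
    have : (0 : ℤ) ≤ b * ((tt V m b χ r).val : ℤ) := by (clear * - hb; positivity)
    linarith only [hi, h4]
  · rw [h4]
    push_cast
    nlinarith only [hi1, h2, h5]

/-- The combinatorial core. -/
theorem comb_core {X : Finset (Fin d → ℤ)} {V : Fin d → ℤ} (hX : GoodSet d X V) {m b : ℕ} [NeZero m]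
    (hb : 0 < b) (hbe : Even b) (hbL : ∀ χ ∈ X, (dot χ V).toNat ∣ b)
    (col : ZMod m → Option (Fin d → ℤ)) (G : Finset ((Fin d → ZMod m) × ℕ))
    (hanti : ∀ t, col t ≠ none → col (-1 - t) = none)
    (hcol : ∀ r ∈ G, ∀ χ ∈ X, col (tt V m b χ r) = some χ) (hG : G.Nonempty)
    (q : (Fin d → ℤ) → ℕ) (hq : ∀ χ ∈ X, (q χ).Prime) (hq2 : ∀ χ ∈ X, 2 < q χ)
    (hinj : ∀ χ ∈ X, ∀ χ' ∈ X, q χ = q χ' → χ = χ')
    (cv : (Fin d → ℤ) → Fin d → ℤ) (hcv : ∀ χ ∈ X, dot χ (cv χ) = 0)
    (hcv' : ∀ χ ∈ X, ∀ χ' ∈ X, χ ≠ χ' → dot χ' (cv χ) ≠ 0 ∧ |dot χ' (cv χ)| < q χ)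
    (hfib : ∀ χ ∈ X, ∀ r ∈ G, (G.filter (fun r' => uu V m b χ r' = uu V m b χ r)).card ≤ q χ) :
    ∃ S : CombSystem d X V, S.g = m * b ∧ S.P = G.card ∧ ∀ χ ∈ X, S.q χ = q χ := by
  classical
  -- labels
  have hlab : ∀ χ ∈ X, ∃ lab : ((Fin d → ZMod m) × ℕ) → ℕ, (∀ r ∈ G, lab r < q χ) ∧
      ∀ r ∈ G, ∀ r' ∈ G, uu V m b χ r = uu V m b χ r' → lab r = lab r' → r = r' :=
    fun χ hχ => exists_label G (uu V m b χ) (q χ) (hfib χ hχ)
  choose! lab hlab1 hlab2 using hlab
  -- vectors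
  have hvec := fun r : (Fin d → ZMod m) × ℕ =>
    exists_vec (b := b) hX q hq hinj r (fun χ => (lab χ r : ℤ))
  choose Rv hRv using hvec
  -- the vector `c`
  have hc := fun i : Fin d => int_crt X q hq hinj (fun χ => cv χ i)
  choose c hc using hc
  have hcsum : ∀ χ ∈ X, ∀ χ' : Fin d → ℤ,
      (q χ : ℤ) ∣ dot χ' c - dot χ' (cv χ) := by
    intro χ hχ χ'
    rw [dot, dot, ← Finset.sum_sub_distrib]
    apply Finset.dvd_sum
    intro i _
    rw [← mul_sub]
    exact Dvd.dvd.mul_left (hc i χ hχ) _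
  have hm : 0 < m := Nat.pos_of_ne_zero (NeZero.ne m)
  have hgpos : (0 : ℤ) < ((m * b : ℕ) : ℤ) := by exact_mod_cast Nat.mul_pos hm hb
  -- indices
  let rr : ℕ → (Fin d → ZMod m) × ℕ := fun k =>
    if hk : k < G.card then (G.equivFin.symm ⟨k, hk⟩ : G) else (0, 0)
  have hrr : ∀ k < G.card, rr k ∈ G := by
    intro k hk
    simp only [hk, dif_pos, rr]
    exact (G.equivFin.symm ⟨k, hk⟩).2
  have hrrinj : ∀ k < G.card, ∀ k' < G.card, rr k = rr k' → k = k' := by
    intro k hk k' hk' h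
    simp only [rr, hk, hk', dif_pos] at h
    have := G.equivFin.symm.injective (Subtype.ext h)
    exact congrArg Fin.val this
  -- residues modulo g
  have hres : ∀ k, ∀ χ ∈ X, ∀ x i : ℤ,
      ((q χ : ℤ) * (m * b : ℕ)) ∣ (x - dot χ (Rv (rr k)) - i) →
      ((q χ : ℤ) * (m * b : ℕ)) ∣
        (x - ((uu V m b χ (rr k) : ℤ) + i) - (m * b : ℕ) * (lab χ (rr k) : ℤ)) := by
    intro k χ hχ x i h
    have h2 := hRv (rr k) χ hχ
    have h3 := dvd_add h h2
    have h4 : x - dot χ (Rv (rr k)) - i + (dot χ (Rv (rr k)) -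
        ((uu V m b χ (rr k) : ℤ) + (m * b : ℕ) * (lab χ (rr k) : ℤ))) =
        x - ((uu V m b χ (rr k) : ℤ) + i) - (m * b : ℕ) * (lab χ (rr k) : ℤ) := by ring
    rwa [h4] at h3
  have hresg : ∀ k, ∀ χ ∈ X, ∀ x i : ℤ,
      ((q χ : ℤ) * (m * b : ℕ)) ∣ (x - dot χ (Rv (rr k)) - i) →
      ((m * b : ℕ) : ℤ) ∣ (x - ((uu V m b χ (rr k) : ℤ) + i)) := by
    intro k χ hχ x i h
    have h1 := hres k χ hχ x i h
    have h2 : ((m * b : ℕ) : ℤ) ∣ (x - ((uu V m b χ (rr k) : ℤ) + i) -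
      (m * b : ℕ) * (lab χ (rr k) : ℤ)) := (dvd_mul_left _ _).trans h1
    have h3 : ((m * b : ℕ) : ℤ) ∣ (m * b : ℕ) * (lab χ (rr k) : ℤ) := dvd_mul_right _ _
    have h4 := dvd_add h2 h3
    rwa [sub_add_cancel] at h4
  refine ⟨{
    g := m * b
    P := G.card
    q := q
    c := c
    R := fun k => Rv (rr k)
    g_pos := Nat.mul_pos hm hb
    g_even := hbe.mul_left m
    P_pos := hG.card_pos
    q_odd := fun χ hχ => (hq χ hχ).odd_of_ne_two (hq2 χ hχ).ne'
    q_coprime := fun χ hχ χ' hχ' hne =>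
      (Nat.coprime_primes (hq χ hχ) (hq χ' hχ')).2 fun h => hne (hinj χ hχ χ' hχ' h)
    c_dvd := ?_
    c_coprime := ?_
    disj := ?_
    disj' := ?_ }, rfl, rfl, fun _ _ => rfl⟩
  · intro χ hχ
    have := hcsum χ hχ χ
    rwa [hcv χ hχ, sub_zero] at this
  · intro χ hχ χ' hχ' hne
    have hp : Prime (q χ : ℤ) := Nat.prime_iff_prime_int.1 (hq χ hχ)
    rw [isCoprime_comm, hp.irreducible.coprime_iff_not_dvd]
    intro hdvd
    obtain ⟨h1, h2⟩ := hcv' χ hχ χ' hχ' hne
    have h3 := hcsum χ hχ χ'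
    have h4 := dvd_sub hdvd h3
    rw [sub_sub_cancel] at h4
    exact h1 (Int.eq_zero_of_abs_lt_dvd h4 h2)
  · intro k hk k' hk' χ hχ χ' hχ' x i i' hi hi1 hi' hi1' h h'
    obtain ⟨a1, a2, a3, a4, a5⟩ := pos_facts hX hb hbL hχ (rr k) hi hi1
    obtain ⟨b1, b2, b3, b4, b5⟩ := pos_facts hX hb hbL hχ' (rr k') hi' hi1'
    have e1 := hresg k χ hχ x i h
    have e2 := hresg k' χ' hχ' x i' h'
    have e3 : (uu V m b χ (rr k) : ℤ) + i = (uu V m b χ' (rr k') : ℤ) + i' := by
      have e4 := dvd_sub e2 e1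
      have e5 : x - ((uu V m b χ' (rr k') : ℤ) + i') - (x - ((uu V m b χ (rr k) : ℤ) + i)) =
          ((uu V m b χ (rr k) : ℤ) + i) - ((uu V m b χ' (rr k') : ℤ) + i') := by ring
      rw [e5] at e4
      have e6 := Int.eq_zero_of_abs_lt_dvd e4 (by rw [abs_lt]; constructor <;> linarith only [hi', a4, hi, b4])
      linarith only [e6]
    have e4 := e3
    rw [a5, b5] at e4
    obtain ⟨f1, f2⟩ := divmod_unique a1 a2 b1 b2 e4
    have f3 : tt V m b χ (rr k) = tt V m b χ' (rr k') := by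
      apply ZMod.val_injective
      exact_mod_cast f1
    have f4 : χ = χ' := by
      have g1 := hcol (rr k) (hrr k hk) χ hχ
      have g2 := hcol (rr k') (hrr k' hk') χ' hχ'
      rw [f3, g2] at g1
      exact (Option.some_injective _ g1).symm
    subst f4
    obtain ⟨⟨y, hy⟩, -⟩ := oo_facts hX hb hbL hχ (rr k).2
    obtain ⟨⟨y', hy'⟩, -⟩ := oo_facts hX hb hbL hχ (rr k').2
    rw [hy, hy'] at f2
    obtain ⟨f5, f6⟩ := divmod_unique hi hi1 hi' hi1' f2
    subst f6
    have f7 : (uu V m b χ (rr k) : ℤ) = uu V m b χ (rr k') := by linarith only [e3]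
    have f7' : uu V m b χ (rr k) = uu V m b χ (rr k') := by exact_mod_cast f7
    have g1 := hres k χ hχ x i h
    have g2 := hres k' χ hχ x i h'
    rw [f7] at g1
    have g3 := dvd_sub g1 g2
    have g4 : x - ((uu V m b χ (rr k') : ℤ) + i) - (m * b : ℕ) * (lab χ (rr k) : ℤ) -
        (x - ((uu V m b χ (rr k') : ℤ) + i) - (m * b : ℕ) * (lab χ (rr k') : ℤ)) =
        ((lab χ (rr k') : ℤ) - lab χ (rr k)) * (m * b : ℕ) := by ring
    rw [g4] at g3
    have g5 : (q χ : ℤ) ∣ ((lab χ (rr k') : ℤ) - lab χ (rr k)) :=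
      Int.dvd_of_mul_dvd_mul_right hgpos.ne' g3
    have l1 := hlab1 χ hχ (rr k) (hrr k hk)
    have l2 := hlab1 χ hχ (rr k') (hrr k' hk')
    have g6 := Int.eq_zero_of_abs_lt_dvd g5 (by
      rw [abs_lt]
      constructor <;> omega)
    have g7 : lab χ (rr k) = lab χ (rr k') := by omega
    exact ⟨hrrinj k hk k' hk' (hlab2 χ hχ (rr k) (hrr k hk) (rr k') (hrr k' hk') f7' g7), rfl⟩
  · intro k hk k' hk' χ hχ χ' hχ' x i i' hi hi1 hi' hi1' h h'
    obtain ⟨a1, a2, a3, a4, a5⟩ := pos_facts hX hb hbL hχ (rr k) hi hi1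
    obtain ⟨b1, b2, b3, b4, b5⟩ := pos_facts hX hb hbL hχ' (rr k') hi' hi1'
    have e1 := hresg k χ hχ x i h
    have e2 := hresg k' χ' hχ' (-1 - x) i' h'
    have e3 := dvd_add e1 e2
    have e4 : x - ((uu V m b χ (rr k) : ℤ) + i) + (-1 - x - ((uu V m b χ' (rr k') : ℤ) + i')) =
        -(((uu V m b χ (rr k) : ℤ) + i) + ((uu V m b χ' (rr k') : ℤ) + i') + 1) := by ring
    rw [e4, dvd_neg] at e3
    set g : ℤ := ((m * b : ℕ) : ℤ) with hg
    have e5 : ((uu V m b χ (rr k) : ℤ) + i) + ((uu V m b χ' (rr k') : ℤ) + i') + 1 = g := by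
      have e6 : g ∣ ((uu V m b χ (rr k) : ℤ) + i) + ((uu V m b χ' (rr k') : ℤ) + i') + 1 - g :=
        dvd_sub_self_right.2 e3
      have e7 := Int.eq_zero_of_abs_lt_dvd e6 (by rw [abs_lt]; constructor <;> linarith only [a4, b4, hi, hi'])
      linarith only [e7]
    rw [a5, b5, hg] at e5
    push_cast at e5
    have hb' : (0 : ℤ) < b := by exact_mod_cast hb
    set s : ℤ := (oo V b χ (rr k).2 : ℤ) + i with hs
    set s' : ℤ := (oo V b χ' (rr k').2 : ℤ) + i' with hs'
    set τ : ℤ := ((tt V m b χ (rr k)).val : ℤ) with hτ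
    set τ' : ℤ := ((tt V m b χ' (rr k')).val : ℤ) with hτ'
    have e8 : s + s' + 1 = b := by
      have e9 : (b : ℤ) ∣ s + s' + 1 - b := by
        refine ⟨m - 1 - τ - τ', ?_⟩
        linarith only [e5]
      have e10 := Int.eq_zero_of_abs_lt_dvd e9 (by rw [abs_lt]; constructor <;> linarith)
      linarith only [e10]
    have e11 : τ + τ' + 1 = m := by
      have : (b : ℤ) * (τ + τ' + 1) = b * m := by linarith only [e5, e8]
      exact mul_left_cancel₀ hb'.ne' this
    have e12 : tt V m b χ' (rr k') = -1 - tt V m b χ (rr k) := by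
      have e13 : (((tt V m b χ (rr k)).val + (tt V m b χ' (rr k')).val + 1 : ℕ) : ZMod m) =
          ((m : ℕ) : ZMod m) := by
        congr 1
        have : (((tt V m b χ (rr k)).val + (tt V m b χ' (rr k')).val + 1 : ℕ) : ℤ) = m := by
          push_cast
          rw [← hτ, ← hτ']
          exact e11
        exact_mod_cast this
      rw [ZMod.natCast_self] at e13
      push_cast at e13
      rw [ZMod.natCast_zmod_val, ZMod.natCast_zmod_val] at e13
      linear_combination e13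
    have g1 := hcol (rr k) (hrr k hk) χ hχ
    have g2 := hcol (rr k') (hrr k' hk') χ' hχ'
    rw [e12, hanti _ (by rw [g1]; exact Option.some_ne_none _)] at g2
    exact Option.some_ne_none _ g2.symm

/-! ### the final statement -/

theorem fib_card_le {X : Finset (Fin d → ℤ)} {V : Fin d → ℤ} (hX : GoodSet d X V) {m b : ℕ} [NeZero m]
    (hb : 0 < b) (hbL : ∀ χ ∈ X, (dot χ V).toNat ∣ b)
    (G : Finset ((Fin d → ZMod m) × ℕ)) (hGb : ∀ r ∈ G, r.2 < b)
    {χ : Fin d → ℤ} (hχ : χ ∈ X) (A : ℝ)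
    (hA : ∀ t : ZMod m, ∀ j < b,
      ((G.filter fun r => r.2 = j ∧ tt V m b χ r = t).card : ℝ) ≤ A)
    (r : (Fin d → ZMod m) × ℕ) :
    ((G.filter (fun r' => uu V m b χ r' = uu V m b χ r)).card : ℝ) ≤
      (dot χ V).toNat * A := by
  classical
  have hLpos : 0 < (dot χ V).toNat := by
    have := hX.V_pos χ hχ
    omega
  obtain ⟨b', hb'⟩ := hbL χ hχ
  set L := (dot χ V).toNat with hL
  set Js := (range b).filter (fun j => oo V b χ j = oo V b χ r.2) with hJs
  have hJcard : Js.card ≤ L := by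
    have h := card_shift_le L b' (oo V b χ r.2) hLpos
    have h2 : Js = (range (b' * L)).filter (fun j => (j * L) % (b' * L) = oo V b χ r.2) := by
      rw [hJs, hb', mul_comm L b']
      rfl
    rw [h2]
    exact h
  have hsub : G.filter (fun r' => uu V m b χ r' = uu V m b χ r) ⊆
      Js.biUnion (fun j => G.filter fun r' => r'.2 = j ∧ tt V m b χ r' = tt V m b χ r) := by
    intro r' hr'
    obtain ⟨h1, h2⟩ := mem_filter.1 hr'
    have o1 : oo V b χ r'.2 < b := Nat.mod_lt _ hb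
    have o2 : oo V b χ r.2 < b := Nat.mod_lt _ hb
    rw [uu, uu] at h2
    obtain ⟨h3, h4⟩ := divmod_unique (b := (b : ℤ)) (a := ((tt V m b χ r').val : ℤ))
      (a' := ((tt V m b χ r).val : ℤ)) (s := (oo V b χ r'.2 : ℤ)) (s' := (oo V b χ r.2 : ℤ))
      (by (clear * -; positivity)) (by exact_mod_cast o1) (by (clear * -; positivity)) (by exact_mod_cast o2)
      (by exact_mod_cast h2)
    have h5 : tt V m b χ r' = tt V m b χ r := by
      apply ZMod.val_injective
      exact_mod_cast h3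
    rw [mem_biUnion]
    refine ⟨r'.2, ?_, mem_filter.2 ⟨h1, rfl, h5⟩⟩
    rw [hJs, mem_filter, mem_range]
    exact ⟨hGb r' h1, by exact_mod_cast h4⟩
  have hA0 : 0 ≤ A := (Nat.cast_nonneg _).trans (hA 0 0 hb)
  calc ((G.filter (fun r' => uu V m b χ r' = uu V m b χ r)).card : ℝ)
      ≤ ((Js.biUnion (fun j => G.filter fun r' => r'.2 = j ∧ tt V m b χ r' = tt V m b χ r)).card : ℝ) :=
        by exact_mod_cast card_le_card hsub
    _ ≤ ((∑ j ∈ Js, (G.filter fun r' => r'.2 = j ∧ tt V m b χ r' = tt V m b χ r).card : ℕ) : ℝ) := by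
        exact_mod_cast card_biUnion_le
    _ = ∑ j ∈ Js, ((G.filter fun r' => r'.2 = j ∧ tt V m b χ r' = tt V m b χ r).card : ℝ) := by
        push_cast; rfl
    _ ≤ ∑ _j ∈ Js, A := by
        apply sum_le_sum
        intro j hj
        exact hA _ j (mem_range.1 (mem_filter.1 hj).1)
    _ = Js.card * A := by rw [sum_const, nsmul_eq_mul]
    _ ≤ L * A := by
        apply mul_le_mul_of_nonneg_right _ hA0
        exact_mod_cast hJcard

theorem comb (hcolor : ColoringStatement) : CombStatement := by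
  classical
  intro d X V hX p hp hpsum ε hε
  -- constants
  set e1 : ℝ := min ε 1 / 3 with he1
  have h0 : 0 < min ε 1 := lt_min hε one_pos
  have he1pos : 0 < e1 := by positivity
  have he1a : e1 ≤ 1 / 3 := by
    have := min_le_right ε 1
    rw [he1]; linarith only [this]
  have he1b : e1 ≤ ε / 3 := by
    have := min_le_left ε 1
    rw [he1]; linarith only [this]
  have he1c : (1 + e1) * (1 + e1) ≤ 1 + ε := by nlinarith only [he1pos, he1b, he1a]
  set L : (Fin d → ℤ) → ℕ := fun χ => (dot χ V).toNat with hLdef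
  have hLpos : ∀ χ ∈ X, 0 < L χ := by
    intro χ hχ
    have := hX.V_pos χ hχ
    simp only [hLdef]
    omega
  have hLcast : ∀ χ ∈ X, ((L χ : ℕ) : ℝ) = ((dot χ V : ℤ) : ℝ) := by
    intro χ hχ
    have : ((L χ : ℕ) : ℤ) = dot χ V := Int.toNat_of_nonneg (hX.V_pos χ hχ).le
    exact_mod_cast this
  set b : ℕ := 2 * ∏ χ ∈ X, L χ with hbdef
  have hb : 0 < b := Nat.mul_pos (by norm_num) (Finset.prod_pos hLpos)
  have hbe : Even b := even_two_mul _
  have hbL : ∀ χ ∈ X, L χ ∣ b := fun χ hχ => Dvd.dvd.mul_left (Finset.dvd_prod_of_mem L hχ) 2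
  obtain ⟨m₀, hm₀⟩ := hcolor d X V hX p hp hpsum b (fun χ j => j * L χ / b) hb e1 he1pos
  -- vectors
  have hcv := fun (χ : Fin d → ℤ) (hχ : χ ∈ X) => exists_cvec hX hχ
  choose! cv hcv1 hcv2 using hcv
  -- thresholds
  obtain ⟨x₀, hx₀⟩ := (exists_primes_window X.card e1 he1pos).exists_forall_of_atTop
  set B₀ : ℤ := ∑ χ ∈ X, ∑ χ' ∈ X, |dot χ' (cv χ)| with hB₀
  set π₀ : ℝ := (∏ χ ∈ X, p χ) / 2 with hπ₀
  have hπpos : 0 < π₀ := by
    have := Finset.prod_pos hp
    (clear * - this; positivity)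
  set M : ℝ := max x₀ (max (B₀ : ℝ) 2) with hM
  obtain ⟨m, hm1, hm2⟩ := Nat.exists_infinite_primes (max m₀ (⌈M * b / π₀⌉₊))
  have : NeZero m := ⟨hm2.pos.ne'⟩
  have hmm₀ : m₀ ≤ m := (le_max_left _ _).trans hm1
  have hmM : M * b / π₀ ≤ m := by
    have h1 : ⌈M * b / π₀⌉₊ ≤ m := (le_max_right _ _).trans hm1
    exact (Nat.le_ceil _).trans (by exact_mod_cast h1)
  obtain ⟨col, G, hanti, hG2, hcol, hcount, hGcard⟩ := hm₀ m hmm₀ hm2
  have hmpos : (0 : ℝ) < m := by exact_mod_cast hm2.pos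
  have hm1' : (1 : ℝ) ≤ m := by exact_mod_cast hm2.one_lt.le
  have hbpos : (0 : ℝ) < b := by exact_mod_cast hb
  have hGpos : 0 < G.card := by
    have h1 : 0 < π₀ * (m : ℝ) ^ d := by (clear * - hπpos hmpos; positivity)
    have h2 : (0 : ℝ) < G.card := lt_of_lt_of_le h1 hGcard
    exact_mod_cast h2
  have hGne : G.Nonempty := card_pos.1 hGpos
  have hGr : (0 : ℝ) < G.card := by exact_mod_cast hGpos
  -- the target sizes
  set Z : (Fin d → ℤ) → ℝ := fun χ => (G.card * L χ : ℝ) / ((m * b : ℕ) * p χ) with hZ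
  have hZpos : ∀ χ ∈ X, 0 < Z χ := by
    intro χ hχ
    have h1 := hp χ hχ
    have h2 : (0 : ℝ) < L χ := by exact_mod_cast hLpos χ hχ
    simp only [hZ]
    push_cast
    (clear * - hGne h2 hmpos hb h1; positivity)
  have hple : ∀ χ ∈ X, p χ ≤ 1 := by
    intro χ hχ
    have h1 : p χ ≤ ∑ χ ∈ X, p χ := Finset.single_le_sum (fun i hi => (hp i hi).le) hχ
    linarith only [hpsum, h1]
  have hZM : ∀ χ ∈ X, M ≤ Z χ := by
    intro χ hχ
    have h1 := hp χ hχ
    have h1' := hple χ hχ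
    have h2 : (1 : ℝ) ≤ L χ := by exact_mod_cast hLpos χ hχ
    have h3 : M * b ≤ π₀ * m := by
      rw [div_le_iff₀ hπpos] at hmM
      linarith only [hmM]
    have h4 : π₀ * (m : ℝ) * m ≤ G.card := by
      refine le_trans ?_ hGcard
      have h5 : (m : ℝ) ^ 2 ≤ m ^ d := pow_le_pow_right₀ hm1' hX.two_le
      calc π₀ * (m : ℝ) * m = π₀ * (m : ℝ) ^ 2 := by ring
        _ ≤ π₀ * (m : ℝ) ^ d := mul_le_mul_of_nonneg_left h5 hπpos.le
    simp only [hZ]
    push_cast
    rw [le_div_iff₀ (by (clear * - hmpos hb h1; positivity))]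
    calc M * (m * b * p χ) = (M * b) * m * p χ := by ring
      _ ≤ (π₀ * m) * m * p χ := by
          apply mul_le_mul_of_nonneg_right _ h1.le
          exact mul_le_mul_of_nonneg_right h3 hmpos.le
      _ ≤ G.card * p χ := mul_le_mul_of_nonneg_right h4 h1.le
      _ ≤ G.card * 1 := mul_le_mul_of_nonneg_left h1' hGr.le
      _ ≤ G.card * L χ := mul_le_mul_of_nonneg_left h2 hGr.le
  set Y : (Fin d → ℤ) → ℝ := fun χ => (1 + e1) * Z χ with hY
  have hYZ : ∀ χ ∈ X, Z χ ≤ Y χ := by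
    intro χ hχ
    have := hZpos χ hχ
    simp only [hY]
    nlinarith only [he1, this, h0]
  have hYM : ∀ χ ∈ X, M ≤ Y χ := fun χ hχ => (hZM χ hχ).trans (hYZ χ hχ)
  -- primes
  have hwin : ∀ χ ∈ X, ∃ T : Finset ℕ, X.card ≤ T.card ∧
      ∀ p ∈ T, p.Prime ∧ Y χ < p ∧ (p : ℝ) ≤ (1 + e1) * Y χ :=
    fun χ hχ => hx₀ (Y χ) ((le_max_left _ _).trans (hYM χ hχ))
  choose! T hT1 hT2 using hwin
  obtain ⟨q, hqT, hinj⟩ := exists_inj_choice X.card T X le_rfl hT1
  have hq : ∀ χ ∈ X, (q χ).Prime := fun χ hχ => (hT2 χ hχ _ (hqT χ hχ)).1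
  have hqY : ∀ χ ∈ X, Y χ < q χ := fun χ hχ => (hT2 χ hχ _ (hqT χ hχ)).2.1
  have hqY' : ∀ χ ∈ X, (q χ : ℝ) ≤ (1 + e1) * Y χ := fun χ hχ => (hT2 χ hχ _ (hqT χ hχ)).2.2
  have hqB : ∀ χ ∈ X, B₀ < (q χ : ℤ) := by
    intro χ hχ
    have h1 : (B₀ : ℝ) ≤ M := (le_max_left _ _).trans (le_max_right _ _)
    have h2 : (B₀ : ℝ) < (q χ : ℝ) := lt_of_le_of_lt (h1.trans (hYM χ hχ)) (hqY χ hχ)
    exact_mod_cast h2
  have hq2 : ∀ χ ∈ X, 2 < q χ := by
    intro χ hχ
    have h1 : (2 : ℝ) ≤ M := (le_max_right _ _).trans (le_max_right _ _)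
    have h2 : (2 : ℝ) < (q χ : ℝ) := lt_of_le_of_lt (h1.trans (hYM χ hχ)) (hqY χ hχ)
    exact_mod_cast h2
  have hs2 : ∀ χ ∈ X, ∀ χ' ∈ X, |dot χ' (cv χ)| ≤ ∑ χ ∈ X, ∑ χ' ∈ X, |dot χ' (cv χ)| := by
    intro χ hχ χ' hχ'
    have h1 : |dot χ' (cv χ)| ≤ ∑ χ' ∈ X, |dot χ' (cv χ)| :=
      Finset.single_le_sum (f := fun χ' : Fin d → ℤ => |dot χ' (cv χ)|)
        (fun i _ => abs_nonneg _) hχ'
    refine h1.trans ?_
    exact Finset.single_le_sum
      (f := fun χ : Fin d → ℤ => ∑ χ' ∈ X, |dot χ' (cv χ)|)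
      (fun i _ => Finset.sum_nonneg fun _ _ => abs_nonneg _) hχ
  have hcv' : ∀ χ ∈ X, ∀ χ' ∈ X, χ ≠ χ' → dot χ' (cv χ) ≠ 0 ∧ |dot χ' (cv χ)| < q χ := by
    intro χ hχ χ' hχ' hne
    refine ⟨hcv2 χ hχ χ' hχ' hne, ?_⟩
    have h1 := hs2 χ hχ χ' hχ'
    have h2 := hqB χ hχ
    rw [hB₀] at h2
    linarith only [h1, h2]
  -- fibres
  have hfib : ∀ χ ∈ X, ∀ r ∈ G, (G.filter (fun r' => uu V m b χ r' = uu V m b χ r)).card ≤ q χ := by
    intro χ hχ r hr
    have h1 := fib_card_le hX hb hbL G hG2 hχ ((1 + e1) * G.card / (b * m * p χ)) (by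
      intro t j hj
      rw [le_div_iff₀ (by have := hp χ hχ; (clear * - hb hmpos this; positivity))]
      exact hcount χ hχ t j hj) r
    have h2 : ((dot χ V).toNat : ℝ) * ((1 + e1) * G.card / (b * m * p χ)) = Y χ := by
      simp only [hY, hZ]
      push_cast
      have := hp χ hχ
      field_simp
      rfl
    rw [h2] at h1
    have h3 : ((G.filter (fun r' => uu V m b χ r' = uu V m b χ r)).card : ℝ) < q χ :=
      lt_of_le_of_lt h1 (hqY χ hχ)
    exact le_of_lt (by exact_mod_cast h3)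
  obtain ⟨S, hS1, hS2, hS3⟩ := comb_core hX hb hbe hbL col G hanti hcol hGne q hq hq2 hinj cv
    hcv1 hcv' hfib
  refine ⟨S, fun χ hχ => ?_⟩
  have e : (S.P * dot χ V : ℝ) / (S.g * p χ) = Z χ := by
    simp only [hZ]
    rw [hS1, hS2, hLcast χ hχ]
  rw [hS3 χ hχ, e]
  refine ⟨((hYZ χ hχ).trans (hqY χ hχ).le), ?_⟩
  calc (q χ : ℝ) ≤ (1 + e1) * Y χ := hqY' χ hχ
    _ = ((1 + e1) * (1 + e1)) * Z χ := by simp only [hY]; ring
    _ ≤ (1 + ε) * Z χ := mul_le_mul_of_nonneg_right he1c (hZpos χ hχ).le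

end Vale.Agent.P110.CombB

namespace Vale.Agent.P110

/-- C4: comb systems with near optimal density exist (from the random colouring lemma). -/
theorem comb : ColoringStatement → CombStatement := CombB.comb

end Vale.Agent.P110
end
end

section

section

/-!
# P110, module C5, part 1: geometry of the slots of a comb system
-/

set_option autoImplicit false

namespace Vale.Agent.P110.CellProof

open Finset

variable {d : ℕ} {X : Finset (Fin d → ℤ)} {V : Fin d → ℤ}

/-- `M = ∏ q_χ` -/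
def MM (S : CombSystem d X V) : ℕ := ∏ χ ∈ X, S.q χ

/-- `m_χ = M / q_χ` -/
def mm (S : CombSystem d X V) (χ : Fin d → ℤ) : ℕ := ∏ χ' ∈ X.erase χ, S.q χ'

lemma q_pos (S : CombSystem d X V) {χ : Fin d → ℤ} (h : χ ∈ X) : 0 < S.q χ :=
  (S.q_odd χ h).pos

lemma q_mul_mm (S : CombSystem d X V) {χ : Fin d → ℤ} (h : χ ∈ X) :
    S.q χ * mm S χ = MM S := Finset.mul_prod_erase X S.q h

lemma mm_pos (S : CombSystem d X V) (χ : Fin d → ℤ) : 0 < mm S χ :=
  Finset.prod_pos fun _ h => q_pos S (Finset.mem_of_mem_erase h)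

lemma MM_pos (S : CombSystem d X V) : 0 < MM S :=
  Finset.prod_pos fun _ h => q_pos S h

lemma mm_odd (S : CombSystem d X V) (χ : Fin d → ℤ) : Odd (mm S χ) := by
  unfold mm
  apply Finset.prod_induction _ Odd (fun a b ha hb => ha.mul hb) odd_one
  intro x hx
  exact S.q_odd x (Finset.mem_of_mem_erase hx)

/-- number of cells of the half circle -/
def KK (S : CombSystem d X V) : ℕ := MM S * S.g / 2

lemma two_KK (S : CombSystem d X V) : 2 * KK S = MM S * S.g := by
  unfold KK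
  have : 2 ∣ MM S * S.g := (S.g_even.two_dvd).mul_left _
  omega

lemma KK_pos (S : CombSystem d X V) : 0 < KK S := by
  have h := two_KK S
  have h2 : 0 < MM S * S.g := Nat.mul_pos (MM_pos S) S.g_pos
  omega

/-- left end of slot `(p, χ, s)` on the circle `ZMod (2K)` -/
def AA (S : CombSystem d X V) (p : ℕ) (χ : Fin d → ℤ) (s : ℕ) : ℤ :=
  (dot χ (S.R p) + s * (S.q χ * S.g)) % (2 * KK S : ℕ)

lemma AA_nonneg (S : CombSystem d X V) (p : ℕ) (χ : Fin d → ℤ) (s : ℕ) : 0 ≤ AA S p χ s :=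
  Int.emod_nonneg _ (by have := KK_pos S; omega)

lemma AA_lt (S : CombSystem d X V) (p : ℕ) (χ : Fin d → ℤ) (s : ℕ) :
    AA S p χ s < 2 * KK S := by
  have := Int.emod_lt_of_pos (dot χ (S.R p) + s * (S.q χ * S.g))
    (show (0 : ℤ) < (2 * KK S : ℕ) by have := KK_pos S; omega)
  unfold AA
  push_cast at this ⊢
  exact this

lemma qg_dvd (S : CombSystem d X V) {χ : Fin d → ℤ} (h : χ ∈ X) :
    ((S.q χ : ℤ) * S.g) ∣ (2 * KK S : ℕ) := by
  rw [two_KK, ← q_mul_mm S h]
  push_cast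
  exact ⟨mm S χ, by ring⟩

lemma AA_dvd (S : CombSystem d X V) (p : ℕ) {χ : Fin d → ℤ} (h : χ ∈ X) (s : ℕ) :
    ((S.q χ : ℤ) * S.g) ∣ AA S p χ s - dot χ (S.R p) := by
  unfold AA
  have h1 := Int.emod_add_mul_ediv (dot χ (S.R p) + s * (S.q χ * S.g)) ((2 * KK S : ℕ) : ℤ)
  set z := (dot χ (S.R p) + s * (S.q χ * S.g)) / ((2 * KK S : ℕ) : ℤ)
  obtain ⟨w, hw⟩ := qg_dvd S h
  refine ⟨s - w * z, ?_⟩
  have : (dot χ (S.R p) + s * (S.q χ * S.g)) % ((2 * KK S : ℕ) : ℤ) =
    dot χ (S.R p) + s * (S.q χ * S.g) - ((2 * KK S : ℕ) : ℤ) * z := by linarith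
  rw [this, hw]
  ring

/-- the cell `x` of the circle is hit by mode `χ` of comb `p` -/
def Hit (S : CombSystem d X V) (p : ℕ) (χ : Fin d → ℤ) (x : ℤ) : Prop :=
  ∃ i, 0 ≤ i ∧ i < dot χ V ∧ ((S.q χ : ℤ) * S.g) ∣ (x - dot χ (S.R p) - i)

lemma hit_unique (S : CombSystem d X V) {p p' : ℕ} {χ χ' : Fin d → ℤ} {x : ℤ}
    (hp : p < S.P) (hp' : p' < S.P) (hχ : χ ∈ X) (hχ' : χ' ∈ X)
    (h : Hit S p χ x) (h' : Hit S p' χ' x) : p = p' ∧ χ = χ' := by
  obtain ⟨i, hi0, hi1, hi⟩ := h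
  obtain ⟨i', hi0', hi1', hi'⟩ := h'
  exact S.disj p hp p' hp' χ hχ χ' hχ' x i i' hi0 hi1 hi0' hi1' hi hi'

lemma hit_neg (S : CombSystem d X V) {p p' : ℕ} {χ χ' : Fin d → ℤ} {x : ℤ}
    (hp : p < S.P) (hp' : p' < S.P) (hχ : χ ∈ X) (hχ' : χ' ∈ X)
    (h : Hit S p χ x) (h' : Hit S p' χ' (-1 - x)) : False := by
  obtain ⟨i, hi0, hi1, hi⟩ := h
  obtain ⟨i', hi0', hi1', hi'⟩ := h'
  exact S.disj' p hp p' hp' χ hχ χ' hχ' x i i' hi0 hi1 hi0' hi1' hi hi'

lemma hit_of_mem (S : CombSystem d X V) {p : ℕ} {χ : Fin d → ℤ} (hχ : χ ∈ X) (s : ℕ) (x : ℤ)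
    (h1 : AA S p χ s ≤ x) (h2 : x < AA S p χ s + dot χ V) : Hit S p χ x := by
  refine ⟨x - AA S p χ s, by linarith, by linarith only [h2], ?_⟩
  have := AA_dvd S p hχ s
  rw [show x - dot χ (S.R p) - (x - AA S p χ s) = AA S p χ s - dot χ (S.R p) by ring]
  exact this

lemma hit_shift (S : CombSystem d X V) {p : ℕ} {χ : Fin d → ℤ} (hχ : χ ∈ X) (x y : ℤ)
    (h : Hit S p χ x) (hxy : ((2 * KK S : ℕ) : ℤ) ∣ x - y) : Hit S p χ y := by
  obtain ⟨i, hi0, hi1, hi⟩ := h
  refine ⟨i, hi0, hi1, ?_⟩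
  have h2 := (qg_dvd S hχ).trans hxy
  have : y - dot χ (S.R p) - i = (x - dot χ (S.R p) - i) - (x - y) := by ring
  rw [this]
  exact dvd_sub hi h2

/-- a slot never straddles `0` or `K` -/
lemma no_straddle (S : CombSystem d X V) {p : ℕ} (hp : p < S.P) {χ : Fin d → ℤ} (hχ : χ ∈ X)
    (s : ℕ) :
    AA S p χ s + dot χ V ≤ KK S ∨
      ((KK S : ℤ) ≤ AA S p χ s ∧ AA S p χ s + dot χ V ≤ 2 * KK S) := by
  by_contra hcon
  push Not at hcon
  obtain ⟨h1, h2⟩ := hcon
  rcases lt_or_ge (AA S p χ s) (KK S : ℤ) with hlt | hge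
  · have hx := hit_of_mem S (p := p) hχ s ((KK S : ℤ) - 1) (by omega) (by omega)
    have hy := hit_of_mem S (p := p) hχ s (KK S : ℤ) (by omega) (by omega)
    have hy' := hit_shift S hχ _ (-1 - ((KK S : ℤ) - 1)) hy ⟨1, by push_cast; ring⟩
    exact hit_neg S hp hp hχ hχ hx hy'
  · have h3 := h2 hge
    have hlt := AA_lt S p χ s
    have hx := hit_of_mem S (p := p) hχ s (2 * (KK S : ℤ) - 1) (by omega) (by (clear * - h3; omega))
    have hy := hit_of_mem S (p := p) hχ s (2 * (KK S : ℤ)) (by omega) (by omega)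
    have hy' := hit_shift S hχ _ (-1 - (2 * (KK S : ℤ) - 1)) hy ⟨2, by push_cast; ring⟩
    exact hit_neg S hp hp hχ hχ hx hy'

/-- index type of the comb slots -/
abbrev Slot (S : CombSystem d X V) : Type := Fin S.P × (Σ χ : {x // x ∈ X}, Fin (mm S χ.1))

/-- the slot is an up slot -/
def upS (S : CombSystem d X V) (i : Slot S) : Bool :=
  decide (AA S i.1 i.2.1.1 i.2.2 < KK S)

/-- length (in cells) -/
def lenS (S : CombSystem d X V) (i : Slot S) : ℕ := (dot i.2.1.1 V).toNat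

/-- start (in cells) -/
def startS (S : CombSystem d X V) (i : Slot S) : ℕ :=
  if AA S i.1 i.2.1.1 i.2.2 < KK S then (AA S i.1 i.2.1.1 i.2.2).toNat
  else (2 * KK S - AA S i.1 i.2.1.1 i.2.2 - dot i.2.1.1 V).toNat

variable (hG : GoodSet d X V)
include hG

lemma lenS_cast (S : CombSystem d X V) (i : Slot S) : (lenS S i : ℤ) = dot i.2.1.1 V :=
  Int.toNat_of_nonneg (hG.V_pos _ i.2.1.2).le

lemma lenS_pos (S : CombSystem d X V) (i : Slot S) : 0 < lenS S i := by
  have h := lenS_cast hG S i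
  have h2 := hG.V_pos _ i.2.1.2
  omega

lemma startS_up (S : CombSystem d X V) (i : Slot S) (h : AA S i.1 i.2.1.1 i.2.2 < KK S) :
    (startS S i : ℤ) = AA S i.1 i.2.1.1 i.2.2 ∧ startS S i + lenS S i ≤ KK S := by
  have h0 := AA_nonneg S i.1 i.2.1.1 i.2.2
  have h1 : (startS S i : ℤ) = AA S i.1 i.2.1.1 i.2.2 := by
    unfold startS; rw [if_pos h]; exact Int.toNat_of_nonneg h0
  refine ⟨h1, ?_⟩
  have h2 := lenS_cast hG S i
  have h3 := no_straddle S i.1.2 i.2.1.2 i.2.2
  rcases h3 with h3 | ⟨h3, _⟩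
  · omega
  · omega

lemma startS_down (S : CombSystem d X V) (i : Slot S) (h : ¬ AA S i.1 i.2.1.1 i.2.2 < KK S) :
    (startS S i : ℤ) = 2 * KK S - AA S i.1 i.2.1.1 i.2.2 - dot i.2.1.1 V ∧
      startS S i + lenS S i ≤ KK S := by
  have h3 := no_straddle S i.1.2 i.2.1.2 i.2.2
  have h4 := hG.V_pos _ i.2.1.2
  have h2 := lenS_cast hG S i
  have h1 : (startS S i : ℤ) = 2 * KK S - AA S i.1 i.2.1.1 i.2.2 - dot i.2.1.1 V := by
    unfold startS; rw [if_neg h]
    apply Int.toNat_of_nonneg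
    rcases h3 with h3 | ⟨_, h3⟩
    · omega
    · omega
  refine ⟨h1, ?_⟩
  omega

lemma startS_le (S : CombSystem d X V) (i : Slot S) : startS S i + lenS S i ≤ KK S := by
  by_cases h : AA S i.1 i.2.1.1 i.2.2 < KK S
  · exact (startS_up hG S i h).2
  · exact (startS_down hG S i h).2

omit hG in
lemma AA_inj (S : CombSystem d X V) (p : ℕ) {χ : Fin d → ℤ} (hχ : χ ∈ X)
    (hL : dot χ V ≤ (S.q χ : ℤ) * S.g) {s s' : ℕ} (hs : s < mm S χ) (hs' : s' < mm S χ) {x : ℤ}
    (h1 : AA S p χ s ≤ x) (h2 : x < AA S p χ s + dot χ V)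
    (h1' : AA S p χ s' ≤ x) (h2' : x < AA S p χ s' + dot χ V) : s = s' := by
  have hd := AA_dvd S p hχ s
  have hd' := AA_dvd S p hχ s'
  have hsub : ((S.q χ : ℤ) * S.g) ∣ AA S p χ s - AA S p χ s' := by
    have := dvd_sub hd hd'
    rwa [show AA S p χ s - dot χ (S.R p) - (AA S p χ s' - dot χ (S.R p)) =
      AA S p χ s - AA S p χ s' by ring] at this
  have hq : (0 : ℤ) < (S.q χ : ℤ) * S.g := by
    have := q_pos S hχ
    have := S.g_pos
    (clear p hL s s' hs hs' x h1 h2 h1' h2' hd hd' hsub; positivity)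
  have heq : AA S p χ s = AA S p χ s' := by
    have h0 : AA S p χ s - AA S p χ s' = 0 := by
      apply Int.eq_zero_of_abs_lt_dvd hsub
      rw [abs_lt]; constructor <;> linarith only [hL, h1, h2', h2, h1']
    linarith only [h0]
  unfold AA at heq
  have h3 : ((2 * KK S : ℕ) : ℤ) ∣ (dot χ (S.R p) + s * (S.q χ * S.g)) -
      (dot χ (S.R p) + s' * (S.q χ * S.g)) := by
    exact Int.ModEq.dvd (show (dot χ (S.R p) + s' * (S.q χ * S.g)) ≡
      (dot χ (S.R p) + s * (S.q χ * S.g)) [ZMOD ((2 * KK S : ℕ) : ℤ)] from heq.symm)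
  rw [two_KK, ← q_mul_mm S hχ] at h3
  push_cast at h3
  have h4 : ((S.q χ : ℤ) * S.g) * (mm S χ : ℤ) ∣ ((S.q χ : ℤ) * S.g) * ((s : ℤ) - s') := by
    convert h3 using 1 <;> ring
  have h5 := (mul_dvd_mul_iff_left hq.ne').1 h4
  have h6 : (s : ℤ) - s' = 0 := by
    apply Int.eq_zero_of_abs_lt_dvd h5
    rw [abs_lt]; constructor <;> omega
  omega

/-- every cell is in at most one slot -/
lemma slot_unique (S : CombSystem d X V) (hL : ∀ χ ∈ X, dot χ V ≤ (S.q χ : ℤ) * S.g)
    (i i' : Slot S) (j : ℕ) (h1 : startS S i ≤ j) (h2 : j < startS S i + lenS S i)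
    (h1' : startS S i' ≤ j) (h2' : j < startS S i' + lenS S i') : i = i' := by
  have hl := lenS_cast hG S i
  have hl' := lenS_cast hG S i'
  obtain ⟨p, ⟨χ, hχ⟩, s⟩ := i
  obtain ⟨p', ⟨χ', hχ'⟩, s'⟩ := i'
  by_cases h : AA S p χ s < KK S <;> by_cases h' : AA S p' χ' s' < KK S
  · obtain ⟨e1, _⟩ := startS_up hG S (p, ⟨⟨χ, hχ⟩, s⟩) h
    obtain ⟨e2, _⟩ := startS_up hG S (p', ⟨⟨χ', hχ'⟩, s'⟩) h'
    simp only at e1 e2 hl hl'
    have a1 := hit_of_mem S (p := p) hχ s (j : ℤ) (by omega) (by omega)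
    have a2 := hit_of_mem S (p := p') hχ' s' (j : ℤ) (by omega) (by omega)
    obtain ⟨hp, hc⟩ := hit_unique S p.2 p'.2 hχ hχ' a1 a2
    subst hc
    have hp2 : p = p' := Fin.ext hp
    subst hp2
    have hs := AA_inj S p hχ (hL χ hχ) s.2 s'.2 (x := (j : ℤ)) (by (clear * - hχ h1 e1 hχ'; omega)) (by omega)
      (by omega) (by omega)
    have : s = s' := Fin.ext hs
    subst this
    rfl
  · exfalso
    obtain ⟨e1, _⟩ := startS_up hG S (p, ⟨⟨χ, hχ⟩, s⟩) h
    obtain ⟨e2, _⟩ := startS_down hG S (p', ⟨⟨χ', hχ'⟩, s'⟩) h'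
    simp only at e1 e2 hl hl'
    have a1 := hit_of_mem S (p := p) hχ s (j : ℤ) (by omega) (by omega)
    have a2 := hit_of_mem S (p := p') hχ' s' (2 * (KK S : ℤ) - 1 - j) (by omega) (by omega)
    exact hit_neg S p.2 p'.2 hχ hχ' a1
      (hit_shift S hχ' _ (-1 - (j : ℤ)) a2 ⟨1, by push_cast; ring⟩)
  · exfalso
    obtain ⟨e1, _⟩ := startS_down hG S (p, ⟨⟨χ, hχ⟩, s⟩) h
    obtain ⟨e2, _⟩ := startS_up hG S (p', ⟨⟨χ', hχ'⟩, s'⟩) h'
    simp only at e1 e2 hl hl'
    have a1 := hit_of_mem S (p := p) hχ s (2 * (KK S : ℤ) - 1 - j) (by omega) (by omega)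
    have a2 := hit_of_mem S (p := p') hχ' s' (j : ℤ) (by omega) (by omega)
    exact hit_neg S p'.2 p.2 hχ' hχ a2
      (hit_shift S hχ _ (-1 - (j : ℤ)) a1 ⟨1, by push_cast; ring⟩)
  · obtain ⟨e1, _⟩ := startS_down hG S (p, ⟨⟨χ, hχ⟩, s⟩) h
    obtain ⟨e2, _⟩ := startS_down hG S (p', ⟨⟨χ', hχ'⟩, s'⟩) h'
    simp only at e1 e2 hl hl'
    have a1 := hit_of_mem S (p := p) hχ s (2 * (KK S : ℤ) - 1 - j) (by omega) (by omega)
    have a2 := hit_of_mem S (p := p') hχ' s' (2 * (KK S : ℤ) - 1 - j) (by omega) (by omega)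
    obtain ⟨hp, hc⟩ := hit_unique S p.2 p'.2 hχ hχ' a1 a2
    subst hc
    have hp2 : p = p' := Fin.ext hp
    subst hp2
    have hs := AA_inj S p hχ (hL χ hχ) s.2 s'.2 (x := (2 * (KK S : ℤ) - 1 - j)) (by omega)
      (by omega) (by omega) (by (clear * - hχ' hχ h1' hl' e2; omega))
    have : s = s' := Fin.ext hs
    subst this
    rfl

end Vale.Agent.P110.CellProof
end
end

section

section

/-!
# P110, module C5, part 2: the trigonometric identity for a comb
-/

set_option autoImplicit false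

namespace Vale.Agent.P110.CellProof

open Finset

variable {d : ℕ} {X : Finset (Fin d → ℤ)} {V : Fin d → ℤ}

theorem ee_add (x y : ℝ) : e (x + y) = e x * e y := by
  unfold e
  rw [← Complex.exp_add]
  congr 1
  push_cast
  ring

theorem re_e (x : ℝ) : (e x).re = Real.cos (2 * Real.pi * x) := by
  unfold e
  rw [Complex.exp_ofReal_mul_I_re]

lemma cos_add_int (x : ℝ) (z : ℤ) :
    Real.cos (2 * Real.pi * (x + z)) = Real.cos (2 * Real.pi * x) := by
  rw [show 2 * Real.pi * (x + z) = 2 * Real.pi * x + z * (2 * Real.pi) by ring,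
    Real.cos_add_int_mul_two_pi]

/-- the integer `A_χ = χ·c / q_χ` -/
def Ac (S : CombSystem d X V) (χ : Fin d → ℤ) : ℤ := dot χ S.c / S.q χ

lemma Ac_mul (S : CombSystem d X V) {χ : Fin d → ℤ} (h : χ ∈ X) :
    (S.q χ : ℤ) * Ac S χ = dot χ S.c := Int.mul_ediv_cancel' (S.c_dvd χ h)

lemma Ac_coprime (S : CombSystem d X V) {χ : Fin d → ℤ} (h : χ ∈ X) :
    IsCoprime (Ac S χ) (mm S χ : ℤ) := by
  unfold mm
  push_cast
  apply IsCoprime.prod_right
  intro χ' hχ'
  have h1 := S.c_coprime χ' (Finset.mem_of_mem_erase hχ') χ h (Finset.ne_of_mem_erase hχ')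
  rw [← Ac_mul S h] at h1
  exact h1.of_mul_left_right

/-- sum of the cosines of a comb (one mode) -/
lemma comb_sum (S : CombSystem d X V) {χ : Fin d → ℤ} (hχ : χ ∈ X) (p : ℕ) (w : ℕ → ℝ)
    (hw : ∀ k : ℤ, ∑ s ∈ range (mm S χ), e (w s - k * s / (mm S χ)) =
      (Real.sqrt (mm S χ) : ℂ) * e (-((Ac S χ) * k ^ 2 / (mm S χ)))) (h : ℝ) (k : ℤ) (ζ : ℝ) :
    ∑ s : Fin (mm S χ), Real.cos (2 * Real.pi * (w s + h - k * (AA S p χ s / (2 * KK S))
        - (dot χ V : ℝ) / (2 * KK S) * ζ)) =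
      Real.sqrt (mm S χ) * Real.cos (2 * Real.pi * (∑ i, (χ i : ℝ) *
        ((S.c i : ℝ) * k ^ 2 / MM S + k * (S.R p i : ℝ) / (2 * KK S) + ζ * V i / (2 * KK S)) - h)) := by
  have hKpos : (0 : ℝ) < 2 * KK S := by have := KK_pos S; positivity
  have hmpos : (0 : ℝ) < mm S χ := by exact_mod_cast mm_pos S χ
  have hqpos : (0 : ℝ) < S.q χ := by exact_mod_cast q_pos S hχ
  have hgpos : (0 : ℝ) < S.g := by exact_mod_cast S.g_pos
  have h2K : (2 * KK S : ℝ) = S.q χ * mm S χ * S.g := by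
    have := two_KK S
    rw [← q_mul_mm S hχ] at this
    exact_mod_cast this
  have hMM : (MM S : ℝ) = S.q χ * mm S χ := by
    rw [← q_mul_mm S hχ]; push_cast; ring
  set φ : ℝ := h - k * (dot χ (S.R p) : ℝ) / (2 * KK S) - (dot χ V : ℝ) / (2 * KK S) * ζ with hφ
  -- every term
  have hterm : ∀ s : Fin (mm S χ), Real.cos (2 * Real.pi * (w s + h - k * (AA S p χ s / (2 * KK S))
        - (dot χ V : ℝ) / (2 * KK S) * ζ)) = (e φ * e (w s - k * s / (mm S χ))).re := by
    intro s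
    rw [← ee_add, re_e]
    have hA : ∃ z : ℤ, (AA S p χ s : ℝ) = dot χ (S.R p) + s * (S.q χ * S.g) - z * (2 * KK S) := by
      unfold AA
      refine ⟨(dot χ (S.R p) + s * (S.q χ * S.g)) / ((2 * KK S : ℕ) : ℤ), ?_⟩
      have h1 := Int.emod_add_mul_ediv (dot χ (S.R p) + s * (S.q χ * S.g)) ((2 * KK S : ℕ) : ℤ)
      have h2 : (dot χ (S.R p) + s * (S.q χ * S.g)) % ((2 * KK S : ℕ) : ℤ) =
        dot χ (S.R p) + s * (S.q χ * S.g) - ((dot χ (S.R p) + s * (S.q χ * S.g)) /
          ((2 * KK S : ℕ) : ℤ)) * ((2 * KK S : ℕ) : ℤ) := by linarith only [h1]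
      have h3 := congrArg (Int.cast : ℤ → ℝ) h2
      rw [h3]
      push_cast
      ring
    obtain ⟨z, hz⟩ := hA
    rw [hz, ← cos_add_int (φ + (w s - k * s / (mm S χ))) (k * z)]
    congr 2
    rw [hφ, h2K]
    push_cast
    field_simp
    ring
  rw [Finset.sum_congr rfl fun s _ => hterm s, ← Complex.re_sum, ← Finset.mul_sum]
  have hsum : ∑ s : Fin (mm S χ), e (w s - k * s / (mm S χ)) =
      ∑ s ∈ range (mm S χ), e (w s - k * s / (mm S χ)) :=
    Fin.sum_univ_eq_sum_range (fun s => e (w s - k * s / (mm S χ))) (mm S χ)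
  rw [hsum, hw k, mul_left_comm, ← ee_add, Complex.re_ofReal_mul, re_e]
  congr 1
  rw [← Real.cos_neg]
  congr 1
  have hAc : ((Ac S χ : ℤ) : ℝ) = (dot χ S.c : ℝ) / S.q χ := by
    rw [← Ac_mul S hχ]; push_cast; (clear * - hqpos; field_simp)
  have hexp : ∑ i, (χ i : ℝ) *
      ((S.c i : ℝ) * k ^ 2 / MM S + k * (S.R p i : ℝ) / (2 * KK S) + ζ * V i / (2 * KK S)) =
      (dot χ S.c : ℝ) * k ^ 2 / MM S + k * (dot χ (S.R p) : ℝ) / (2 * KK S) +
        ζ * (dot χ V : ℝ) / (2 * KK S) := by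
    unfold dot
    push_cast
    simp only [mul_add, Finset.sum_add_distrib, Finset.sum_div, Finset.mul_sum, Finset.sum_mul]
    congr 1
    · congr 1
      · exact Finset.sum_congr rfl fun i _ => by ring
      · exact Finset.sum_congr rfl fun i _ => by ring
    · exact Finset.sum_congr rfl fun i _ => by ring
  rw [hexp, hφ, hAc, hMM, h2K]
  field_simp
  ring

end Vale.Agent.P110.CellProof
end
end

section

section

/-!
# P110, module C5, part 3: the cell system
-/

set_option autoImplicit false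

namespace Vale.Agent.P110.CellProof

open Finset

variable {d : ℕ} {X : Finset (Fin d → ℤ)} {V : Fin d → ℤ}

/-- phase shift realising the sign of the coefficient -/
noncomputable def hsgn (a : (Fin d → ℤ) → ℝ) (χ : Fin d → ℤ) : ℝ := if a χ < 0 then 1 / 2 else 0

/-- phase of a comb slot -/
noncomputable def omS (S : CombSystem d X V) (a : (Fin d → ℤ) → ℝ) (W : (Fin d → ℤ) → ℕ → ℝ)
    (i : Slot S) : ℝ :=
  if upS S i then W i.2.1.1 i.2.2 + hsgn a i.2.1.1 else -(W i.2.1.1 i.2.2 + hsgn a i.2.1.1)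

/-- the cosine attached to a comb slot -/
lemma slot_cos (hG : GoodSet d X V) (S : CombSystem d X V) (a : (Fin d → ℤ) → ℝ)
    (W : (Fin d → ℤ) → ℕ → ℝ) (i : Slot S) (k : ℤ) (ζ : ℝ) :
    Real.cos (2 * Real.pi * (omS S a W i
          - k * (if upS S i then (startS S i : ℝ) / (2 * KK S)
              else ((startS S i + lenS S i : ℕ) : ℝ) / (2 * KK S))
          - (if upS S i then 1 else -1) * ((lenS S i : ℝ) / (2 * KK S)) * ζ)) =
      Real.cos (2 * Real.pi * (W i.2.1.1 i.2.2 + hsgn a i.2.1.1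
        - k * (AA S i.1 i.2.1.1 i.2.2 / (2 * KK S)) - (dot i.2.1.1 V : ℝ) / (2 * KK S) * ζ)) := by
  have hKpos : (0 : ℝ) < 2 * KK S := by have := KK_pos S; positivity
  have hK1 : (KK S : ℝ) ≠ 0 := by have := KK_pos S; positivity
  have hl : (lenS S i : ℝ) = dot i.2.1.1 V := by exact_mod_cast lenS_cast hG S i
  by_cases h : AA S i.1 i.2.1.1 i.2.2 < KK S
  · have hup : upS S i = true := by simp only [upS, h, decide_true]
    have hs : (startS S i : ℝ) = AA S i.1 i.2.1.1 i.2.2 := by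
      exact_mod_cast (startS_up hG S i h).1
    rw [omS, hup, if_pos rfl, if_pos rfl, if_pos rfl, hs, hl, one_mul]
  · have hup : upS S i = false := by simp [upS, h]
    have hs : (startS S i : ℝ) = 2 * KK S - AA S i.1 i.2.1.1 i.2.2 - dot i.2.1.1 V := by
      exact_mod_cast (startS_down hG S i h).1
    rw [omS, hup, if_neg Bool.false_ne_true, if_neg Bool.false_ne_true,
      if_neg Bool.false_ne_true]
    push_cast
    rw [hs, hl, ← Real.cos_neg (2 * Real.pi * (W _ _ + _ - _ - _)),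
      ← cos_add_int (-(W i.2.1.1 i.2.2 + hsgn a i.2.1.1) - _ - _) k]
    congr 1
    field_simp
    ring

/-- sum over the slots of comb `p` -/
lemma comb_alg (hG : GoodSet d X V) (S : CombSystem d X V) (a : (Fin d → ℤ) → ℝ)
    (W : (Fin d → ℤ) → ℕ → ℝ)
    (hW : ∀ χ ∈ X, ∀ k : ℤ, ∑ s ∈ range (mm S χ), e (W χ s - k * s / (mm S χ)) =
      (Real.sqrt (mm S χ) : ℂ) * e (-((Ac S χ) * k ^ 2 / (mm S χ))))
    (β : ℝ) (hβ : 0 < β) (p : Fin S.P) (k : ℤ) (ζ : ℝ) :
    ∑ x : (Σ χ : {x // x ∈ X}, Fin (mm S χ.1)),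
      2 * Real.sqrt ((lenS S (p, x) : ℝ) / (2 * KK S) / β) *
        Real.cos (2 * Real.pi * (omS S a W (p, x)
          - k * (if upS S (p, x) then (startS S (p, x) : ℝ) / (2 * KK S)
              else ((startS S (p, x) + lenS S (p, x) : ℕ) : ℝ) / (2 * KK S))
          - (if upS S (p, x) then 1 else -1) * ((lenS S (p, x) : ℝ) / (2 * KK S)) * ζ)) =
      2 * ∑ χ ∈ X, (Real.sqrt ((dot χ V : ℝ) / (S.q χ * S.g * β)) *
        (if a χ < 0 then -1 else 1)) * Real.cos (2 * Real.pi * ∑ i, (χ i : ℝ) *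
        ((S.c i : ℝ) * k ^ 2 / MM S + k * (S.R p i : ℝ) / (2 * KK S) +
          ζ * V i / (2 * KK S))) := by
  have hKpos : (0 : ℝ) < 2 * KK S := by have := KK_pos S; positivity
  rw [← Finset.univ_sigma_univ, Finset.sum_sigma, Finset.mul_sum, ← Finset.sum_coe_sort X]
  refine Finset.sum_congr rfl fun χ _ => ?_
  obtain ⟨χ, hχ⟩ := χ
  have hmpos : (0 : ℝ) < mm S χ := by exact_mod_cast mm_pos S χ
  have hqpos : (0 : ℝ) < S.q χ := by exact_mod_cast q_pos S hχ
  have hgpos : (0 : ℝ) < S.g := by exact_mod_cast S.g_pos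
  have h2K : (2 * KK S : ℝ) = S.q χ * mm S χ * S.g := by
    have := two_KK S
    rw [← q_mul_mm S hχ] at this
    exact_mod_cast this
  have hterm : ∀ s : Fin (mm S χ),
      2 * Real.sqrt ((lenS S (p, ⟨⟨χ, hχ⟩, s⟩) : ℝ) / (2 * KK S) / β) *
        Real.cos (2 * Real.pi * (omS S a W (p, ⟨⟨χ, hχ⟩, s⟩)
          - k * (if upS S (p, ⟨⟨χ, hχ⟩, s⟩) then (startS S (p, ⟨⟨χ, hχ⟩, s⟩) : ℝ) / (2 * KK S)
              else ((startS S (p, ⟨⟨χ, hχ⟩, s⟩) + lenS S (p, ⟨⟨χ, hχ⟩, s⟩) : ℕ) : ℝ) / (2 * KK S))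
          - (if upS S (p, ⟨⟨χ, hχ⟩, s⟩) then 1 else -1) *
            ((lenS S (p, ⟨⟨χ, hχ⟩, s⟩) : ℝ) / (2 * KK S)) * ζ)) =
      2 * Real.sqrt ((dot χ V : ℝ) / (2 * KK S) / β) *
        Real.cos (2 * Real.pi * (W χ s + hsgn a χ
        - k * (AA S p χ s / (2 * KK S)) - (dot χ V : ℝ) / (2 * KK S) * ζ)) := by
    intro s
    have h1 := slot_cos hG S a W (p, ⟨⟨χ, hχ⟩, s⟩) k ζ
    have hl : (lenS S (p, ⟨⟨χ, hχ⟩, s⟩) : ℝ) = dot χ V := by
      exact_mod_cast lenS_cast hG S (p, ⟨⟨χ, hχ⟩, s⟩)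
    rw [h1, hl]
  rw [Finset.sum_congr rfl fun s _ => hterm s, ← Finset.mul_sum,
    comb_sum S hχ p (W χ) (hW χ hχ) (hsgn a χ) k ζ]
  set Θ := ∑ i, (χ i : ℝ) * ((S.c i : ℝ) * k ^ 2 / MM S + k * (S.R p i : ℝ) / (2 * KK S) +
          ζ * V i / (2 * KK S)) with hΘ
  have hcos : Real.cos (2 * Real.pi * (Θ - hsgn a χ)) =
      (if a χ < 0 then -1 else 1) * Real.cos (2 * Real.pi * Θ) := by
    unfold hsgn
    by_cases h : a χ < 0
    · rw [if_pos h, if_pos h, show 2 * Real.pi * (Θ - 1 / 2) = 2 * Real.pi * Θ - Real.pi by ring,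
        Real.cos_sub_pi]
      ring
    · rw [if_neg h, if_neg h]; simp
  have hsq : Real.sqrt ((dot χ V : ℝ) / (2 * KK S) / β) * Real.sqrt (mm S χ) =
      Real.sqrt ((dot χ V : ℝ) / (S.q χ * S.g * β)) := by
    rw [← Real.sqrt_mul' _ hmpos.le]
    congr 1
    rw [h2K]
    (clear * - hmpos hβ hgpos hqpos; field_simp)
  rw [hcos, ← hsq]
  simp only
  ring

/-- the bound for a comb block -/
lemma comb_bound (hG : GoodSet d X V) (S : CombSystem d X V) (a : (Fin d → ℤ) → ℝ)
    (hF : ∀ γ : Fin d → ℝ,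
      |2 * ∑ χ ∈ X, a χ * Real.cos (2 * Real.pi * ∑ i, χ i * γ i)| ≤ 1)
    (S2 ε δ : ℝ) (hS2 : 0 < S2) (hε : 0 < ε) (hδ : 0 ≤ δ) (haε : 2 * ε * ∑ χ ∈ X, |a χ| ≤ δ)
    (ha : ∀ χ ∈ X, a χ ≠ 0)
    (hq1 : ∀ χ ∈ X, (S.P * dot χ V : ℝ) / (S.g * (a χ ^ 2 / S2)) ≤ S.q χ)
    (hq2 : ∀ χ ∈ X, (S.q χ : ℝ) ≤ (1 + ε) * ((S.P * dot χ V : ℝ) / (S.g * (a χ ^ 2 / S2))))
    (γ : Fin d → ℝ) :
    |2 * ∑ χ ∈ X, (Real.sqrt ((dot χ V : ℝ) / (S.q χ * S.g * ((1 + δ) ^ 2 / (S.P * S2)))) *
        (if a χ < 0 then -1 else 1)) * Real.cos (2 * Real.pi * ∑ i, (χ i : ℝ) * γ i)| ≤ 1 := by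
  have hgpos : (0 : ℝ) < S.g := by exact_mod_cast S.g_pos
  have hPpos : (0 : ℝ) < S.P := by exact_mod_cast S.P_pos
  have hδ1 : 0 < 1 + δ := by linarith
  -- the coefficients
  set r : (Fin d → ℤ) → ℝ := fun χ =>
    Real.sqrt ((dot χ V : ℝ) / (S.q χ * S.g * ((1 + δ) ^ 2 / (S.P * S2)))) *
        (if a χ < 0 then -1 else 1) with hr
  have hkey : ∀ χ ∈ X, |a χ - (1 + δ) * r χ| ≤ ε * |a χ| := by
    intro χ hχ
    have hqpos : (0 : ℝ) < S.q χ := by exact_mod_cast q_pos S hχ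
    have hL : (0 : ℝ) < dot χ V := by exact_mod_cast hG.V_pos χ hχ
    have ha2 : 0 < a χ ^ 2 := by have := ha χ hχ; (clear * - this; positivity)
    set t : ℝ := (dot χ V : ℝ) * S.P * S2 / (S.q χ * S.g) with ht
    have ht0 : 0 < t := by (clear * - hL hPpos hS2 hqpos hgpos; positivity)
    have e1 : (1 + δ) * Real.sqrt ((dot χ V : ℝ) / (S.q χ * S.g * ((1 + δ) ^ 2 / (S.P * S2)))) =
        Real.sqrt t := by
      have : t = (1 + δ) ^ 2 * ((dot χ V : ℝ) / (S.q χ * S.g * ((1 + δ) ^ 2 / (S.P * S2)))) := by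
        rw [ht]; (clear * - hδ hgpos hqpos hS2 hPpos hL; field_simp)
      rw [this, Real.sqrt_mul (by (clear * - hδ; positivity)), Real.sqrt_sq hδ1.le]
    have h1 : t ≤ a χ ^ 2 := by
      have h := hq1 χ hχ
      rw [div_le_iff₀ (by (clear * - hgpos ha2 hS2; positivity))] at h
      rw [ht, div_le_iff₀ (by (clear * - hqpos hgpos; positivity))]
      have : S.P * (dot χ V : ℝ) * S2 ≤ S.q χ * (S.g * (a χ ^ 2 / S2)) * S2 :=
        mul_le_mul_of_nonneg_right h hS2.le
      have e2 : S.q χ * (S.g * (a χ ^ 2 / S2)) * S2 = a χ ^ 2 * (S.q χ * S.g) := by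
        (clear * - hS2 hgpos hqpos; field_simp)
      linarith only [this, e2]
    have h2 : a χ ^ 2 ≤ (1 + ε) * t := by
      have h := hq2 χ hχ
      rw [← mul_div_assoc, le_div_iff₀ (by (clear * - hgpos ha2 hS2; positivity))] at h
      have e2 : (1 + ε) * t = ((1 + ε) * (S.P * (dot χ V : ℝ))) * S2 / (S.q χ * S.g) := by
        rw [ht]; ring
      rw [e2, le_div_iff₀ (by (clear * - hqpos hgpos; positivity))]
      have : S.q χ * (S.g * (a χ ^ 2 / S2)) * S2 ≤ (1 + ε) * (S.P * (dot χ V : ℝ)) * S2 :=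
        mul_le_mul_of_nonneg_right h hS2.le
      have e3 : S.q χ * (S.g * (a χ ^ 2 / S2)) * S2 = a χ ^ 2 * (S.q χ * S.g) := by
        (clear * - hS2 hgpos hqpos; field_simp)
      linarith only [this, e3]
    have h3 : Real.sqrt t ≤ |a χ| := by
      rw [← Real.sqrt_sq_eq_abs]; exact Real.sqrt_le_sqrt h1
    have h4 : |a χ| ≤ (1 + ε) * Real.sqrt t := by
      rw [← Real.sqrt_sq_eq_abs]
      have : Real.sqrt (a χ ^ 2) ≤ Real.sqrt ((1 + ε) ^ 2 * t) := by
        apply Real.sqrt_le_sqrt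
        nlinarith only [h2, hε]
      rwa [Real.sqrt_mul (by positivity), Real.sqrt_sq (show (0 : ℝ) ≤ 1 + ε by linarith only [hε])] at this
    have h5 : a χ - (1 + δ) * r χ = (|a χ| - Real.sqrt t) * (if a χ < 0 then -1 else 1) := by
      simp only [hr]
      rw [← mul_assoc, e1]
      by_cases h : a χ < 0
      · rw [if_pos h, abs_of_neg h]; ring
      · rw [if_neg h, abs_of_nonneg (not_lt.1 h)]; ring
    have h6 : |(if a χ < 0 then -1 else 1 : ℝ)| = 1 := by
      by_cases h : a χ < 0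
      · rw [if_pos h]; norm_num
      · rw [if_neg h]; norm_num
    rw [h5, abs_mul, h6, mul_one, abs_of_nonneg (by linarith only [h3])]
    nlinarith only [h4, hε, h3]
  have hsplit : (1 + δ) * (2 * ∑ χ ∈ X, r χ * Real.cos (2 * Real.pi * ∑ i, (χ i : ℝ) * γ i)) =
      2 * ∑ χ ∈ X, a χ * Real.cos (2 * Real.pi * ∑ i, (χ i : ℝ) * γ i) -
      2 * ∑ χ ∈ X, (a χ - (1 + δ) * r χ) * Real.cos (2 * Real.pi * ∑ i, (χ i : ℝ) * γ i) := by
    rw [← mul_sub, ← Finset.sum_sub_distrib, ← mul_assoc, mul_comm (1 + δ) 2, mul_assoc,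
      Finset.mul_sum]
    congr 1
    exact Finset.sum_congr rfl fun χ _ => by ring
  have herr : |2 * ∑ χ ∈ X, (a χ - (1 + δ) * r χ) *
      Real.cos (2 * Real.pi * ∑ i, (χ i : ℝ) * γ i)| ≤ δ := by
    rw [abs_mul, abs_of_pos (by norm_num : (0 : ℝ) < 2)]
    calc 2 * |∑ χ ∈ X, (a χ - (1 + δ) * r χ) * Real.cos (2 * Real.pi * ∑ i, (χ i : ℝ) * γ i)|
        ≤ 2 * ∑ χ ∈ X, |(a χ - (1 + δ) * r χ) * Real.cos (2 * Real.pi * ∑ i, (χ i : ℝ) * γ i)| :=
          mul_le_mul_of_nonneg_left (Finset.abs_sum_le_sum_abs _ _) (by norm_num)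
      _ ≤ 2 * ∑ χ ∈ X, ε * |a χ| := by
          apply mul_le_mul_of_nonneg_left _ (by norm_num)
          apply Finset.sum_le_sum
          intro χ hχ
          rw [abs_mul]
          calc _ ≤ (ε * |a χ|) * 1 :=
                mul_le_mul (hkey χ hχ) (Real.abs_cos_le_one _) (abs_nonneg _) (by (clear * - hε; positivity))
            _ = _ := mul_one _
      _ = 2 * ε * ∑ χ ∈ X, |a χ| := by rw [← Finset.mul_sum]; ring
      _ ≤ δ := haε
  have hF' := hF γ
  have h7 : |(1 + δ) * (2 * ∑ χ ∈ X, r χ * Real.cos (2 * Real.pi * ∑ i, (χ i : ℝ) * γ i))| ≤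
      1 + δ := by
    rw [hsplit]
    calc _ ≤ |2 * ∑ χ ∈ X, a χ * Real.cos (2 * Real.pi * ∑ i, (χ i : ℝ) * γ i)| +
        |2 * ∑ χ ∈ X, (a χ - (1 + δ) * r χ) *
          Real.cos (2 * Real.pi * ∑ i, (χ i : ℝ) * γ i)| := abs_sub _ _
      _ ≤ _ := add_le_add hF' herr
  rw [abs_mul, abs_of_pos hδ1] at h7
  rw [← mul_one (1 + δ), mul_assoc, one_mul] at h7
  exact le_of_mul_le_mul_left h7 hδ1

end Vale.Agent.P110.CellProof
end
end

section

section

/-! # C3: chirps on `ZMod m` have a flat spectrum -/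

namespace Vale.Agent.P110.C3

open Finset

theorem e_add (x y : ℝ) : e (x + y) = e x * e y := by
  unfold e
  rw [← Complex.exp_add]
  congr 1
  push_cast
  ring

theorem norm_e (x : ℝ) : ‖e x‖ = 1 := by
  unfold e
  rw [Complex.norm_exp_ofReal_mul_I]

theorem e_zero : e 0 = 1 := by simp [e]

/-- `e` in terms of the standard additive character -/
theorem e_div_eq (m : ℕ) [NeZero m] (j : ℤ) :
    e ((j : ℝ) / m) = ZMod.stdAddChar (N := m) (j : ZMod m) := by
  rw [ZMod.stdAddChar_coe]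
  unfold e
  congr 1
  push_cast
  ring

theorem sum_range_zmod {m : ℕ} [NeZero m] (f : ZMod m → ℂ) :
    ∑ s ∈ range m, f (s : ZMod m) = ∑ x : ZMod m, f x := by
  classical
  refine Finset.sum_bij' (fun s _ => (s : ZMod m)) (fun x _ => x.val) ?_ ?_ ?_ ?_ ?_
  · intro s _; exact mem_univ _
  · intro x _; exact mem_range.mpr (ZMod.val_lt x)
  · intro s hs; exact ZMod.val_cast_of_lt (mem_range.mp hs)
  · intro x _; exact ZMod.natCast_zmod_val x
  · intro s _; rfl

theorem gauss_norm_sq (m : ℕ) [NeZero m] (a : ZMod m) (ha : IsUnit (2 * a)) :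
    Complex.normSq (∑ x : ZMod m, ZMod.stdAddChar (N := m) (a * x ^ 2)) = m := by
  classical
  set ψ := ZMod.stdAddChar (N := m) with hψ
  have hprim := ZMod.isPrimitive_stdAddChar m
  have key : (∑ x : ZMod m, ψ (a * x ^ 2)) * (starRingEnd ℂ) (∑ x : ZMod m, ψ (a * x ^ 2))
      = (m : ℂ) := by
    rw [map_sum]
    have hconj : ∀ y : ZMod m, (starRingEnd ℂ) (ψ (a * y ^ 2)) = ψ (-(a * y ^ 2)) := by
      intro y
      rw [AddChar.map_neg_eq_conj]
    simp_rw [hconj]
    rw [Finset.sum_mul_sum]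
    -- sum over x, y; put x = y + h
    rw [Finset.sum_comm]
    have h1 : ∀ y : ZMod m, ∑ x : ZMod m, ψ (a * x ^ 2) * ψ (-(a * y ^ 2))
        = ∑ h : ZMod m, ψ (a * h ^ 2) * ψ (y * (2 * a * h)) := by
      intro y
      rw [← Equiv.sum_comp (Equiv.addRight y)]
      refine Finset.sum_congr rfl (fun h _ => ?_)
      rw [← AddChar.map_add_eq_mul, ← AddChar.map_add_eq_mul]
      congr 1
      simp only [Equiv.coe_addRight]
      ring
    simp_rw [h1]
    rw [Finset.sum_comm]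
    simp_rw [← Finset.mul_sum]
    have h2 : ∀ h : ZMod m, ∑ y : ZMod m, ψ (y * (2 * a * h)) = if h = 0 then (m : ℂ) else 0 := by
      intro h
      rw [AddChar.sum_mulShift _ hprim]
      have : (2 * a * h = 0) ↔ h = 0 := by
        constructor
        · intro hh
          exact (IsUnit.mul_right_eq_zero ha).mp hh
        · intro hh; rw [hh, mul_zero]
      simp only [this, ZMod.card]
      split_ifs <;> simp
    simp_rw [h2]
    simp only [mul_ite, mul_zero, sum_ite_eq', mem_univ, ↓reduceIte, ne_eq, OfNat.ofNat_ne_zero, not_false_eq_true, zero_pow, AddChar.map_zero_eq_one, one_mul]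
  have h3 : ((Complex.normSq (∑ x : ZMod m, ψ (a * x ^ 2)) : ℝ) : ℂ) = (m : ℂ) := by
    rw [← key, Complex.mul_conj]
  exact_mod_cast h3

theorem exists_e_eq (z : ℂ) : ∃ t : ℝ, z = (‖z‖ : ℂ) * e t := by
  refine ⟨z.arg / (2 * Real.pi), ?_⟩
  unfold e
  have : ((2 * Real.pi * (z.arg / (2 * Real.pi)) : ℝ) : ℂ) = (z.arg : ℂ) := by
    congr 1
    field_simp
  rw [this]
  exact (Complex.norm_mul_exp_arg_mul_I z).symm

theorem gauss_main : GaussStatement := by
  intro m hm A hA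
  have hm0 : m ≠ 0 := by rintro rfl; simp at hm
  have : NeZero m := ⟨hm0⟩
  -- inverse of 4A mod m
  have hcop : IsCoprime (4 * A) (m : ℤ) := by
    refine IsCoprime.mul_left ?_ hA
    have h2 : IsCoprime (2 : ℤ) (m : ℤ) := by
      rw [Int.isCoprime_iff_gcd_eq_one]
      have := Nat.coprime_two_left.mpr hm
      exact_mod_cast this
    have : (4 : ℤ) = 2 * 2 := by norm_num
    rw [this]
    exact IsCoprime.mul_left h2 h2
  obtain ⟨a, b, hab⟩ := hcop
  -- a * (4A) + b * m = 1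
  have haz : (a : ZMod m) * (4 * (A : ZMod m)) = 1 := by
    have := congrArg (fun x : ℤ => (x : ZMod m)) hab
    push_cast at this
    simpa only [CharP.cast_eq_zero, mul_zero, add_zero] using this
  have hunit : IsUnit (2 * (a : ZMod m)) :=
    IsUnit.of_mul_eq_one (2 * (A : ZMod m)) (by linear_combination haz)
  set ψ := ZMod.stdAddChar (N := m) with hψ
  set G : ℂ := ∑ x : ZMod m, ψ ((a : ZMod m) * x ^ 2) with hG
  have hGn : ‖G‖ = Real.sqrt m := by
    rw [Complex.norm_def, hG, gauss_norm_sq m (a : ZMod m) hunit]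
  obtain ⟨t, ht⟩ := exists_e_eq G
  rw [hGn] at ht
  refine ⟨fun s => ((a * s ^ 2 : ℤ) : ℝ) / m - t, fun k => ?_⟩
  have hterm : ∀ s ∈ range m, e (((a * s ^ 2 : ℤ) : ℝ) / m - t - k * s / m)
      = e (-t) * ψ ((a : ZMod m) * (s : ZMod m) ^ 2 - (k : ZMod m) * (s : ZMod m)) := by
    intro s _
    have h1 : ((a * s ^ 2 : ℤ) : ℝ) / m - t - k * s / m
        = -t + (((a * s ^ 2 - k * s : ℤ)) : ℝ) / m := by
      push_cast; ring
    rw [h1, e_add, e_div_eq]
    congr 2
    push_cast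
    ring
  rw [Finset.sum_congr rfl hterm, ← Finset.mul_sum,
    sum_range_zmod (m := m) (fun x => ψ ((a : ZMod m) * x ^ 2 - (k : ZMod m) * x))]
  have hshift : ∑ x : ZMod m, ψ ((a : ZMod m) * x ^ 2 - (k : ZMod m) * x)
      = ψ (-((A : ZMod m) * (k : ZMod m) ^ 2)) * G := by
    rw [hG, Finset.mul_sum, ← Equiv.sum_comp (Equiv.addRight (2 * (A : ZMod m) * (k : ZMod m)))]
    refine Finset.sum_congr rfl (fun x _ => ?_)
    rw [← AddChar.map_add_eq_mul]
    congr 1
    simp only [Equiv.coe_addRight]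
    linear_combination (x * (k : ZMod m) + (A : ZMod m) * (k : ZMod m) ^ 2) * haz
  rw [hshift]
  have hAk : ψ (-((A : ZMod m) * (k : ZMod m) ^ 2)) = e (-(A * k ^ 2 / m)) := by
    have : (-(A * k ^ 2 / m) : ℝ) = (((-(A * k ^ 2) : ℤ)) : ℝ) / m := by
      push_cast; ring
    rw [this, e_div_eq]
    congr 1
    push_cast
    ring
  rw [hAk, ht]
  have hee : e (-t) * e t = 1 := by
    rw [← e_add]; simp [e_zero]
  linear_combination (e (-(A * k ^ 2 / m)) * (Real.sqrt m : ℂ)) * hee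

end Vale.Agent.P110.C3

namespace Vale.Agent.P110

/-- C3 -/
theorem gaussStatement : GaussStatement := C3.gauss_main

end Vale.Agent.P110
end
end

section

section

/-! P110, AT: Fresnel integrals and the asymptotics of one slot. -/

open Finset MeasureTheory

namespace Vale.Agent.P110.AT

open Vale.Agent.P110 (e)

lemma norm_e_sub_le (s t : ℝ) : ‖e s - e t‖ ≤ 2 * Real.pi * |s - t| := by
  have h1 : ∀ x ∈ (Set.univ : Set ℝ),
      HasDerivWithinAt e (2 * Real.pi * Complex.I * e x) Set.univ x :=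
    fun x _ => (hasDerivAt_e x).hasDerivWithinAt
  have h2 : ∀ x ∈ (Set.univ : Set ℝ), ‖2 * Real.pi * Complex.I * e x‖ ≤ 2 * Real.pi := by
    intro x _
    rw [norm_mul, norm_e, mul_one, norm_mul, Complex.norm_I, mul_one, norm_mul]
    simp [abs_of_pos Real.pi_pos]
  have := convex_univ.norm_image_sub_le_of_norm_hasDerivWithin_le h1 h2
    (Set.mem_univ t) (Set.mem_univ s)
  simpa only [ge_iff_le, Real.norm_eq_abs] using this

/-- First derivative bound: `F' = c (y - a) g F`, then `∫ g F` is small away from `a`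
(interval to the right of `a`). -/
lemma by_parts_right {F : ℝ → ℂ} {g : ℝ → ℝ} {c : ℂ} {a y1 y2 δ : ℝ} (hc : c ≠ 0) (hδ : 0 < δ)
    (h12 : y1 ≤ y2) (hg : Continuous g)
    (hF : ∀ y, HasDerivAt F (c * ((y - a : ℝ) : ℂ) * (g y : ℂ) * F y) y)
    (hF1 : ∀ y, ‖F y‖ ≤ 1)
    (hsep : a + δ ≤ y1) :
    ‖∫ y in y1..y2, (g y : ℂ) * F y‖ ≤ 2 / (‖c‖ * δ) := by
  have hpos : ∀ y ∈ Set.uIcc y1 y2, 0 < y - a := by
    intro y hy
    rw [Set.uIcc_of_le h12] at hy
    linarith only [hδ, hsep, hy.1]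
  have hne : ∀ y ∈ Set.uIcc y1 y2, y - a ≠ 0 := fun y hy => (hpos y hy).ne'
  have hneC : ∀ y ∈ Set.uIcc y1 y2, ((y - a : ℝ) : ℂ) ≠ 0 := fun y hy => by
    exact_mod_cast hne y hy
  have hFc : Continuous F := continuous_iff_continuousAt.mpr fun y => (hF y).continuousAt
  -- the function `F / (y - a)`
  have hH : ∀ y ∈ Set.uIcc y1 y2, HasDerivAt (fun y : ℝ => F y / ((y - a : ℝ) : ℂ))
      (c * (g y : ℂ) * F y - F y / ((y - a : ℝ) : ℂ) ^ 2) y := by
    intro y hy
    have h1 : HasDerivAt (fun y : ℝ => ((y - a : ℝ) : ℂ)) 1 y := by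
      have := ((hasDerivAt_id y).sub_const a).ofReal_comp
      simpa using this
    have h2 := (hF y).div h1 (hneC y hy)
    refine h2.congr_deriv ?_
    have h3 := hneC y hy
    rw [div_eq_iff (pow_ne_zero 2 h3), sub_mul, div_mul_cancel₀ _ (pow_ne_zero 2 h3)]
    ring
  have hcont1 : ContinuousOn (fun y : ℝ => c * (g y : ℂ) * F y) (Set.uIcc y1 y2) := by
    apply Continuous.continuousOn
    (clear * - hg hFc; fun_prop)
  have hcont2 : ContinuousOn (fun y : ℝ => F y / ((y - a : ℝ) : ℂ) ^ 2) (Set.uIcc y1 y2) := by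
    apply ContinuousOn.div hFc.continuousOn
    · (clear * -; fun_prop)
    · intro y hy
      exact pow_ne_zero 2 (hneC y hy)
  have hint := intervalIntegral.integral_eq_sub_of_hasDerivAt hH
    (hcont1.intervalIntegrable.sub hcont2.intervalIntegrable)
  rw [intervalIntegral.integral_sub hcont1.intervalIntegrable hcont2.intervalIntegrable] at hint
  have hc1 : ∫ y in y1..y2, c * (g y : ℂ) * F y = c * ∫ y in y1..y2, (g y : ℂ) * F y := by
    rw [← intervalIntegral.integral_const_mul]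
    congr 1
    funext y
    ring
  rw [hc1] at hint
  -- bound of the second integral
  have hre : ∀ y ∈ Set.uIcc y1 y2,
      HasDerivAt (fun y : ℝ => - (y - a)⁻¹) (((y - a) ^ 2)⁻¹) y := by
    intro y hy
    have h1 : HasDerivAt (fun y : ℝ => y - a) 1 y := (hasDerivAt_id y).sub_const a
    have h2 := (h1.inv (hne y hy)).neg
    refine h2.congr_deriv ?_
    rw [neg_div, neg_neg, one_div]
  have hcr : ContinuousOn (fun y : ℝ => ((y - a) ^ 2)⁻¹) (Set.uIcc y1 y2) := by
    apply ContinuousOn.inv₀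
    · fun_prop
    · intro y hy
      exact pow_ne_zero 2 (hne y hy)
  have hint2 := intervalIntegral.integral_eq_sub_of_hasDerivAt hre hcr.intervalIntegrable
  have hb2 : ‖∫ y in y1..y2, F y / ((y - a : ℝ) : ℂ) ^ 2‖ ≤ ∫ y in y1..y2, ((y - a) ^ 2)⁻¹ := by
    apply intervalIntegral.norm_integral_le_of_norm_le h12 _ hcr.intervalIntegrable
    refine ae_of_all _ fun y hy => ?_
    rw [norm_div, norm_pow, Complex.norm_real, Real.norm_eq_abs, sq_abs, div_eq_mul_inv]
    have : 0 ≤ ((y - a) ^ 2)⁻¹ := by (clear * -; positivity)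
    have := hF1 y
    (clear g c y1 y2 δ hc hδ h12 hg hF hsep hpos hne hneC hFc hH hcont1 hcont2 hint hc1 hre hcr hint2 hy; nlinarith)
  have hp1 : 0 < y1 - a := by linarith only [hδ, hsep]
  have hp2 : 0 < y2 - a := by linarith only [hδ, h12, hsep]
  have hq : ∀ y, 0 < y - a → ‖F y / ((y - a : ℝ) : ℂ)‖ ≤ (y - a)⁻¹ := by
    intro y hy
    rw [norm_div, Complex.norm_real, Real.norm_eq_abs, div_eq_mul_inv, abs_of_pos hy]
    have : 0 ≤ (y - a)⁻¹ := by (clear * - hy; positivity)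
    have := hF1 y
    (clear g c y1 y2 δ hc hδ h12 hg hF hsep hpos hne hneC hFc hH hcont1 hcont2 hint hc1 hre hcr hint2 hb2 hp1 hp2; nlinarith)
  have hmain : c * ∫ y in y1..y2, (g y : ℂ) * F y =
      F y2 / ((y2 - a : ℝ) : ℂ) - F y1 / ((y1 - a : ℝ) : ℂ) +
        ∫ y in y1..y2, F y / ((y - a : ℝ) : ℂ) ^ 2 := by
    rw [← hint]; ring
  have hnorm : ‖c‖ * ‖∫ y in y1..y2, (g y : ℂ) * F y‖ ≤ 2 / δ := by
    rw [← norm_mul, hmain]
    calc _ ≤ ‖F y2 / ((y2 - a : ℝ) : ℂ) - F y1 / ((y1 - a : ℝ) : ℂ)‖ +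
        ‖∫ y in y1..y2, F y / ((y - a : ℝ) : ℂ) ^ 2‖ := norm_add_le _ _
      _ ≤ (‖F y2 / ((y2 - a : ℝ) : ℂ)‖ + ‖F y1 / ((y1 - a : ℝ) : ℂ)‖) +
          (- (y2 - a)⁻¹ - - (y1 - a)⁻¹) := by
          gcongr
          · exact norm_sub_le _ _
          · exact hb2.trans hint2.le
      _ ≤ ((y2 - a)⁻¹ + (y1 - a)⁻¹) + (- (y2 - a)⁻¹ - - (y1 - a)⁻¹) := by
          gcongr
          · exact hq y2 hp2
          · exact hq y1 hp1
      _ = 2 / (y1 - a) := by ring
      _ ≤ 2 / δ := by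
          gcongr
          linarith only [hsep]
  have hcpos : 0 < ‖c‖ := norm_pos_iff.mpr hc
  rw [le_div_iff₀ (by positivity)]
  calc ‖∫ y in y1..y2, (g y : ℂ) * F y‖ * (‖c‖ * δ) =
      (‖c‖ * ‖∫ y in y1..y2, (g y : ℂ) * F y‖) * δ := by ring
    _ ≤ 2 / δ * δ := by (clear * - hnorm hδ; gcongr)
    _ = 2 := by field_simp

/-- mirror image of `by_parts_right` -/
lemma by_parts_left {F : ℝ → ℂ} {g : ℝ → ℝ} {c : ℂ} {a y1 y2 δ : ℝ} (hc : c ≠ 0) (hδ : 0 < δ)
    (h12 : y1 ≤ y2) (hg : Continuous g)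
    (hF : ∀ y, HasDerivAt F (c * ((y - a : ℝ) : ℂ) * (g y : ℂ) * F y) y)
    (hF1 : ∀ y, ‖F y‖ ≤ 1)
    (hsep : y2 ≤ a - δ) :
    ‖∫ y in y1..y2, (g y : ℂ) * F y‖ ≤ 2 / (‖c‖ * δ) := by
  have h := by_parts_right (F := fun y => F (-y)) (g := fun y => g (-y)) (c := c) (a := -a)
    (y1 := -y2) (y2 := -y1) hc hδ (by linarith only [h12]) (hg.comp continuous_neg)
    (by
      intro y
      have h1 : HasDerivAt (fun y : ℝ => -y) (-1) y := hasDerivAt_neg' y
      have h2 := (hF (-y)).scomp y h1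
      refine h2.congr_deriv ?_
      push_cast
      simp only [neg_smul, one_smul]
      ring)
    (fun y => hF1 _) (by linarith only [hsep])
  have h2 : ∫ y in (-y2)..(-y1), (g (-y) : ℂ) * F (-y) = ∫ y in y1..y2, (g y : ℂ) * F y := by
    rw [intervalIntegral.integral_comp_neg (fun y => (g y : ℂ) * F y)]
    simp only [neg_neg]
  rw [h2] at h
  exact h

/-! ### Fresnel integrals -/

/-- damped Fresnel exponential -/
noncomputable def fr (ε : ℝ) (w : ℝ) : ℂ :=
  Complex.exp (-(Real.pi * (ε - Complex.I)) * (w : ℂ) ^ 2)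

lemma fr_zero (w : ℝ) : fr 0 w = e (w ^ 2 / 2) := by
  unfold fr e
  congr 1
  push_cast
  ring

lemma norm_fr {ε : ℝ} (hε : 0 ≤ ε) (w : ℝ) : ‖fr ε w‖ ≤ 1 := by
  unfold fr
  rw [Complex.norm_exp, Real.exp_le_one_iff]
  have : (-(Real.pi * (ε - Complex.I)) * (w : ℂ) ^ 2).re = -(Real.pi * ε * w ^ 2) := by
    have h : (w : ℂ) ^ 2 = ((w ^ 2 : ℝ) : ℂ) := by push_cast; ring
    have h2 : (-(Real.pi * (ε - Complex.I)) * (w : ℂ) ^ 2) =
        ((-(Real.pi * ε * w ^ 2) : ℝ) : ℂ) + ((Real.pi * w ^ 2 : ℝ) : ℂ) * Complex.I := by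
      rw [h]; push_cast; ring
    rw [h2]
    simp only [Complex.add_re, Complex.ofReal_re, Complex.re_ofReal_mul, Complex.I_re, mul_zero,
      add_zero]
  rw [this]
  have := Real.pi_pos
  have : 0 ≤ Real.pi * ε * w ^ 2 := by (clear * - hε; positivity)
  linarith only [this]

lemma fr_neg (ε w : ℝ) : fr ε (-w) = fr ε w := by
  unfold fr
  congr 2
  push_cast
  ring

lemma continuous_fr (ε : ℝ) : Continuous (fr ε) := by
  unfold fr; fun_prop

lemma hasDerivAt_fr (ε w : ℝ) :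
    HasDerivAt (fr ε)
      (-(2 * Real.pi * (ε - Complex.I)) * (((w - 0 : ℝ)) : ℂ) * ((1 : ℝ) : ℂ) * fr ε w) w := by
  have h0 : HasDerivAt (fun w : ℝ => (w : ℂ)) 1 w := Complex.ofRealCLM.hasDerivAt
  have h1 : HasDerivAt (fun w : ℝ => (w : ℂ) ^ 2) (2 * (w : ℂ)) w := by
    have h3 := h0.fun_pow 2
    refine h3.congr_deriv ?_
    simp only [Nat.cast_ofNat, Nat.add_one_sub_one, pow_one, mul_one]
  have h2 := (h1.const_mul (-(Real.pi * (ε - Complex.I)) : ℂ)).cexp
  refine h2.congr_deriv ?_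
  unfold fr
  push_cast
  ring

lemma norm_coef (ε : ℝ) : 2 * Real.pi ≤ ‖(-(2 * Real.pi * (ε - Complex.I)) : ℂ)‖ := by
  rw [norm_neg, norm_mul]
  have h1 : ‖(2 * Real.pi : ℂ)‖ = 2 * Real.pi := by
    rw [norm_mul]; simp [abs_of_pos Real.pi_pos]
  rw [h1]
  have h2 : 1 ≤ ‖(ε - Complex.I : ℂ)‖ := by
    have h3 := Complex.abs_im_le_norm (ε - Complex.I : ℂ)
    simpa only [ge_iff_le, Complex.sub_im, Complex.ofReal_im, Complex.I_im, zero_sub, abs_neg, abs_one] using h3
  have := Real.pi_pos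
  nlinarith

lemma fr_tail {ε : ℝ} (hε : 0 ≤ ε) {w1 w2 : ℝ} (h1 : 0 < w1) (h12 : w1 ≤ w2) :
    ‖∫ w in w1..w2, fr ε w‖ ≤ 1 / (2 * w1) := by
  have h1' := by_parts_right (F := fr ε) (g := fun _ => 1) (a := 0)
    (c := -(2 * Real.pi * (ε - Complex.I))) (y1 := w1) (y2 := w2) (δ := w1)
    (by
      have := norm_coef ε
      intro h0
      rw [h0, norm_zero] at this
      have := Real.pi_pos
      linarith) h1 h12 continuous_const (fun y => hasDerivAt_fr ε y) (norm_fr hε)
    (by simp)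
  simp only [Complex.ofReal_one, one_mul] at h1'
  refine h1'.trans ?_
  have h2 := norm_coef ε
  have h3 := Real.pi_gt_three
  rw [div_le_div_iff₀ (by nlinarith only [h1, h2, h3]) (by linarith only [h1])]
  nlinarith only [h1, h2, h3]

lemma fr_half_pos {ε : ℝ} (hε : 0 ≤ ε) {w : ℝ} (hw : 0 ≤ w) : ‖∫ x in (0:ℝ)..w, fr ε x‖ ≤ 2 := by
  have hi : ∀ a b, IntervalIntegrable (fr ε) volume a b := fun a b =>
    (continuous_fr ε).intervalIntegrable a b
  have small : ∀ v : ℝ, |v| ≤ 1 → ‖∫ x in (0:ℝ)..v, fr ε x‖ ≤ 1 := by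
    intro v hv
    have h := intervalIntegral.norm_integral_le_of_norm_le_const (a := 0) (b := v) (C := 1)
      (f := fr ε) (fun w _ => norm_fr hε w)
    rw [one_mul, sub_zero] at h
    exact h.trans hv
  rcases le_or_gt w 1 with h | h
  · exact (small w (by rwa [abs_of_nonneg hw])).trans (by norm_num)
  · rw [← intervalIntegral.integral_add_adjacent_intervals (hi 0 1) (hi 1 w)]
    have h1 := small 1 (by simp)
    have h2 := fr_tail hε one_pos h.le
    calc _ ≤ _ := norm_add_le _ _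
      _ ≤ 1 + 1 / (2 * 1) := by (clear * - h1 h2; gcongr)
      _ ≤ 2 := by norm_num

lemma fr_half {ε : ℝ} (hε : 0 ≤ ε) (w : ℝ) : ‖∫ x in (0:ℝ)..w, fr ε x‖ ≤ 2 := by
  rcases le_or_gt 0 w with h | h
  · exact fr_half_pos hε h
  · have h1 := fr_half_pos hε (w := -w) (by linarith)
    have h2 : ∫ x in (0:ℝ)..(-w), fr ε x = - ∫ x in (0:ℝ)..w, fr ε x := by
      have h3 : ∫ x in (0:ℝ)..(-w), fr ε (-x) = ∫ x in w..0, fr ε x := by
        rw [intervalIntegral.integral_comp_neg (fun x => fr ε x)]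
        simp
      simp only [fr_neg] at h3
      rw [h3, intervalIntegral.integral_symm]
    rw [h2, norm_neg] at h1
    exact h1

lemma fr_bound {ε : ℝ} (hε : 0 ≤ ε) (w1 w2 : ℝ) :
    ‖∫ w in w1..w2, fr ε w‖ ≤ 4 := by
  have hi : ∀ a b, IntervalIntegrable (fr ε) volume a b := fun a b =>
    (continuous_fr ε).intervalIntegrable a b
  rw [← intervalIntegral.integral_add_adjacent_intervals (hi w1 0) (hi 0 w2)]
  have h1 := fr_half hε w1
  rw [intervalIntegral.integral_symm, norm_neg] at h1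
  calc _ ≤ _ := norm_add_le _ _
    _ ≤ 2 + 2 := by gcongr; exact fr_half hε w2
    _ = 4 := by norm_num

lemma scale_e {c : ℝ} (hc : 0 < c) (u v : ℝ) :
    ∫ x in u..v, e (c * x ^ 2 / 2) =
      ((√c)⁻¹ : ℝ) * ∫ x in (√c * u)..(√c * v), e (x ^ 2 / 2) := by
  have hs : √c ≠ 0 := (Real.sqrt_pos.2 hc).ne'
  have h := intervalIntegral.integral_comp_mul_left (fun x => e (x ^ 2 / 2)) hs (a := u) (b := v)
  rw [Complex.real_smul] at h
  rw [← h]
  congr 1
  funext x
  rw [mul_pow, Real.sq_sqrt hc.le]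

theorem fresnel_bound {c : ℝ} (hc : 0 < c) (u v : ℝ) :
    ‖∫ x in u..v, e (c * x ^ 2 / 2)‖ ≤ 10 / √c := by
  rw [scale_e hc, norm_mul, Complex.norm_real, Real.norm_eq_abs,
    abs_of_pos (inv_pos.2 (Real.sqrt_pos.2 hc))]
  have h := fr_bound le_rfl (√c * u) (√c * v)
  simp only [fr_zero] at h
  have hp := Real.sqrt_pos.2 hc
  calc _ ≤ (√c)⁻¹ * 4 := by gcongr
    _ ≤ 10 / √c := by
      rw [div_eq_mul_inv, mul_comm]
      have : 0 < (√c)⁻¹ := by positivity
      linarith

/-- The value of the damped Fresnel integral. -/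
lemma fr_total {ε : ℝ} (hε : 0 < ε) :
    ∫ x : ℝ, fr ε x = (1 / (ε - Complex.I)) ^ (1 / 2 : ℂ) := by
  have hb : 0 < (Real.pi * (ε - Complex.I) : ℂ).re := by
    have : (Real.pi * (ε - Complex.I) : ℂ).re = Real.pi * ε := by simp only [Complex.mul_re, Complex.ofReal_re, Complex.sub_re, Complex.I_re, sub_zero, Complex.ofReal_im, Complex.sub_im, Complex.I_im, zero_sub, mul_neg, mul_one, neg_zero]
    rw [this]
    positivity
  have h := integral_gaussian_complex hb
  unfold fr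
  rw [h]
  congr 1
  have hpi : (Real.pi : ℂ) ≠ 0 := by exact_mod_cast Real.pi_ne_zero
  rw [div_mul_eq_div_div, div_self hpi]

lemma fr_integrable {ε : ℝ} (hε : 0 < ε) : Integrable (fr ε) := by
  have hb : 0 < (Real.pi * (ε - Complex.I) : ℂ).re := by
    have : (Real.pi * (ε - Complex.I) : ℂ).re = Real.pi * ε := by simp
    rw [this]
    positivity
  exact integrable_cexp_neg_mul_sq hb

lemma fr_window {ε : ℝ} (hε : 0 < ε) {R : ℝ} (hR : 0 < R) :
    ‖(∫ x in (-R)..R, fr ε x) - ∫ x : ℝ, fr ε x‖ ≤ 1 / R := by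
  have hi : ∀ a b, IntervalIntegrable (fr ε) volume a b := fun a b =>
    (continuous_fr ε).intervalIntegrable a b
  have hlim : Filter.Tendsto (fun S : ℝ => (∫ x in (-R)..R, fr ε x) - ∫ x in (-S)..S, fr ε x)
      Filter.atTop (nhds ((∫ x in (-R)..R, fr ε x) - ∫ x : ℝ, fr ε x)) := by
    apply Filter.Tendsto.const_sub
    exact intervalIntegral_tendsto_integral (fr_integrable hε) Filter.tendsto_neg_atTop_atBot
      Filter.tendsto_id
  refine le_of_tendsto hlim.norm ?_
  filter_upwards [Filter.eventually_ge_atTop R] with S hS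
  have h1 : ∫ x in (-S)..S, fr ε x =
      (∫ x in (-S)..(-R), fr ε x) + (∫ x in (-R)..R, fr ε x) + ∫ x in R..S, fr ε x := by
    rw [intervalIntegral.integral_add_adjacent_intervals (hi _ _) (hi _ _),
      intervalIntegral.integral_add_adjacent_intervals (hi _ _) (hi _ _)]
  have h2 : ∫ x in (-S)..(-R), fr ε x = ∫ x in R..S, fr ε x := by
    have h3 : ∫ x in (-S)..(-R), fr ε (-x) = ∫ x in R..S, fr ε x := by
      rw [intervalIntegral.integral_comp_neg (fun x => fr ε x)]
      simp only [neg_neg]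
    simp only [fr_neg] at h3
    exact h3
  rw [h1, h2]
  have h4 := fr_tail hε.le hR hS
  calc _ = ‖-((∫ x in R..S, fr ε x) + ∫ x in R..S, fr ε x)‖ := by congr 1; ring
    _ = ‖(∫ x in R..S, fr ε x) + ∫ x in R..S, fr ε x‖ := norm_neg _
    _ ≤ _ := norm_add_le _ _
    _ ≤ 1 / (2 * R) + 1 / (2 * R) := by (clear * - h4; gcongr)
    _ = 1 / R := by field_simp; norm_num

theorem fresnel_full : ∃ κF : ℂ, ‖κF‖ ≤ 1 ∧ ∀ R : ℝ, 0 < R →
    ‖(∫ x in (-R)..R, e (x ^ 2 / 2)) - κF‖ ≤ 1 / R := by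
  -- value at `ε = 0`
  have hI : (1 / (((0 : ℝ) : ℂ) - Complex.I) : ℂ) = Complex.I := by
    rw [Complex.ofReal_zero, zero_sub, div_neg, one_div, Complex.inv_I, neg_neg]
  have hcont : Filter.Tendsto (fun ε : ℝ => (1 / ((ε : ℂ) - Complex.I)) ^ (1 / 2 : ℂ))
      (nhdsWithin 0 (Set.Ioi 0)) (nhds (Complex.I ^ (1 / 2 : ℂ))) := by
    have h1 : ContinuousAt (fun ε : ℝ => (1 / ((ε : ℂ) - Complex.I)) ^ (1 / 2 : ℂ)) 0 := by
      apply ContinuousAt.cpow
      · apply ContinuousAt.div continuousAt_const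
        · (clear * -; fun_prop)
        · simp
      · exact continuousAt_const
      · rw [hI]
        simp only [Complex.slitPlane, ne_eq, Set.mem_ofPred_eq, Complex.I_re, lt_self_iff_false, Complex.I_im, one_ne_zero, not_false_eq_true, or_true]
    have h2 := h1.tendsto
    rw [hI] at h2
    exact h2.mono_left nhdsWithin_le_nhds
  refine ⟨Complex.I ^ (1 / 2 : ℂ), ?_, ?_⟩
  · rw [show (1 / 2 : ℂ) = ((1 / 2 : ℝ) : ℂ) by push_cast; ring, Complex.norm_cpow_real,
      Complex.norm_I, Real.one_rpow]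
  · intro R hR
    have hc : Continuous fun ε : ℝ => ∫ x in (-R)..R, fr ε x := by
      apply intervalIntegral.continuous_parametric_intervalIntegral_of_continuous'
      unfold fr
      fun_prop
    have h3 := (hc.tendsto 0).mono_left
      (nhdsWithin_le_nhds : nhdsWithin 0 (Set.Ioi 0) ≤ nhds (0 : ℝ))
    simp only [fr_zero] at h3
    refine le_of_tendsto (h3.sub hcont).norm ?_
    filter_upwards [self_mem_nhdsWithin] with ε hε
    rw [← fr_total hε]
    exact fr_window hε hR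

/-! ### The slot -/

lemma Prof.L_nonneg {D : ℝ → ℝ} {κ L : ℝ} (hD : Prof D κ L) : 0 ≤ L := by
  have h := hD.lip 0 1
  have h2 := abs_nonneg (D 0 - D 1)
  norm_num at h
  (clear * - h2 h; linarith)

lemma Prof.cont {D : ℝ → ℝ} {κ L : ℝ} (hD : Prof D κ L) : Continuous D := by
  have : LipschitzWith L.toNNReal D := by
    apply LipschitzWith.of_dist_le_mul
    intro x y
    rw [Real.dist_eq, Real.dist_eq, Real.coe_toNNReal _ hD.L_nonneg]
    exact hD.lip x y
  exact this.continuous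

/-- the phase of one slot -/
noncomputable def phs (D : ℝ → ℝ) (a y : ℝ) : ℝ := ∫ u in a..y, D u * (u - a)

lemma hasDerivAt_phs {D : ℝ → ℝ} (hD : Continuous D) (a y : ℝ) :
    HasDerivAt (phs D a) (D y * (y - a)) y := by
  have hc : Continuous fun u => D u * (u - a) := by fun_prop
  exact intervalIntegral.integral_hasDerivAt_right (hc.intervalIntegrable _ _)
    (hc.stronglyMeasurableAtFilter _ _) hc.continuousAt

lemma phs_quad {D : ℝ → ℝ} {κ L : ℝ} (hD : Prof D κ L) (a y : ℝ) :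
    |phs D a y - D a * (y - a) ^ 2 / 2| ≤ L * |y - a| ^ 3 := by
  have hc : Continuous D := hD.cont
  have h1 : D a * (y - a) ^ 2 / 2 = ∫ u in a..y, D a * (u - a) := by
    rw [intervalIntegral.integral_const_mul]
    have : ∫ u in a..y, (u - a) = (y - a) ^ 2 / 2 := by
      rw [intervalIntegral.integral_comp_sub_right (fun x => x)]
      simp
    rw [this]
    ring
  rw [h1]
  unfold phs
  rw [← intervalIntegral.integral_sub (by apply Continuous.intervalIntegrable; fun_prop)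
    (by apply Continuous.intervalIntegrable; fun_prop)]
  have h2 : ∀ u ∈ Set.uIoc a y, ‖D u * (u - a) - D a * (u - a)‖ ≤ L * |y - a| ^ 2 := by
    intro u hu
    have h3 : |u - a| ≤ |y - a| := by
      rcases le_or_gt a y with h | h
      · rw [Set.uIoc_of_le h] at hu
        rw [abs_of_nonneg (by linarith only [hu.1]), abs_of_nonneg (by linarith only [h])]
        linarith only [hu.2]
      · rw [Set.uIoc_of_ge h.le] at hu
        rw [abs_of_nonpos (by linarith only [hu.2]), abs_of_nonpos (by linarith only [h])]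
        linarith only [hu.1]
    rw [← sub_mul, Real.norm_eq_abs, abs_mul]
    calc |D u - D a| * |u - a| ≤ (L * |u - a|) * |u - a| := by gcongr; exact hD.lip u a
      _ ≤ (L * |y - a|) * |y - a| := by
        have := hD.L_nonneg
        (clear * - h3 this; gcongr)
      _ = L * |y - a| ^ 2 := by ring
  have h3 := intervalIntegral.norm_integral_le_of_norm_le_const h2
  rw [Real.norm_eq_abs] at h3
  calc _ ≤ _ := h3
    _ = L * |y - a| ^ 3 := by ring

/-- the integrand of one slot -/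
lemma hasDerivAt_slotF {D : ℝ → ℝ} (hD : Continuous D) (lam a y : ℝ) :
    HasDerivAt (fun y => e (lam * phs D a y))
      ((2 * Real.pi * lam * Complex.I) * ((y - a : ℝ) : ℂ) * (D y : ℂ) *
        e (lam * phs D a y)) y := by
  have h1 : HasDerivAt (fun y => lam * phs D a y) (lam * (D y * (y - a))) y :=
    (hasDerivAt_phs hD a y).const_mul lam
  have h2 := (hasDerivAt_e (lam * phs D a y)).scomp y h1
  refine h2.congr_deriv ?_
  rw [Complex.real_smul]
  push_cast
  ring

lemma cont_slot {D : ℝ → ℝ} (hD : Continuous D) (lam a : ℝ) :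
    Continuous fun y => (D y : ℂ) * e (lam * phs D a y) := by
  have h1 : Continuous fun y => e (lam * phs D a y) :=
    continuous_iff_continuousAt.mpr fun y => (hasDerivAt_slotF hD lam a y).continuousAt
  fun_prop

/-- outside the window -/
lemma slot_outer {D : ℝ → ℝ} (hD : Continuous D) {lam a δ p q : ℝ} (hlam : 0 < lam)
    (hδ : 0 < δ) (hpq : p ≤ q) (h : a + δ ≤ p ∨ q ≤ a - δ) :
    ‖∫ y in p..q, (D y : ℂ) * e (lam * phs D a y)‖ ≤ 1 / (lam * δ) := by
  have hn : ‖(2 * Real.pi * lam * Complex.I : ℂ)‖ = 2 * Real.pi * lam := by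
    rw [norm_mul, norm_mul, norm_mul, Complex.norm_I]
    simp [abs_of_pos Real.pi_pos, abs_of_pos hlam]
  have hc : (2 * Real.pi * lam * Complex.I : ℂ) ≠ 0 := by
    intro h0
    rw [h0, norm_zero] at hn
    have : 0 < 2 * Real.pi * lam := by positivity
    linarith only [hn, this]
  have hb : ‖∫ y in p..q, (D y : ℂ) * e (lam * phs D a y)‖ ≤
      2 / (‖(2 * Real.pi * lam * Complex.I : ℂ)‖ * δ) := by
    rcases h with h | h
    · exact by_parts_right hc hδ hpq hD (hasDerivAt_slotF hD lam a) (fun y => (norm_e _).le) h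
    · exact by_parts_left hc hδ hpq hD (hasDerivAt_slotF hD lam a) (fun y => (norm_e _).le) h
  refine hb.trans ?_
  rw [hn]
  have hpi := Real.pi_gt_three
  have h2 : 0 < lam * δ := by positivity
  rw [div_le_div_iff₀ (by positivity) h2]
  nlinarith only [h2, hpi]

/-- inside the window -/
lemma slot_inner {D : ℝ → ℝ} {κ L : ℝ} (hD : Prof D κ L) {lam a δ p q : ℝ} (hlam : 0 < lam)
    (hδ : 0 < δ) (hpq : p ≤ q) (hp : a - δ ≤ p) (hq : q ≤ a + δ) :
    ‖(∫ y in p..q, (D y : ℂ) * e (lam * phs D a y)) -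
      (D a : ℂ) * ∫ y in p..q, e (lam * D a * (y - a) ^ 2 / 2)‖ ≤
        2 * δ * (L * δ + 7 * lam * (L * δ ^ 3)) := by
  have hc : Continuous D := hD.cont
  have hL := hD.L_nonneg
  have hce := continuous_e
  rw [← intervalIntegral.integral_const_mul,
    ← intervalIntegral.integral_sub ((cont_slot hc lam a).intervalIntegrable _ _)
      (by apply Continuous.intervalIntegrable; fun_prop)]
  have hpt : ∀ y ∈ Set.uIoc p q, ‖(D y : ℂ) * e (lam * phs D a y) -
      (D a : ℂ) * e (lam * D a * (y - a) ^ 2 / 2)‖ ≤ L * δ + 7 * lam * (L * δ ^ 3) := by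
    intro y hy
    rw [Set.uIoc_of_le hpq] at hy
    have hya : |y - a| ≤ δ := by
      rw [abs_le]
      constructor <;> linarith [hy.1, hy.2]
    have h1 : (D y : ℂ) * e (lam * phs D a y) - (D a : ℂ) * e (lam * D a * (y - a) ^ 2 / 2) =
        ((D y - D a : ℝ) : ℂ) * e (lam * phs D a y) +
          (D a : ℂ) * (e (lam * phs D a y) - e (lam * D a * (y - a) ^ 2 / 2)) := by
      push_cast
      ring
    rw [h1]
    have h2 : ‖((D y - D a : ℝ) : ℂ) * e (lam * phs D a y)‖ ≤ L * δ := by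
      rw [norm_mul, norm_e, mul_one, Complex.norm_real, Real.norm_eq_abs]
      exact (hD.lip y a).trans (by (clear * - hya hL; gcongr))
    have h3 : ‖(D a : ℂ) * (e (lam * phs D a y) - e (lam * D a * (y - a) ^ 2 / 2))‖ ≤
        7 * lam * (L * δ ^ 3) := by
      rw [norm_mul, Complex.norm_real, Real.norm_eq_abs, abs_of_pos (hD.kpos.trans_le (hD.lower a))]
      have h4 := norm_e_sub_le (lam * phs D a y) (lam * D a * (y - a) ^ 2 / 2)
      have h5 : lam * phs D a y - lam * D a * (y - a) ^ 2 / 2 =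
          lam * (phs D a y - D a * (y - a) ^ 2 / 2) := by ring
      rw [h5, abs_mul, abs_of_pos hlam] at h4
      have h6 := phs_quad hD a y
      have h7 : L * |y - a| ^ 3 ≤ L * δ ^ 3 := by (clear * - hya hL; gcongr)
      have h8 := hD.upper a
      have h9 := hD.kpos.trans_le (hD.lower a)
      have h10 : 2 * Real.pi ≤ 7 := by
        have := Real.pi_lt_d2
        linarith only [this]
      have h11 : 0 ≤ L * δ ^ 3 := by (clear * - hL hδ; positivity)
      calc D a * ‖e (lam * phs D a y) - e (lam * D a * (y - a) ^ 2 / 2)‖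
          ≤ 1 * (2 * Real.pi * (lam * |phs D a y - D a * (y - a) ^ 2 / 2|)) := by (clear * - h8 h4; gcongr)
        _ ≤ 1 * (7 * (lam * (L * δ ^ 3))) := by
          gcongr
          exact h6.trans h7
        _ = 7 * lam * (L * δ ^ 3) := by ring
    exact (norm_add_le _ _).trans (add_le_add h2 h3)
  have h := intervalIntegral.norm_integral_le_of_norm_le_const hpt
  refine h.trans ?_
  rw [abs_of_nonneg (by linarith only [hpq]), mul_comm]
  have h0 : 0 ≤ L * δ + 7 * lam * (L * δ ^ 3) := by positivity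
  apply mul_le_mul_of_nonneg_right _ h0
  linarith only [hp, hq]

lemma win_scale {lam d : ℝ} (hlam : 0 < lam) (hd : 0 < d) (a p q : ℝ) :
    (√lam : ℂ) * ((d : ℂ) * ∫ y in p..q, e (lam * d * (y - a) ^ 2 / 2)) =
      (√d : ℂ) * ∫ x in (√(lam * d) * (p - a))..(√(lam * d) * (q - a)), e (x ^ 2 / 2) := by
  have h1 : ∫ y in p..q, e (lam * d * (y - a) ^ 2 / 2) =
      ∫ y in (p - a)..(q - a), e (lam * d * y ^ 2 / 2) :=
    intervalIntegral.integral_comp_sub_right (fun x => e (lam * d * x ^ 2 / 2)) a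
  rw [h1, scale_e (by positivity : 0 < lam * d)]
  have h2 : √(lam * d) = √lam * √d := Real.sqrt_mul hlam.le d
  have h3 : (√lam : ℂ) * ((d : ℂ) * (((√(lam * d))⁻¹ : ℝ) : ℂ)) = (√d : ℂ) := by
    have h4 : √lam * (d * (√(lam * d))⁻¹) = √d := by
      rw [h2]
      have h5 : √lam ≠ 0 := (Real.sqrt_pos.2 hlam).ne'
      have h6 : √d ≠ 0 := (Real.sqrt_pos.2 hd).ne'
      have h7 : d = √d * √d := (Real.mul_self_sqrt hd.le).symm
      field_simp
      rw [Real.sq_sqrt hd.le]
    exact_mod_cast h4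
  rw [← h3]
  ring

lemma win_bound {lam d : ℝ} (hlam : 0 < lam) (hd : 0 < d) (a p q : ℝ) :
    ‖(√lam : ℂ) * ((d : ℂ) * ∫ y in p..q, e (lam * d * (y - a) ^ 2 / 2))‖ ≤ 10 * √d := by
  rw [win_scale hlam hd, norm_mul, Complex.norm_real, Real.norm_eq_abs,
    abs_of_nonneg (Real.sqrt_nonneg d)]
  have h := fr_bound le_rfl (√(lam * d) * (p - a)) (√(lam * d) * (q - a))
  simp only [fr_zero] at h
  have := Real.sqrt_nonneg d
  nlinarith

lemma win_full {κF : ℂ}
    (hF : ∀ R : ℝ, 0 < R → ‖(∫ x in (-R)..R, e (x ^ 2 / 2)) - κF‖ ≤ 1 / R)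
    {lam d δ : ℝ} (hlam : 0 < lam) (hd : 0 < d) (hδ : 0 < δ) (a : ℝ) :
    ‖(√lam : ℂ) * ((d : ℂ) * ∫ y in (a - δ)..(a + δ), e (lam * d * (y - a) ^ 2 / 2)) -
      (√d : ℂ) * κF‖ ≤ 1 / (√lam * δ) := by
  rw [win_scale hlam hd]
  have h1 : √(lam * d) * (a - δ - a) = -(√(lam * d) * δ) := by ring
  have h2 : √(lam * d) * (a + δ - a) = √(lam * d) * δ := by ring
  rw [h1, h2, ← mul_sub, norm_mul, Complex.norm_real, Real.norm_eq_abs,
    abs_of_nonneg (Real.sqrt_nonneg d)]
  have hs1 : 0 < √lam := Real.sqrt_pos.2 hlam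
  have hs2 : 0 < √d := Real.sqrt_pos.2 hd
  have h3 : √(lam * d) = √lam * √d := Real.sqrt_mul hlam.le d
  have h4 := hF (√(lam * d) * δ) (by rw [h3]; positivity)
  calc _ ≤ √d * (1 / (√(lam * d) * δ)) := by gcongr
    _ = 1 / (√lam * δ) := by
      rw [h3]
      field_simp

theorem slot_asymp {κF : ℂ} (hκF : ‖κF‖ ≤ 1)
    (hF : ∀ R : ℝ, 0 < R → ‖(∫ x in (-R)..R, e (x ^ 2 / 2)) - κF‖ ≤ 1 / R)
    {D : ℝ → ℝ} {κ L ε : ℝ} (hD : Prof D κ L) (hε : 0 < ε) :
    ∃ Λ : ℝ, ∀ lam ≥ Λ, ∀ a : ℝ,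
      ‖√lam * slotInt D lam a - (if 0 ≤ a ∧ a ≤ 1 then (√(D a) : ℂ) * κF else 0)‖ ≤
        20 * √κ + ε := by
  have hL := hD.L_nonneg
  have hDc : Continuous D := hD.cont
  set C : ℝ := 16 * L + 3 + 11 * √L with hC
  have hC0 : 0 < C := by (clear * - hL; positivity)
  set M : ℝ := max 2 (C / ε) with hM
  have hM2 : 2 ≤ M := le_max_left _ _
  refine ⟨M ^ 10, fun lam hlam a => ?_⟩
  have hlam0 : 0 < lam := lt_of_lt_of_le (by positivity) hlam
  obtain ⟨μ, hμM, hμ⟩ : ∃ μ : ℝ, M ≤ μ ∧ lam = μ ^ 10 := by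
    refine ⟨lam ^ (1 / 10 : ℝ), ?_, ?_⟩
    · have h1 : M = (M ^ 10) ^ (1 / 10 : ℝ) := by
        rw [← Real.rpow_natCast, ← Real.rpow_mul (by positivity)]
        norm_num
      rw [h1]
      exact Real.rpow_le_rpow (by positivity) hlam (by norm_num)
    · rw [← Real.rpow_natCast, ← Real.rpow_mul hlam0.le]
      norm_num
  have hμ2 : 2 ≤ μ := hM2.trans hμM
  have hμ0 : 0 < μ := by linarith only [hM2, hμM]
  have hCμ : C / μ ≤ ε := by
    rw [div_le_iff₀ hμ0]
    have h1 : C / ε ≤ μ := (le_max_right _ _).trans hμM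
    rw [div_le_iff₀ hε] at h1
    linarith only [h1]
  have hsl : √lam = μ ^ 5 := by
    rw [hμ, show μ ^ 10 = (μ ^ 5) ^ 2 by ring, Real.sqrt_sq (by positivity)]
  set δ : ℝ := (μ ^ 4)⁻¹ with hδ
  have hδ0 : 0 < δ := by positivity
  have hδ16 : δ ≤ 1 / 16 := by
    rw [hδ, one_div]
    apply inv_anti₀ (by norm_num)
    calc (16 : ℝ) = 2 ^ 4 := by norm_num
      _ ≤ μ ^ 4 := by (clear * - hμ2; gcongr)
  -- error terms
  have hout : √lam * (1 / (lam * δ)) = 1 / μ := by
    rw [hsl, hμ, hδ]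
    field_simp
  have hRerr : 1 / (√lam * δ) = 1 / μ := by
    rw [hsl, hδ]
    field_simp
  have hin : √lam * (2 * δ * (L * δ + 7 * lam * (L * δ ^ 3))) ≤ 16 * L / μ := by
    have h1 : √lam * (2 * δ * (L * δ + 7 * lam * (L * δ ^ 3))) =
        2 * L / μ ^ 3 + 14 * L / μ := by
      rw [hsl, hμ, hδ]
      field_simp
      ring
    rw [h1]
    have h2 : 2 * L / μ ^ 3 ≤ 2 * L / μ := by
      apply div_le_div_of_nonneg_left (by (clear * - hL; positivity)) hμ0
      calc μ = μ ^ 1 := (pow_one μ).symm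
        _ ≤ μ ^ 3 := pow_le_pow_right₀ (by linarith only [hM2, hμM]) (by norm_num)
    have h3 : 16 * L / μ = 2 * L / μ + 14 * L / μ := by ring
    linarith only [h2, h3]
  have hslot : slotInt D lam a = ∫ y in (0 : ℝ)..1, (D y : ℂ) * e (lam * phs D a y) := rfl
  have hint : ∀ p q, IntervalIntegrable (fun y => (D y : ℂ) * e (lam * phs D a y)) volume p q :=
    fun p q => (cont_slot hDc lam a).intervalIntegrable p q
  have hDa : 0 < D a := hD.kpos.trans_le (hD.lower a)
  have hns : ‖(√lam : ℂ)‖ = √lam := by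
    rw [Complex.norm_real, Real.norm_eq_abs, abs_of_nonneg (Real.sqrt_nonneg _)]
  have hs0 := Real.sqrt_nonneg lam
  have hκ0 : 0 ≤ √κ := Real.sqrt_nonneg κ
  have hL0 : 0 ≤ √L := Real.sqrt_nonneg L
  -- outer pieces
  have houter : ∀ p q, p ≤ q → (a + δ ≤ p ∨ q ≤ a - δ) →
      ‖(√lam : ℂ) * ∫ y in p..q, (D y : ℂ) * e (lam * phs D a y)‖ ≤ 1 / μ := by
    intro p q hpq h
    rw [norm_mul, hns, ← hout]
    have := slot_outer hDc hlam0 hδ0 hpq h
    (clear * - this hlam0; gcongr)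
  -- inner pieces
  have hinner : ∀ p q, p ≤ q → a - δ ≤ p → q ≤ a + δ →
      ‖(√lam : ℂ) * (∫ y in p..q, (D y : ℂ) * e (lam * phs D a y)) -
        (√lam : ℂ) * ((D a : ℂ) * ∫ y in p..q, e (lam * D a * (y - a) ^ 2 / 2))‖ ≤
          16 * L / μ := by
    intro p q hpq h1 h2
    rw [← mul_sub, norm_mul, hns]
    refine le_trans ?_ hin
    have := slot_inner hD hlam0 hδ0 hpq h1 h2
    (clear * - this hlam0; gcongr)
  set T : ℂ := if 0 ≤ a ∧ a ≤ 1 then (√(D a) : ℂ) * κF else 0 with hT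
  have hTn : ‖T‖ ≤ √(D a) := by
    rw [hT]
    split_ifs
    · rw [norm_mul, Complex.norm_real, Real.norm_eq_abs, abs_of_nonneg (Real.sqrt_nonneg _)]
      have := Real.sqrt_nonneg (D a)
      nlinarith only [hκF, this]
    · rw [norm_zero]
      exact Real.sqrt_nonneg _
  -- near the ends
  have hnear : (|a| ≤ δ ∨ |a - 1| ≤ δ) → √(D a) ≤ √κ + √L / μ := by
    intro h
    have h1 : D a ≤ κ + L * δ := by
      rcases h with h | h
      · have h2 := hD.lip a 0
        rw [hD.left 0 le_rfl, sub_zero] at h2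
        have h3 := le_abs_self (D a - κ)
        have h4 : L * |a| ≤ L * δ := by (clear * - h hL; gcongr)
        linarith only [h2, h3, h4]
      · have h2 := hD.lip a 1
        rw [hD.right 1 le_rfl] at h2
        have h3 := le_abs_self (D a - κ)
        have h4 : L * |a - 1| ≤ L * δ := by (clear * - h hL; gcongr)
        linarith only [h2, h3, h4]
    apply Real.sqrt_le_iff.2
    refine ⟨by (clear * - hμ2; positivity), h1.trans ?_⟩
    have h5 : √κ ^ 2 = κ := Real.sq_sqrt hD.kpos.le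
    have h6 : √L ^ 2 = L := Real.sq_sqrt hL
    have h7 : (√κ + √L / μ) ^ 2 = κ + 2 * (√κ * (√L / μ)) + L / μ ^ 2 := by
      rw [add_sq, div_pow, h5, h6]
      ring
    have h8 : L * δ ≤ L / μ ^ 2 := by
      rw [div_eq_mul_inv, hδ]
      gcongr
      · linarith only [hM2, hμM]
      · norm_num
    have h9 : 0 ≤ √κ * (√L / μ) := by (clear * - hμ2; positivity)
    linarith only [h7, h8, h9]
  have hμinv : 0 < 1 / μ := by (clear * - hμ2; positivity)
  have hCeq : C / μ = 16 * L / μ + 3 * (1 / μ) + 11 * (√L / μ) := by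
    rw [hC]
    ring
  have hLμ : 0 ≤ L / μ := by (clear * - hL hμ2; positivity)
  have hLμ' : 0 ≤ √L / μ := by (clear * - hμ2; positivity)
  have h16 : 16 * L / μ = 16 * (L / μ) := by ring
  rw [hslot]
  rcases le_or_gt a (-δ) with hc1 | hc1
  · -- left of everything
    have hT0 : T = 0 := by
      rw [hT, if_neg]
      intro h
      linarith only [hδ0, hc1, h]
    rw [hT0, sub_zero]
    have := houter 0 1 zero_le_one (Or.inl (by linarith only [hc1]))
    linarith only [hCμ, hκ0, hμinv, hCeq, hLμ, hLμ', h16, this]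
  rcases lt_or_ge a δ with hc2 | hc2
  · -- near `0`
    have hs : ∫ y in (0 : ℝ)..1, (D y : ℂ) * e (lam * phs D a y) =
        (∫ y in (0 : ℝ)..(a + δ), (D y : ℂ) * e (lam * phs D a y)) +
          ∫ y in (a + δ)..1, (D y : ℂ) * e (lam * phs D a y) :=
      (intervalIntegral.integral_add_adjacent_intervals (hint _ _) (hint _ _)).symm
    have h1 := houter (a + δ) 1 (by linarith only [hδ16, hc2]) (Or.inl le_rfl)
    have h2 := hinner 0 (a + δ) (by linarith only [hc1]) (by linarith only [hc2]) le_rfl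
    have h3 := win_bound hlam0 hDa a 0 (a + δ)
    have h4 := hnear (Or.inl (abs_le.2 ⟨by linarith only [hc1], hc2.le⟩))
    rw [hs]
    set A := ∫ y in (0 : ℝ)..(a + δ), (D y : ℂ) * e (lam * phs D a y)
    set B := ∫ y in (a + δ)..1, (D y : ℂ) * e (lam * phs D a y)
    set W := (√lam : ℂ) * ((D a : ℂ) * ∫ y in (0 : ℝ)..(a + δ), e (lam * D a * (y - a) ^ 2 / 2))
    have h5 : (√lam : ℂ) * (A + B) - T = ((√lam : ℂ) * A - W) + W + (√lam : ℂ) * B + (-T) := by
      ring
    rw [h5]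
    calc _ ≤ ‖((√lam : ℂ) * A - W) + W + (√lam : ℂ) * B‖ + ‖-T‖ := norm_add_le _ _
      _ ≤ (‖((√lam : ℂ) * A - W) + W‖ + ‖(√lam : ℂ) * B‖) + ‖-T‖ := by
        gcongr
        exact norm_add_le _ _
      _ ≤ ((‖((√lam : ℂ) * A - W)‖ + ‖W‖) + ‖(√lam : ℂ) * B‖) + ‖-T‖ := by
        gcongr
        exact norm_add_le _ _
      _ ≤ ((16 * L / μ + 10 * √(D a)) + 1 / μ) + √(D a) := by
        rw [norm_neg]
        (clear * - h2 h3 h1 hTn; gcongr)
      _ ≤ 20 * √κ + ε := by linarith only [hCμ, hκ0, hμinv, hCeq, h4]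
  rcases le_or_gt a (1 - δ) with hc3 | hc3
  · -- full window
    have hT1 : T = (√(D a) : ℂ) * κF := by
      rw [hT, if_pos ⟨by linarith only [hδ0, hc2], by linarith only [hδ0, hc3]⟩]
    have hs : ∫ y in (0 : ℝ)..1, (D y : ℂ) * e (lam * phs D a y) =
        (∫ y in (0 : ℝ)..(a - δ), (D y : ℂ) * e (lam * phs D a y)) +
        (∫ y in (a - δ)..(a + δ), (D y : ℂ) * e (lam * phs D a y)) +
          ∫ y in (a + δ)..1, (D y : ℂ) * e (lam * phs D a y) := by
      rw [intervalIntegral.integral_add_adjacent_intervals (hint _ _) (hint _ _),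
        intervalIntegral.integral_add_adjacent_intervals (hint _ _) (hint _ _)]
    have h1 := houter (a + δ) 1 (by linarith only [hc3]) (Or.inl le_rfl)
    have h2 := hinner (a - δ) (a + δ) (by linarith only [hδ0]) le_rfl le_rfl
    have h3 := win_full hF hlam0 hDa hδ0 a
    have h4 := houter 0 (a - δ) (by linarith only [hc2]) (Or.inr le_rfl)
    rw [hRerr] at h3
    rw [hs, hT1]
    set A := ∫ y in (0 : ℝ)..(a - δ), (D y : ℂ) * e (lam * phs D a y)
    set A' := ∫ y in (a - δ)..(a + δ), (D y : ℂ) * e (lam * phs D a y)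
    set B := ∫ y in (a + δ)..1, (D y : ℂ) * e (lam * phs D a y)
    set W := (√lam : ℂ) *
      ((D a : ℂ) * ∫ y in (a - δ)..(a + δ), e (lam * D a * (y - a) ^ 2 / 2))
    have h5 : (√lam : ℂ) * (A + A' + B) - (√(D a) : ℂ) * κF =
        ((√lam : ℂ) * A' - W) + (W - (√(D a) : ℂ) * κF) + (√lam : ℂ) * B + (√lam : ℂ) * A := by
      ring
    rw [h5]
    calc _ ≤ ‖((√lam : ℂ) * A' - W) + (W - (√(D a) : ℂ) * κF) + (√lam : ℂ) * B‖ +
          ‖(√lam : ℂ) * A‖ := norm_add_le _ _
      _ ≤ (‖((√lam : ℂ) * A' - W) + (W - (√(D a) : ℂ) * κF)‖ + ‖(√lam : ℂ) * B‖) +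
          ‖(√lam : ℂ) * A‖ := by
        gcongr
        exact norm_add_le _ _
      _ ≤ ((‖((√lam : ℂ) * A' - W)‖ + ‖(W - (√(D a) : ℂ) * κF)‖) + ‖(√lam : ℂ) * B‖) +
          ‖(√lam : ℂ) * A‖ := by
        gcongr
        exact norm_add_le _ _
      _ ≤ ((16 * L / μ + 1 / μ) + 1 / μ) + 1 / μ := by (clear * - h2 h3 h1 h4; gcongr)
      _ ≤ 20 * √κ + ε := by linarith only [hCμ, hκ0, hCeq, hLμ']
  rcases lt_or_ge a (1 + δ) with hc4 | hc4
  · -- near `1`
    have hs : ∫ y in (0 : ℝ)..1, (D y : ℂ) * e (lam * phs D a y) =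
        (∫ y in (0 : ℝ)..(a - δ), (D y : ℂ) * e (lam * phs D a y)) +
          ∫ y in (a - δ)..1, (D y : ℂ) * e (lam * phs D a y) :=
      (intervalIntegral.integral_add_adjacent_intervals (hint _ _) (hint _ _)).symm
    have h1 := houter 0 (a - δ) (by linarith only [hδ16, hc3]) (Or.inr le_rfl)
    have h2 := hinner (a - δ) 1 (by linarith only [hc4]) le_rfl (by linarith only [hc3])
    have h3 := win_bound hlam0 hDa a (a - δ) 1
    have h4 := hnear (Or.inr (abs_le.2 ⟨by linarith only [hc3], by linarith only [hc4]⟩))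
    rw [hs]
    set A := ∫ y in (a - δ)..1, (D y : ℂ) * e (lam * phs D a y)
    set B := ∫ y in (0 : ℝ)..(a - δ), (D y : ℂ) * e (lam * phs D a y)
    set W := (√lam : ℂ) * ((D a : ℂ) * ∫ y in (a - δ)..1, e (lam * D a * (y - a) ^ 2 / 2))
    have h5 : (√lam : ℂ) * (B + A) - T = ((√lam : ℂ) * A - W) + W + (√lam : ℂ) * B + (-T) := by
      ring
    rw [h5]
    calc _ ≤ ‖((√lam : ℂ) * A - W) + W + (√lam : ℂ) * B‖ + ‖-T‖ := norm_add_le _ _
      _ ≤ (‖((√lam : ℂ) * A - W) + W‖ + ‖(√lam : ℂ) * B‖) + ‖-T‖ := by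
        gcongr
        exact norm_add_le _ _
      _ ≤ ((‖((√lam : ℂ) * A - W)‖ + ‖W‖) + ‖(√lam : ℂ) * B‖) + ‖-T‖ := by
        gcongr
        exact norm_add_le _ _
      _ ≤ ((16 * L / μ + 10 * √(D a)) + 1 / μ) + √(D a) := by
        rw [norm_neg]
        (clear * - h2 h3 h1 hTn; gcongr)
      _ ≤ 20 * √κ + ε := by linarith only [hCμ, hκ0, hμinv, hCeq, h4]
  · -- right of everything
    have hT0 : T = 0 := by
      rw [hT, if_neg]
      intro h
      linarith only [hδ0, hc4, h]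
    rw [hT0, sub_zero]
    have := houter 0 1 zero_le_one (Or.inr (by linarith only [hc4]))
    linarith only [hCμ, hκ0, hμinv, hCeq, hLμ, hLμ', h16, this]

end Vale.Agent.P110.AT
end
end

section

section

/-! P110, AT: gluing of frequency paths and the even extension. -/

open Finset MeasureTheory

namespace Vale.Agent.P110.AT

open Vale.Agent.P110 (e)

lemma cont_of_lip {f : ℝ → ℝ} {L : ℝ} (h : ∀ x y, |f x - f y| ≤ L * |x - y|) : Continuous f := by
  have hL : 0 ≤ L := by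
    have := h 0 1
    have h2 := abs_nonneg (f 0 - f 1)
    norm_num at this
    linarith
  have : LipschitzWith L.toNNReal f := by
    apply LipschitzWith.of_dist_le_mul
    intro x y
    rw [Real.dist_eq, Real.dist_eq, Real.coe_toNNReal _ hL]
    exact h x y
  exact this.continuous

lemma cont_J {B : ℝ → ℝ} (hB : Continuous B) (k : ℝ) :
    Continuous fun x : ℝ => e ((∫ t in (0 : ℝ)..x, B t) - k * x) := by
  apply continuous_e.comp
  apply Continuous.sub
  · exact intervalIntegral.continuous_primitive (fun a b => hB.intervalIntegrable a b) 0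
  · fun_prop

/-- gluing, stronger inductive form -/
theorem glue_aux (n : ℕ) (τ : ℕ → ℝ) (h0 : τ 0 = 0) (hτ : ∀ i < n, τ i < τ (i + 1))
    (B : ℕ → ℝ → ℝ) (m L lo hi : ℝ) (hm : lo ≤ m ∧ m ≤ hi) (hL : 0 ≤ L)
    (hB : ∀ i < n, IsPath (B i) (τ (i + 1) - τ i) m m L)
    (hr : ∀ i < n, ∀ x, lo ≤ B i x ∧ B i x ≤ hi)
    (hint : ∀ i < n, ∃ z : ℤ, ∫ x in (0 : ℝ)..(τ (i + 1) - τ i), B i x = z) :
    0 ≤ τ n ∧ ∃ Bt : ℝ → ℝ, IsPath Bt (τ n) m m L ∧ (∀ x, lo ≤ Bt x ∧ Bt x ≤ hi) ∧
      (∃ z : ℤ, ∫ x in (0 : ℝ)..(τ n), Bt x = z) ∧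
      ∀ k : ℝ, J Bt (τ n) k = ∑ i ∈ range n, e (-(k * τ i)) * J (B i) (τ (i + 1) - τ i) k := by
  induction n with
  | zero =>
    refine ⟨h0.ge, fun _ => m, ⟨?_, fun _ _ => rfl, fun _ _ => rfl⟩, fun _ => hm, ⟨0, ?_⟩, ?_⟩
    · intro x y
      simp only [sub_self, abs_zero]
      positivity
    · rw [h0]; simp
    · intro k
      unfold J
      rw [h0]
      simp only [intervalIntegral.integral_const, sub_zero, smul_eq_mul, intervalIntegral.integral_same, range_zero, sum_empty]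
  | succ n ih =>
    obtain ⟨hn0, Bt, hP, hR, ⟨z, hz⟩, hJ⟩ := ih (fun i hi => hτ i (by omega))
      (fun i hi => hB i (by omega)) (fun i hi => hr i (by omega)) (fun i hi => hint i (by omega))
    have hBn := hB n (by omega)
    obtain ⟨z', hz'⟩ := hint n (by omega)
    have hτn := hτ n (by omega)
    set T := τ n with hT
    set T' := τ (n + 1) with hT'
    let C : ℝ → ℝ := fun x => if x ≤ T then Bt x else B n (x - T)
    have hCl : ∀ x, x ≤ T → C x = Bt x := fun x hx => by simp only [hx, ↓reduceIte, C]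
    have hCr : ∀ x, T ≤ x → C x = B n (x - T) := by
      intro x hx
      rcases hx.eq_or_lt with h | h
      · subst h
        simp only [C, le_refl, if_true]
        rw [hP.right _ le_rfl, sub_self, hBn.left _ le_rfl]
      · simp only [not_le.2 h, ↓reduceIte, C]
    have hClip : ∀ x y, |C x - C y| ≤ L * |x - y| := by
      have key : ∀ x y, x ≤ T → T ≤ y → |C x - C y| ≤ L * |x - y| := by
        intro x y hx hy
        rw [hCl x hx, hCr y hy]
        have h1 := hP.lip x T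
        have h2 := hBn.lip 0 (y - T)
        rw [hP.right _ le_rfl] at h1
        rw [hBn.left _ le_rfl] at h2
        rw [abs_of_nonpos (by linarith only [hx] : x - T ≤ 0)] at h1
        rw [show (0 : ℝ) - (y - T) = -(y - T) by ring, abs_neg,
          abs_of_nonneg (by linarith : 0 ≤ y - T)] at h2
        rw [abs_of_nonpos (by linarith : x - y ≤ 0)]
        have h3 : |Bt x - B n (y - T)| ≤ |Bt x - m| + |m - B n (y - T)| := by
          have : Bt x - B n (y - T) = (Bt x - m) + (m - B n (y - T)) := by ring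
          rw [this]
          exact abs_add_le _ _
        linarith
      intro x y
      rcases le_total x T with hx | hx <;> rcases le_total y T with hy | hy
      · rw [hCl x hx, hCl y hy]; exact hP.lip x y
      · exact key x y hx hy
      · rw [abs_sub_comm (C x), abs_sub_comm x]; exact key y x hy hx
      · rw [hCr x hx, hCr y hy]
        have := hBn.lip (x - T) (y - T)
        rwa [show x - T - (y - T) = x - y by ring] at this
    have hCc : Continuous C := cont_of_lip hClip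
    have hBc : Continuous (B n) := cont_of_lip hBn.lip
    have hBtc : Continuous Bt := cont_of_lip hP.lip
    -- integrals of C
    have hI1 : ∀ x, x ≤ T → 0 ≤ x → ∫ t in (0 : ℝ)..x, C t = ∫ t in (0 : ℝ)..x, Bt t := by
      intro x hx hx0
      apply intervalIntegral.integral_congr
      intro t ht
      rw [Set.uIcc_of_le hx0] at ht
      exact hCl t (ht.2.trans hx)
    have hI2 : ∀ y, 0 ≤ y → ∫ t in (0 : ℝ)..(y + T), C t = z + ∫ t in (0 : ℝ)..y, B n t := by
      intro y hy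
      rw [← intervalIntegral.integral_add_adjacent_intervals (hCc.intervalIntegrable 0 T)
        (hCc.intervalIntegrable T (y + T)), hI1 T le_rfl hn0, hz]
      congr 1
      have h1 : ∫ t in T..(y + T), C t = ∫ t in T..(y + T), B n (t - T) := by
        apply intervalIntegral.integral_congr
        intro t ht
        rw [Set.uIcc_of_le (by linarith only [hy])] at ht
        exact hCr t ht.1
      rw [h1, intervalIntegral.integral_comp_sub_right (fun t => B n t) T]
      simp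
    refine ⟨by linarith, C, ⟨hClip, ?_, ?_⟩, ?_, ⟨z + z', ?_⟩, ?_⟩
    · intro x hx
      rw [hCl x (by linarith)]
      exact hP.left x hx
    · intro x hx
      rw [hCr x (by linarith)]
      exact hBn.right _ (by linarith only [hx])
    · intro x
      rcases le_total x T with hx | hx
      · rw [hCl x hx]; exact hR x
      · rw [hCr x hx]; exact hr n (by omega) _
    · have := hI2 (T' - T) (by linarith only [hτn])
      rw [show T' - T + T = T' by ring, hz'] at this
      push_cast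
      exact this
    · intro k
      rw [Finset.sum_range_succ, ← hJ k]
      unfold J
      have hc := cont_J hCc k
      rw [← intervalIntegral.integral_add_adjacent_intervals (hc.intervalIntegrable 0 T)
        (hc.intervalIntegrable T T')]
      congr 1
      · apply intervalIntegral.integral_congr
        intro x hx
        rw [Set.uIcc_of_le hn0] at hx
        simp only
        rw [hI1 x hx.2 hx.1]
      · have h1 : ∫ x in T..T', e ((∫ t in (0 : ℝ)..x, C t) - k * x)
            = ∫ y in (T - T)..(T' - T), e ((∫ t in (0 : ℝ)..(y + T), C t) - k * (y + T)) := by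
          rw [← intervalIntegral.integral_comp_sub_right
            (fun y => e ((∫ t in (0 : ℝ)..(y + T), C t) - k * (y + T))) T]
          apply intervalIntegral.integral_congr
          intro x _
          simp
        rw [h1, sub_self, ← intervalIntegral.integral_const_mul]
        apply intervalIntegral.integral_congr
        intro y hy
        rw [Set.uIcc_of_le (by linarith only [hτn])] at hy
        simp only
        rw [hI2 y hy.1]
        have h2 : (z : ℝ) + (∫ t in (0 : ℝ)..y, B n t) - k * (y + T)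
          = (-(k * T) + ((∫ t in (0 : ℝ)..y, B n t) - k * y)) + z := by ring
        rw [h2, e_add_int, e_add]

/-- P4a -/
theorem glue (n : ℕ) (τ : ℕ → ℝ) (h0 : τ 0 = 0) (hτ : ∀ i < n, τ i < τ (i + 1))
    (B : ℕ → ℝ → ℝ) (m L lo hi : ℝ) (hm : lo ≤ m ∧ m ≤ hi) (hL : 0 ≤ L)
    (hB : ∀ i < n, IsPath (B i) (τ (i + 1) - τ i) m m L)
    (hr : ∀ i < n, ∀ x, lo ≤ B i x ∧ B i x ≤ hi)
    (hint : ∀ i < n, ∃ z : ℤ, ∫ x in (0 : ℝ)..(τ (i + 1) - τ i), B i x = z) :
    ∃ Bt : ℝ → ℝ, (∀ x y, |Bt x - Bt y| ≤ L * |x - y|) ∧ (∀ x, lo ≤ Bt x ∧ Bt x ≤ hi) ∧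
      (∃ z : ℤ, ∫ x in (0 : ℝ)..(τ n), Bt x = z) ∧
      ∀ k : ℝ, J Bt (τ n) k = ∑ i ∈ range n, e (-(k * τ i)) * J (B i) (τ (i + 1) - τ i) k := by
  obtain ⟨_, Bt, hP, hR, hz, hJ⟩ := glue_aux n τ h0 hτ B m L lo hi hm hL hB hr hint
  exact ⟨Bt, hP.lip, hR, hz, hJ⟩

/-- distance to the nearest integer -/
noncomputable def ndist (x : ℝ) : ℝ := |x - round x|

lemma ndist_le (x : ℝ) (z : ℤ) : ndist x ≤ |x - z| := round_le x z

lemma ndist_neg (x : ℝ) : ndist (-x) = ndist x := by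
  have key : ∀ x, ndist (-x) ≤ ndist x := by
    intro x
    refine (ndist_le (-x) (-round x)).trans (le_of_eq ?_)
    unfold ndist
    push_cast
    rw [show -x - -(round x : ℝ) = -(x - round x) by ring, abs_neg]
  apply le_antisymm (key x)
  have := key (-x)
  rwa [neg_neg] at this

lemma ndist_add_int (x : ℝ) (z : ℤ) : ndist (x + z) = ndist x := by
  have key : ∀ (x : ℝ) (z : ℤ), ndist (x + z) ≤ ndist x := by
    intro x z
    refine (ndist_le (x + z) (round x + z)).trans (le_of_eq ?_)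
    unfold ndist
    push_cast
    congr 1
    ring
  apply le_antisymm (key x z)
  have := key (x + z) (-z)
  push_cast at this
  rwa [add_neg_cancel_right] at this

lemma ndist_lip (x y : ℝ) : |ndist x - ndist y| ≤ |x - y| := by
  have key : ∀ x y : ℝ, ndist x - ndist y ≤ |x - y| := by
    intro x y
    have h1 := ndist_le x (round y)
    have h2 : |x - round y| ≤ |x - y| + |y - round y| := by
      rw [show x - (round y : ℝ) = (x - y) + (y - round y) by ring]
      exact abs_add_le _ _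
    have h3 : ndist y = |y - round y| := rfl
    (clear * - h1 h2 h3; linarith)
  rw [abs_le]
  constructor
  · have := key y x
    rw [abs_sub_comm] at this
    linarith only [this]
  · exact key x y

lemma ndist_eq {x : ℝ} (h0 : 0 ≤ x) (h1 : x ≤ 1 / 2) : ndist x = x := by
  unfold ndist
  rw [abs_sub_round_eq_min]
  have h2 : Int.fract x = x := Int.fract_eq_self.2 ⟨h0, by linarith⟩
  rw [h2]
  exact min_eq_left (by linarith only [h1])

/-- P4b -/
theorem even_ext (Bt : ℝ → ℝ) (L lo hi : ℝ) (hL : ∀ x y, |Bt x - Bt y| ≤ L * |x - y|)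
    (hr : ∀ x, lo ≤ Bt x ∧ Bt x ≤ hi) (hint : ∃ z : ℤ, ∫ x in (0 : ℝ)..(1 / 2), Bt x = z) :
    ∃ b : ℝ → ℝ, (∀ x y, |b x - b y| ≤ L * |x - y|) ∧ (∀ x, lo ≤ b x ∧ b x ≤ hi) ∧
      (∀ x, b (x + 1) = b x) ∧ (∃ z : ℤ, ∫ x in (0 : ℝ)..1, b x = z) ∧
      ∀ k : ℤ, ∫ t in (0 : ℝ)..1, e ((∫ s in (0 : ℝ)..t, b s) - k * t) =
        ((2 * (J Bt (1 / 2) k).re : ℝ) : ℂ) := by
  have hL0 : 0 ≤ L := by
    have := hL 0 1
    have h2 := abs_nonneg (Bt 0 - Bt 1)
    norm_num at this
    linarith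
  obtain ⟨z, hz⟩ := hint
  let b : ℝ → ℝ := fun x => Bt (ndist x)
  have hlip : ∀ x y, |b x - b y| ≤ L * |x - y| := by
    intro x y
    refine (hL _ _).trans ?_
    exact mul_le_mul_of_nonneg_left (ndist_lip x y) hL0
  have hbc : Continuous b := cont_of_lip hlip
  have hrefl : ∀ x, b (1 - x) = b x := by
    intro x
    simp only [b]
    have h1 := ndist_add_int (-x) 1
    push_cast at h1
    rw [show 1 - x = -x + 1 by ring, h1, ndist_neg]
  have hI1 : ∀ x, 0 ≤ x → x ≤ 1 / 2 → ∫ t in (0 : ℝ)..x, b t = ∫ t in (0 : ℝ)..x, Bt t := by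
    intro x hx0 hx
    apply intervalIntegral.integral_congr
    intro t ht
    rw [Set.uIcc_of_le hx0] at ht
    simp only [b]
    rw [ndist_eq ht.1 (ht.2.trans hx)]
  have hI2 : ∀ u, ∫ t in (1 - u)..1, b t = ∫ t in (0 : ℝ)..u, b t := by
    intro u
    have h1 := intervalIntegral.integral_comp_sub_left (a := 0) (b := u) (fun t => b t) 1
    rw [sub_zero] at h1
    rw [← h1]
    apply intervalIntegral.integral_congr
    intro t _
    exact hrefl t
  have hI3 : ∫ t in (0 : ℝ)..1, b t = ((2 * z : ℤ) : ℝ) := by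
    rw [← intervalIntegral.integral_add_adjacent_intervals (hbc.intervalIntegrable 0 (1 / 2))
        (hbc.intervalIntegrable (1 / 2) 1)]
    have h1 := hI2 (1 / 2)
    rw [show (1 : ℝ) - 1 / 2 = 1 / 2 by norm_num] at h1
    rw [h1, hI1 (1 / 2) (by norm_num) le_rfl, hz]
    push_cast
    ring
  refine ⟨b, hlip, fun x => hr _, ?_, ⟨2 * z, hI3⟩, ?_⟩
  · intro x
    simp only [b]
    have := ndist_add_int x 1
    push_cast at this
    rw [this]
  · intro k
    have hc := cont_J hbc k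
    have hcB := cont_J (cont_of_lip hL) k
    rw [← intervalIntegral.integral_add_adjacent_intervals (hc.intervalIntegrable 0 (1 / 2))
        (hc.intervalIntegrable (1 / 2) 1)]
    have hA : ∫ t in (0 : ℝ)..(1 / 2), e ((∫ s in (0 : ℝ)..t, b s) - k * t) = J Bt (1 / 2) k := by
      unfold J
      apply intervalIntegral.integral_congr
      intro t ht
      rw [Set.uIcc_of_le (by norm_num)] at ht
      simp only
      rw [hI1 t ht.1 ht.2]
    have hBB : ∫ t in (1 / 2 : ℝ)..1, e ((∫ s in (0 : ℝ)..t, b s) - k * t)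
        = starRingEnd ℂ (J Bt (1 / 2) k) := by
      have h1 := intervalIntegral.integral_comp_sub_left (a := 0) (b := 1 / 2)
        (fun t => e ((∫ s in (0 : ℝ)..t, b s) - k * t)) 1
      rw [sub_zero, show (1 : ℝ) - 1 / 2 = 1 / 2 by norm_num] at h1
      rw [← h1]
      unfold J
      have hconj : starRingEnd ℂ (∫ x in (0 : ℝ)..(1 / 2), e ((∫ t in (0 : ℝ)..x, Bt t) - k * x))
          = ∫ x in (0 : ℝ)..(1 / 2), starRingEnd ℂ (e ((∫ t in (0 : ℝ)..x, Bt t) - k * x)) := by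
        rw [intervalIntegral.integral_of_le (by norm_num),
          intervalIntegral.integral_of_le (by norm_num), integral_conj]
      rw [hconj]
      apply intervalIntegral.integral_congr
      intro u hu
      rw [Set.uIcc_of_le (by norm_num)] at hu
      simp only
      have h2 : ∫ s in (0 : ℝ)..(1 - u), b s
          = ((2 * z : ℤ) : ℝ) - ∫ t in (0 : ℝ)..u, Bt t := by
        have h3 := intervalIntegral.integral_add_adjacent_intervals
          (hbc.intervalIntegrable (μ := volume) 0 (1 - u)) (hbc.intervalIntegrable (1 - u) 1)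
        rw [hI2, hI3, hI1 u hu.1 hu.2] at h3
        linarith only [h3]
      rw [h2, ← e_neg]
      have h4 : ((2 * z : ℤ) : ℝ) - (∫ t in (0 : ℝ)..u, Bt t) - k * (1 - u)
        = -((∫ t in (0 : ℝ)..u, Bt t) - k * u) + ((2 * z - k : ℤ) : ℝ) := by
        push_cast
        ring
      rw [h4, e_add_int]
    rw [hA, hBB, Complex.add_conj]

end Vale.Agent.P110.AT
end
end

section

section

/-!
Existence of profiles.
-/

namespace Vale.Agent.P110.AT

theorem Prof.continuous {D : ℝ → ℝ} {κ L : ℝ} (h : Prof D κ L) : Continuous D := by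
  have hL : LipschitzWith (Real.toNNReal L) D := by
    apply LipschitzWith.of_dist_le_mul
    intro x y
    rw [Real.dist_eq, Real.dist_eq]
    refine (h.lip x y).trans ?_
    gcongr
    exact Real.le_coe_toNNReal L
  exact hL.continuous

/-- the trapezoidal profile -/
noncomputable def trapProf (κ ν : ℝ) (y : ℝ) : ℝ := min 1 (κ + max 0 (min y (1 - y)) / ν)

theorem trapProf_prof {κ ν : ℝ} (hκ : 0 < κ) (hκ1 : κ ≤ 1) (hν : 0 < ν) :
    Prof (trapProf κ ν) κ (1 / ν) := by
  have hnn : ∀ y : ℝ, 0 ≤ max 0 (min y (1 - y)) / ν := fun y =>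
    div_nonneg (le_max_left _ _) hν.le
  refine ⟨hκ, hκ1, ?_, ?_, ?_, ?_, ?_⟩
  · intro x y
    unfold trapProf
    have h1 : |min 1 (κ + max 0 (min x (1 - x)) / ν) - min 1 (κ + max 0 (min y (1 - y)) / ν)| ≤
        |(κ + max 0 (min x (1 - x)) / ν) - (κ + max 0 (min y (1 - y)) / ν)| := by
      have := abs_min_sub_min_le_max 1 (κ + max 0 (min x (1 - x)) / ν) 1
        (κ + max 0 (min y (1 - y)) / ν)
      simpa only [add_sub_add_left_eq_sub, ge_iff_le, sub_self, abs_zero, abs_nonneg, sup_of_le_right] using this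
    refine h1.trans ?_
    have h2 : (κ + max 0 (min x (1 - x)) / ν) - (κ + max 0 (min y (1 - y)) / ν) =
      (max 0 (min x (1 - x)) - max 0 (min y (1 - y))) / ν := by ring
    rw [h2, abs_div, abs_of_pos hν]
    have h3 : |max 0 (min x (1 - x)) - max 0 (min y (1 - y))| ≤
        |min x (1 - x) - min y (1 - y)| := by
      have := abs_max_sub_max_le_abs (min x (1 - x)) (min y (1 - y)) (0 : ℝ)
      rwa [max_comm (min x (1 - x)), max_comm (min y (1 - y))] at this
    have h4 : |min x (1 - x) - min y (1 - y)| ≤ |x - y| := by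
      have := abs_min_sub_min_le_max x (1 - x) y (1 - y)
      have h5 : (1 - x) - (1 - y) = -(x - y) := by ring
      rw [h5, abs_neg, max_self] at this
      exact this
    rw [one_div_mul_eq_div]
    exact div_le_div_of_nonneg_right (h3.trans h4) hν.le
  · intro x
    unfold trapProf
    exact le_min hκ1 (by linarith [hnn x])
  · intro x
    exact min_le_left _ _
  · intro x hx
    unfold trapProf
    have h1 : min x (1 - x) ≤ 0 := (min_le_left _ _).trans hx
    rw [max_eq_left h1, zero_div, add_zero, min_eq_right hκ1]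
  · intro x hx
    unfold trapProf
    have h1 : min x (1 - x) ≤ 0 := (min_le_right _ _).trans (by linarith)
    rw [max_eq_left h1, zero_div, add_zero, min_eq_right hκ1]

theorem profile_exists {δ : ℝ} (hδ : 0 < δ) :
    ∃ (D : ℝ → ℝ) (κ L : ℝ), Prof D κ L ∧ κ ≤ δ ∧ 1 - δ ≤ ∫ u in (0 : ℝ)..1, D u ∧
      ∫ u in (0 : ℝ)..1, D u < 1 := by
  set κ : ℝ := min δ (1 / 2) with hκ
  set ν : ℝ := min (δ / 2) (1 / 2) with hν
  have hκ0 : 0 < κ := lt_min hδ (by norm_num)
  have hκ1 : κ ≤ 1 / 2 := min_le_right _ _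
  have hν0 : 0 < ν := lt_min (by (clear * - hδ; linarith)) (by norm_num)
  have hν1 : ν ≤ 1 / 2 := min_le_right _ _
  have hP := trapProf_prof hκ0 (by linarith only [hκ1]) hν0
  refine ⟨trapProf κ ν, κ, 1 / ν, hP, min_le_left _ _, ?_, ?_⟩
  · have hint : ∀ a b : ℝ, IntervalIntegrable (trapProf κ ν) MeasureTheory.volume a b :=
      fun a b => hP.continuous.intervalIntegrable a b
    have h1 : ∫ u in ν..(1 - ν), (1 : ℝ) ≤ ∫ u in ν..(1 - ν), trapProf κ ν u := by
      apply intervalIntegral.integral_mono_on (by linarith only [hν1]) (by simp) (hint _ _)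
      intro x hx
      unfold trapProf
      apply le_min le_rfl
      have h2 : ν ≤ max 0 (min x (1 - x)) :=
        (le_min hx.1 (by linarith only [hx.2])).trans (le_max_right _ _)
      have h3 : 1 ≤ max 0 (min x (1 - x)) / ν := (one_le_div hν0).mpr h2
      linarith only [hκ0, h3]
    have h4 : 0 ≤ ∫ u in (0 : ℝ)..ν, trapProf κ ν u :=
      intervalIntegral.integral_nonneg hν0.le fun x _ => hP.kpos.le.trans (hP.lower x)
    have h5 : 0 ≤ ∫ u in (1 - ν)..1, trapProf κ ν u :=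
      intervalIntegral.integral_nonneg (by linarith only [hν0]) fun x _ => hP.kpos.le.trans (hP.lower x)
    rw [← intervalIntegral.integral_add_adjacent_intervals (hint 0 ν) (hint ν 1),
      ← intervalIntegral.integral_add_adjacent_intervals (hint ν (1 - ν)) (hint (1 - ν) 1)]
    simp only [intervalIntegral.integral_const, smul_eq_mul, mul_one] at h1
    have h6 : ν ≤ δ / 2 := min_le_left _ _
    linarith only [h4, h5, h1, h6]
  · have h1 : ∫ u in (0 : ℝ)..1, trapProf κ ν u < ∫ u in (0 : ℝ)..1, (1 : ℝ) := by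
      apply intervalIntegral.integral_lt_integral_of_continuousOn_of_le_of_exists_lt zero_lt_one
      · exact hP.continuous.continuousOn
      · exact continuousOn_const
      · intro x _
        exact hP.upper x
      · exact ⟨0, by simp only [Set.mem_Icc, Std.le_refl, zero_le_one, and_self], by rw [hP.left 0 le_rfl]; linarith only [hκ1]⟩
    simpa only [gt_iff_lt, intervalIntegral.integral_const, sub_zero, smul_eq_mul, mul_one] using h1

end Vale.Agent.P110.AT
end
end

section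

section

/-!
Truncation to a polynomial by a trapezoid multiplier.
-/

open MeasureTheory

namespace Vale.Agent.P110.AT

open Vale.Agent.P110 (e)

/-! ### elementary facts on `e` -/

theorem ee_sub' (x y : ℝ) : e (x - y) = e x * e (-y) := by
  rw [sub_eq_add_neg, e_add]

theorem norm_ee_sub_one_le (x : ℝ) : ‖e x - 1‖ ≤ 2 * Real.pi * |x| := by
  unfold e
  rw [mul_comm ((2 * Real.pi * x : ℝ) : ℂ) Complex.I, Complex.norm_exp_I_mul_ofReal_sub_one,
    Real.norm_eq_abs, abs_mul, abs_two]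
  have h1 := Real.abs_sin_le_one
  have h2 : |Real.sin (2 * Real.pi * x / 2)| ≤ |2 * Real.pi * x / 2| := Real.abs_sin_le_abs
  have h3 : |2 * Real.pi * x / 2| = Real.pi * |x| := by
    rw [show 2 * Real.pi * x / 2 = Real.pi * x by ring, abs_mul, abs_of_pos Real.pi_pos]
  rw [h3] at h2
  linarith

theorem le_norm_ee_sub_one {x : ℝ} (hx : |x| ≤ 1 / 2) : 4 * |x| ≤ ‖e x - 1‖ := by
  unfold e
  rw [mul_comm ((2 * Real.pi * x : ℝ) : ℂ) Complex.I, Complex.norm_exp_I_mul_ofReal_sub_one,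
    Real.norm_eq_abs, abs_mul, abs_two]
  have h0 : |Real.sin (2 * Real.pi * x / 2)| = Real.sin (Real.pi * |x|) := by
    rw [show 2 * Real.pi * x / 2 = Real.pi * x by ring]
    rcases le_or_gt 0 x with h | h
    · rw [abs_of_nonneg h, abs_of_nonneg]
      rw [abs_of_nonneg h] at hx
      apply Real.sin_nonneg_of_nonneg_of_le_pi
      · have := Real.pi_pos; positivity
      · have := Real.pi_pos; nlinarith only [this, hx]
    · rw [abs_of_neg h] at hx ⊢
      have h1 : Real.sin (Real.pi * x) = - Real.sin (Real.pi * -x) := by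
        rw [← Real.sin_neg]; congr 1; ring
      rw [h1, abs_neg, abs_of_nonneg]
      apply Real.sin_nonneg_of_nonneg_of_le_pi
      · have := Real.pi_pos; nlinarith only [h, this]
      · have := Real.pi_pos; nlinarith only [this, hx]
  have h1 := Real.mul_le_sin (x := Real.pi * |x|) (by have := Real.pi_pos; positivity)
    (by have := Real.pi_pos; nlinarith only [hx, this])
  rw [h0]
  have h2 : 2 / Real.pi * (Real.pi * |x|) = 2 * |x| := by
    field_simp
  rw [h2] at h1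
  linarith only [h1]

/-- geometric sums over integer intervals -/
noncomputable def dir (A B : ℤ) (s : ℝ) : ℂ := ∑ a ∈ Finset.Ico A B, e (a * s)

theorem dir_mul (A B : ℤ) (hAB : A ≤ B) (s : ℝ) :
    (e s - 1) * dir A B s = e (B * s) - e (A * s) := by
  unfold dir
  induction B, hAB using Int.leInduction with
  | base => simp only [Std.le_refl, Finset.Ico_eq_empty_of_le, Finset.sum_empty, mul_zero, sub_self]
  | succ n hn ih =>
    have h1 : Finset.Ico A (n + 1) = insert n (Finset.Ico A n) := by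
      ext x
      simp only [Finset.mem_Ico, Finset.mem_insert]
      omega
    rw [h1, Finset.sum_insert (by simp only [Finset.mem_Ico, lt_self_iff_false, and_false, not_false_eq_true]), mul_add, ih]
    have h2 : e (((n + 1 : ℤ) : ℝ) * s) = e (n * s) * e s := by
      rw [← e_add]
      congr 1
      push_cast
      ring
    rw [h2]
    ring

theorem norm_dir_le (A B : ℤ) (hAB : A ≤ B) {s : ℝ} (hs : |s| ≤ 1 / 2) :
    |s| * ‖dir A B s‖ ≤ 1 / 2 := by
  have h1 := dir_mul A B hAB s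
  have h2 : ‖e s - 1‖ * ‖dir A B s‖ ≤ 2 := by
    rw [← norm_mul, h1]
    refine (norm_sub_le _ _).trans ?_
    rw [norm_e, norm_e]
    norm_num
  have h3 := le_norm_ee_sub_one hs
  have h4 : 4 * |s| * ‖dir A B s‖ ≤ 2 := (mul_le_mul_of_nonneg_right h3 (norm_nonneg _)).trans h2
  linarith only [h4]

theorem norm_dir_le_card (A B : ℤ) (hAB : A ≤ B) (s : ℝ) : ‖dir A B s‖ ≤ (B - A : ℤ) := by
  unfold dir
  refine (norm_sum_le _ _).trans ?_
  simp only [norm_e, Finset.sum_const, nsmul_eq_mul, mul_one, Int.card_Ico]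
  rw [← Int.cast_natCast, Int.toNat_of_nonneg (by omega)]

theorem continuous_dir (A B : ℤ) : Continuous (dir A B) := by
  unfold dir
  refine continuous_finsetSum _ fun a _ => ?_
  exact continuous_e.comp (by fun_prop)

/-! ### the trapezoid multiplier -/

open Classical in
/-- trapezoid weights -/
noncomputable def trap (A B : ℤ) (M : ℕ) (k : ℤ) : ℝ :=
  (((Finset.Ico (0 : ℤ) M).filter (fun i => A ≤ k - i ∧ k - i < B)).card : ℝ) / M

theorem trap_nonneg (A B : ℤ) (M : ℕ) (k : ℤ) : 0 ≤ trap A B M k := by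
  unfold trap; (clear * -; positivity)

theorem trap_le_one (A B : ℤ) (M : ℕ) (k : ℤ) : trap A B M k ≤ 1 := by
  unfold trap
  apply div_le_one_of_le₀ _ (Nat.cast_nonneg _)
  have h1 : ((Finset.Ico (0 : ℤ) M).filter (fun i => A ≤ k - i ∧ k - i < B)).card ≤ M := by
    refine (Finset.card_filter_le _ _).trans ?_
    simp
  exact_mod_cast h1

theorem trap_eq_one {A B : ℤ} {M : ℕ} (hM : 0 < M) {k : ℤ} (h1 : A + M ≤ k) (h2 : k < B) :
    trap A B M k = 1 := by
  unfold trap
  rw [Finset.filter_true_of_mem]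
  · simp only [Int.card_Ico, sub_zero, Int.toNat_natCast]
    have : (M : ℝ) ≠ 0 := by positivity
    exact div_self this
  · intro i hi
    rw [Finset.mem_Ico] at hi
    omega

/-- the kernel of the trapezoid multiplier is a product of two geometric sums -/
theorem trap_sum (A B : ℤ) (M : ℕ) (a b : ℤ) (ha : a ≤ A) (hb : B + M ≤ b + 2) (s : ℝ) :
    ∑ k ∈ Finset.Icc a b, (trap A B M k : ℂ) * e (k * s) = (1 / (M : ℂ)) * (dir 0 M s * dir A B s) := by
  classical
  have h1 : ∀ k : ℤ, (trap A B M k : ℂ) =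
      (1 / (M : ℂ)) * ∑ i ∈ Finset.Ico (0 : ℤ) M, if A ≤ k - i ∧ k - i < B then (1 : ℂ) else 0 := by
    intro k
    unfold trap
    rw [Finset.card_filter]
    push_cast
    rw [div_eq_mul_one_div, mul_comm]
    congr 1
    apply Finset.sum_congr rfl
    intro i _
    split_ifs <;> simp
  simp only [h1, mul_assoc, Finset.sum_mul]
  rw [← Finset.mul_sum]
  congr 1
  rw [Finset.sum_comm]
  unfold dir
  rw [Finset.sum_mul]
  apply Finset.sum_congr rfl
  intro i hi
  rw [Finset.mem_Ico] at hi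
  rw [Finset.mul_sum]
  have h2 : ∀ k ∈ Finset.Icc a b, (if A ≤ k - i ∧ k - i < B then (1 : ℂ) else 0) * e (k * s) =
      if k - i ∈ Finset.Ico A B then e (k * s) else 0 := by
    intro k _
    simp only [Finset.mem_Ico]
    split_ifs <;> simp
  rw [Finset.sum_congr rfl h2, ← Finset.sum_filter]
  symm
  apply Finset.sum_nbij (fun x => x + i)
  · intro x hx
    rw [Finset.mem_Ico] at hx
    simp only [Finset.mem_filter, Finset.mem_Icc, Finset.mem_Ico]
    omega
  · intro x _ y _ hxy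
    simpa using hxy
  · intro k hk
    simp only [Finset.coe_filter, Set.mem_ofPred_eq, Finset.mem_Icc, Finset.mem_Ico] at hk
    refine ⟨k - i, ?_, by simp⟩
    simp only [Finset.coe_Ico, Set.mem_Ico]
    exact hk.2
  · intro x _
    rw [← e_add]
    congr 1
    push_cast
    ring

/-! ### orthogonality and periodicity -/

theorem integral_ee_int (m : ℤ) :
    ∫ s in (-(1 / 2) : ℝ)..(1 / 2), e (m * s) = if m = 0 then 1 else 0 := by
  split_ifs with h
  · subst h
    simp only [Int.cast_zero, zero_mul, e_zero]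
    rw [intervalIntegral.integral_const]
    norm_num
  · have hm : (2 * Real.pi * Complex.I * (m : ℂ)) ≠ 0 := by
      have h1 : (m : ℂ) ≠ 0 := by exact_mod_cast h
      have h2 : (Real.pi : ℂ) ≠ 0 := by exact_mod_cast Real.pi_ne_zero
      simp only [ne_eq, mul_eq_zero, OfNat.ofNat_ne_zero, h2, or_self, Complex.I_ne_zero, h1, not_false_eq_true]
    have hd : ∀ s ∈ Set.uIcc (-(1 / 2) : ℝ) (1 / 2),
        HasDerivAt (fun s : ℝ => e (m * s) / (2 * Real.pi * Complex.I * (m : ℂ))) (e (m * s)) s := by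
      intro s _
      have h1 : HasDerivAt (fun s : ℝ => (m : ℝ) * s) (m : ℝ) s := by
        simpa using (hasDerivAt_id s).const_mul (m : ℝ)
      have h2 := (hasDerivAt_e ((m : ℝ) * s)).scomp s h1
      have h3 := h2.div_const (2 * Real.pi * Complex.I * (m : ℂ))
      refine h3.congr_deriv ?_
      rw [div_eq_iff hm]
      simp only [Complex.real_smul, Complex.ofReal_intCast]
      ring
    have hc : Continuous (fun s : ℝ => e (m * s)) := continuous_e.comp (by fun_prop)
    rw [intervalIntegral.integral_eq_sub_of_hasDerivAt hd (hc.intervalIntegrable _ _)]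
    have h4 : e ((m : ℝ) * (1 / 2)) = e ((m : ℝ) * -(1 / 2)) := by
      have : (m : ℝ) * (1 / 2) = (m : ℝ) * -(1 / 2) + m := by ring
      rw [this, e_add_int]
    rw [h4, sub_self]

theorem lip_continuous {b : ℝ → ℝ} {K : ℝ} (hK : 0 ≤ K) (hb : ∀ x y, |b x - b y| ≤ K * |x - y|) :
    Continuous b := by
  have : LipschitzWith ⟨K, hK⟩ b := by
    apply LipschitzWith.of_dist_le_mul
    intro x y
    rw [Real.dist_eq, Real.dist_eq]
    exact hb x y
  exact this.continuous

/-- the majorant integral -/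
theorem integral_majorant {A c : ℝ} (hA : 0 ≤ A) (hc : 0 < c) :
    ∫ s in (-(1 / 2) : ℝ)..(1 / 2), 2 * A * (1 + (c * s) ^ 2)⁻¹ ≤ 2 * A * Real.pi / c := by
  rw [intervalIntegral.integral_const_mul]
  have h1 := intervalIntegral.integral_comp_mul_left (a := -(1 / 2)) (b := 1 / 2)
    (fun x : ℝ => (1 + x ^ 2)⁻¹) hc.ne'
  rw [h1, integral_inv_one_add_sq, smul_eq_mul]
  have h2 := Real.arctan_lt_pi_div_two (c * (1 / 2))
  have h3 := Real.neg_pi_div_two_lt_arctan (c * -(1 / 2))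
  have h4 : c⁻¹ * (Real.arctan (c * (1 / 2)) - Real.arctan (c * -(1 / 2))) ≤ c⁻¹ * Real.pi := by
    gcongr
    linarith only [h2, h3]
  calc 2 * A * (c⁻¹ * (Real.arctan (c * (1 / 2)) - Real.arctan (c * -(1 / 2))))
      ≤ 2 * A * (c⁻¹ * Real.pi) := by gcongr
    _ = 2 * A * Real.pi / c := by ring

/-- Truncation of a flat function with slowly varying frequency to a trigonometric polynomial. -/
theorem vp_trunc {L C η ε : ℝ} (hL : 0 ≤ L) (hη : 0 < η) (hε : 0 < ε) :
    ∃ N0 : ℕ, ∀ N : ℕ, N0 ≤ N → ∀ (n : ℕ) (b : ℝ → ℝ), (n : ℝ) ≤ C * N →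
      (∀ x y, |b x - b y| ≤ L * N * |x - y|) →
      (∀ x, -(η * N / 4) ≤ b x ∧ b x ≤ n + η * N / 4) →
      (∀ x, b (x + 1) = b x) →
      (∃ m : ℤ, ∫ t in (0 : ℝ)..1, b t = m) →
      ∃ (w : ℤ → ℝ) (W : ℕ), (W : ℝ) ≤ η * N ∧ (∀ k, 0 ≤ w k ∧ w k ≤ 1) ∧
        ∀ θ : ℝ, ‖(∑ k ∈ Finset.Icc (-(W : ℤ)) (n + W),
            (w k : ℂ) * (∫ φ in (-(1 / 2) : ℝ)..(1 / 2), e ((∫ t in (0 : ℝ)..φ, b t) - k * φ)) *
              e (k * θ)) - e (∫ t in (0 : ℝ)..θ, b t)‖ ≤ ε := by
  have hpi := Real.pi_pos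
  set A1 : ℝ := Real.pi / 2 + 4 * Real.pi * L / η with hA1
  have hA1p : 0 < A1 := by (clear * - hL hη; positivity)
  obtain ⟨N0, hN0⟩ := exists_nat_ge (max (16 / η) (16 * Real.pi ^ 2 * A1 / (η * ε ^ 2)))
  refine ⟨N0, ?_⟩
  intro N hN n b _ hlip hrange hper ⟨m, hm⟩
  have hNr : (N0 : ℝ) ≤ N := by exact_mod_cast hN
  have hN1 : 16 / η ≤ N := ((le_max_left _ _).trans hN0).trans hNr
  have hN2 : 16 * Real.pi ^ 2 * A1 / (η * ε ^ 2) ≤ N := ((le_max_right _ _).trans hN0).trans hNr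
  have hηN : 16 ≤ η * N := by
    rw [div_le_iff₀ hη] at hN1
    linarith only [hN1]
  have hNpos : (0 : ℝ) < N := by
    by_contra hcon
    have : (N : ℝ) = 0 := le_antisymm (not_lt.mp hcon) (Nat.cast_nonneg N)
    rw [this] at hηN
    linarith only [hηN]
  -- the parameters of the trapezoid
  obtain ⟨M, hM⟩ : ∃ M : ℕ, M = ⌊η * N / 4⌋₊ := ⟨_, rfl⟩
  obtain ⟨q, hq⟩ : ∃ q : ℕ, q = ⌈η * N / 4⌉₊ + 1 := ⟨_, rfl⟩
  have hM1 : (M : ℝ) ≤ η * N / 4 := by
    rw [hM]; exact Nat.floor_le (by (clear * - hη hNpos; positivity))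
  have hM2 : η * N / 8 ≤ M := by
    have := Nat.lt_floor_add_one (η * N / 4)
    rw [← hM] at this
    linarith only [hηN, this]
  have hMpos : (0 : ℝ) < M := by linarith only [hηN, hM2]
  have hMpos' : 0 < M := by exact_mod_cast hMpos
  have hq1 : η * N / 4 + 1 ≤ q := by
    rw [hq]; push_cast
    have := Nat.le_ceil (η * N / 4)
    linarith only [this]
  have hq2 : (q : ℝ) ≤ η * N / 4 + 2 := by
    rw [hq]; push_cast
    have := Nat.ceil_lt_add_one (a := η * N / 4) (by (clear * - hη hNpos; positivity))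
    linarith only [this]
  set A : ℤ := -(q : ℤ) - M with hAdef
  set B : ℤ := (n : ℤ) + q + 1 with hBdef
  have hAB : A ≤ B := by omega
  refine ⟨trap A B M, q + M, ?_, fun k => ⟨trap_nonneg _ _ _ _, trap_le_one _ _ _ _⟩, ?_⟩
  · push_cast
    linarith only [hηN, hM1, hq2]
  intro θ
  have hbc : Continuous b := lip_continuous (by (clear * - hL hNpos; positivity)) hlip
  set β : ℝ → ℝ := fun φ => ∫ t in (0 : ℝ)..φ, b t with hβ
  have hβc : Continuous β := by
    rw [hβ]
    exact intervalIntegral.continuous_primitive (fun _ _ => hbc.intervalIntegrable _ _) 0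
  have hβsub : ∀ x y, β x - β y = ∫ t in y..x, b t := by
    intro x y
    rw [hβ]
    exact intervalIntegral.integral_interval_sub_left (hbc.intervalIntegrable _ _)
      (hbc.intervalIntegrable _ _)
  have hβper : ∀ φ, β (φ + 1) = β φ + m := by
    intro φ
    have h1 := hβsub (φ + 1) φ
    have h2 : ∫ t in φ..(φ + 1), b t = ∫ t in (0 : ℝ)..(0 + 1), b t :=
      Function.Periodic.intervalIntegral_add_eq hper φ 0
    rw [h2, zero_add, hm] at h1
    linarith only [h1]
  -- the kernel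
  set K : ℝ → ℂ := fun s => ∑ k ∈ Finset.Icc (-((q + M : ℕ) : ℤ)) (n + ((q + M : ℕ) : ℤ)),
    (trap A B M k : ℂ) * e (k * s) with hK
  have hKeq : ∀ s, K s = (1 / (M : ℂ)) * (dir 0 M s * dir A B s) := by
    intro s
    rw [hK]
    apply trap_sum
    · rw [hAdef]; push_cast; omega
    · rw [hBdef]; push_cast; omega
  have hKc : Continuous K := by
    have : K = fun s => (1 / (M : ℂ)) * (dir 0 M s * dir A B s) := funext hKeq
    rw [this]
    exact continuous_const.mul ((continuous_dir _ _).mul (continuous_dir _ _))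
  -- the integer closest to the frequency
  set j : ℤ := round (b θ) with hj
  have hjb : |b θ - j| ≤ 1 / 2 := abs_sub_round (b θ)
  have hj1 : -(q : ℤ) ≤ j := by
    have h1 := (abs_le.mp hjb).2
    have h2 := (hrange θ).1
    have h3 : (-(q : ℝ)) ≤ j := by linarith only [hq1, h1, h2]
    exact_mod_cast h3
  have hj2 : j ≤ (n : ℤ) + q := by
    have h1 := (abs_le.mp hjb).1
    have h2 := (hrange θ).2
    have h3 : (j : ℝ) ≤ n + q := by linarith only [hq1, h1, h2]
    exact_mod_cast h3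
  have hwj : trap A B M j = 1 := by
    apply trap_eq_one hMpos'
    · rw [hAdef]; omega
    · rw [hBdef]; omega
  -- step 1: the integral of the modulated kernel
  have step1 : ∫ s in (-(1 / 2) : ℝ)..(1 / 2), e (-(j * s)) * K s = 1 := by
    have h1 : ∀ s, e (-(j * s)) * K s =
        ∑ k ∈ Finset.Icc (-((q + M : ℕ) : ℤ)) (n + ((q + M : ℕ) : ℤ)),
          (trap A B M k : ℂ) * e (((k - j : ℤ) : ℝ) * s) := by
      intro s
      rw [hK]
      simp only [Finset.mul_sum]
      apply Finset.sum_congr rfl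
      intro k _
      have : e (((k - j : ℤ) : ℝ) * s) = e (-(j * s)) * e (k * s) := by
        rw [← e_add]
        congr 1
        push_cast
        ring
      rw [this]
      ring
    simp only [h1]
    rw [intervalIntegral.integral_finsetSum]
    · simp only [intervalIntegral.integral_const_mul, integral_ee_int, sub_eq_zero]
      rw [Finset.sum_eq_single j]
      · rw [hwj]; simp
      · intro k _ hk
        rw [if_neg hk, mul_zero]
      · intro hnot
        exfalso
        apply hnot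
        rw [Finset.mem_Icc]
        push_cast
        omega
    · intro k _
      apply Continuous.intervalIntegrable
      exact continuous_const.mul (continuous_e.comp (by fun_prop))
  -- step 2: the sum as a convolution
  have step2 : (∑ k ∈ Finset.Icc (-((q + M : ℕ) : ℤ)) (n + ((q + M : ℕ) : ℤ)),
      (trap A B M k : ℂ) * (∫ φ in (-(1 / 2) : ℝ)..(1 / 2), e (β φ - k * φ)) * e (k * θ)) =
      ∫ s in (-(1 / 2) : ℝ)..(1 / 2), e (β (θ - s)) * K s := by
    set f : ℝ → ℂ := fun φ => e (β φ) * K (θ - φ) with hf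
    have h1 : (∑ k ∈ Finset.Icc (-((q + M : ℕ) : ℤ)) (n + ((q + M : ℕ) : ℤ)),
        (trap A B M k : ℂ) * (∫ φ in (-(1 / 2) : ℝ)..(1 / 2), e (β φ - k * φ)) * e (k * θ)) =
        ∫ φ in (-(1 / 2) : ℝ)..(1 / 2), f φ := by
      have h2 : ∀ φ, f φ = ∑ k ∈ Finset.Icc (-((q + M : ℕ) : ℤ)) (n + ((q + M : ℕ) : ℤ)),
          ((trap A B M k : ℂ) * e (k * θ)) * e (β φ - k * φ) := by
        intro φ
        rw [hf, hK]
        simp only [Finset.mul_sum]
        apply Finset.sum_congr rfl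
        intro k _
        have h3 : e (β φ) * e (k * (θ - φ)) = e (k * θ) * e (β φ - k * φ) := by
          rw [← e_add, ← e_add]
          congr 1
          ring
        calc e (β φ) * ((trap A B M k : ℂ) * e (k * (θ - φ))) =
            (trap A B M k : ℂ) * (e (β φ) * e (k * (θ - φ))) := by ring
          _ = _ := by rw [h3]; ring
      simp only [h2]
      rw [intervalIntegral.integral_finsetSum]
      · apply Finset.sum_congr rfl
        intro k _
        rw [intervalIntegral.integral_const_mul]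
        ring
      · intro k _
        apply Continuous.intervalIntegrable
        exact continuous_const.mul (continuous_e.comp (by fun_prop))
    have hKper : ∀ s, K (s - 1) = K s := by
      intro s
      rw [hK]
      apply Finset.sum_congr rfl
      intro k _
      congr 1
      have : (k : ℝ) * s = k * (s - 1) + k := by ring
      rw [this, e_add_int]
    have hfper : Function.Periodic f 1 := by
      intro φ
      rw [hf]
      simp only
      rw [hβper, e_add_int]
      have : θ - (φ + 1) = (θ - φ) - 1 := by ring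
      rw [this, hKper]
    have h4 : ∫ φ in (-(1 / 2) : ℝ)..(1 / 2), f φ = ∫ φ in (θ - 1 / 2)..(θ + 1 / 2), f φ := by
      have h5 := hfper.intervalIntegral_add_eq (-(1 / 2)) (θ - 1 / 2)
      have e1 : (-(1 / 2) : ℝ) + 1 = 1 / 2 := by norm_num
      have e2 : θ - 1 / 2 + 1 = θ + 1 / 2 := by ring
      rw [e1, e2] at h5
      exact h5
    have h6 : ∫ s in (-(1 / 2) : ℝ)..(1 / 2), f (θ - s) = ∫ φ in (θ - 1 / 2)..(θ + 1 / 2), f φ := by
      rw [intervalIntegral.integral_comp_sub_left]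
      congr 1
      ring
    rw [h1, h4, ← h6]
    congr 1
    funext s
    rw [hf]
    simp only
    rw [sub_sub_cancel]
  -- step 3: the error as one integral
  have hi1 : IntervalIntegrable (fun s => e (β (θ - s)) * K s) volume (-(1 / 2)) (1 / 2) := by
    apply Continuous.intervalIntegrable
    exact (continuous_e.comp (hβc.comp (by fun_prop))).mul hKc
  have hi2 : IntervalIntegrable (fun s => e (β θ) * (e (-(j * s)) * K s)) volume
      (-(1 / 2)) (1 / 2) := by
    apply Continuous.intervalIntegrable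
    exact continuous_const.mul ((continuous_e.comp (by fun_prop)).mul hKc)
  have step3 : (∑ k ∈ Finset.Icc (-((q + M : ℕ) : ℤ)) (n + ((q + M : ℕ) : ℤ)),
      (trap A B M k : ℂ) * (∫ φ in (-(1 / 2) : ℝ)..(1 / 2), e (β φ - k * φ)) * e (k * θ)) -
      e (β θ) = ∫ s in (-(1 / 2) : ℝ)..(1 / 2),
        (e (β (θ - s)) * K s - e (β θ) * (e (-(j * s)) * K s)) := by
    rw [intervalIntegral.integral_sub hi1 hi2, step2, intervalIntegral.integral_const_mul, step1,
      mul_one]
  -- step 4: pointwise bounds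
  set c : ℝ := √(A1 * (η * N) / 4) with hc
  have hcpos : 0 < c := by
    rw [hc]; apply Real.sqrt_pos.mpr; (clear * - hL hη hNpos; positivity)
  have hc2 : c ^ 2 = A1 * (η * N) / 4 := by
    rw [hc, Real.sq_sqrt]; (clear * - hL hη hNpos; positivity)
  have hD1 : ∀ s, ‖e (β (θ - s)) - e (β θ) * e (-(j * s))‖ ≤ 2 := by
    intro s
    refine (norm_sub_le _ _).trans ?_
    rw [norm_mul, norm_e, norm_e, norm_e]
    norm_num
  have hD2 : ∀ s, ‖e (β (θ - s)) - e (β θ) * e (-(j * s))‖ ≤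
      Real.pi * |s| + 2 * Real.pi * (L * N) * |s| ^ 2 := by
    intro s
    have h1 : e (β (θ - s)) - e (β θ) * e (-(j * s)) =
        (e (β θ) * e (-(j * s))) * (e ((β (θ - s) - β θ) + j * s) - 1) := by
      have : e (β (θ - s)) = (e (β θ) * e (-(j * s))) * e ((β (θ - s) - β θ) + j * s) := by
        rw [← e_add, ← e_add]
        congr 1
        ring
      rw [this]
      ring
    rw [h1, norm_mul, norm_mul, norm_e, norm_e, one_mul, one_mul]
    refine (norm_ee_sub_one_le _).trans ?_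
    have h2 : (β (θ - s) - β θ) + j * s = ∫ t in θ..(θ - s), (b t - j) := by
      rw [intervalIntegral.integral_sub (hbc.intervalIntegrable _ _) (by simp),
        intervalIntegral.integral_const, ← hβsub]
      simp only [smul_eq_mul]
      ring
    have h3 : |(β (θ - s) - β θ) + j * s| ≤ (L * N * |s| + 1 / 2) * |s| := by
      rw [h2]
      have h4 := intervalIntegral.norm_integral_le_of_norm_le_const (a := θ) (b := θ - s)
        (C := L * N * |s| + 1 / 2) (f := fun t => b t - j) (by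
          intro t ht
          rw [Real.norm_eq_abs]
          have h5 : |t - θ| ≤ |s| := by
            rw [Set.mem_uIoc] at ht
            rcases ht with ht | ht
            · rw [abs_of_pos (by linarith only [ht]), abs_of_neg (by linarith only [ht])]
              linarith only [ht]
            · rw [abs_of_nonpos (by linarith only [ht]), abs_of_pos (by linarith only [ht])]
              linarith only [ht]
          have h6 : |b t - j| ≤ |b t - b θ| + |b θ - j| := by
            have := abs_add_le (b t - b θ) (b θ - j)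
            rwa [sub_add_sub_cancel] at this
          have h7 : L * N * |t - θ| ≤ L * N * |s| := by (clear * - h5 hL hNpos; gcongr)
          linarith only [hjb, h6, h7, hlip t θ])
      rw [Real.norm_eq_abs] at h4
      refine h4.trans (le_of_eq ?_)
      congr 1
      rw [sub_sub_cancel_left, abs_neg]
    calc 2 * Real.pi * |β (θ - s) - β θ + j * s| ≤ 2 * Real.pi * ((L * N * |s| + 1 / 2) * |s|) := by
          (clear * - h3; gcongr)
      _ = Real.pi * |s| + 2 * Real.pi * (L * N) * |s| ^ 2 := by ring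
  have hMC : ‖(1 / (M : ℂ))‖ = 1 / M := by
    rw [norm_div, norm_one, Complex.norm_natCast]
  have hK1 : ∀ s, |s| ≤ 1 / 2 → |s| * ‖K s‖ ≤ 1 / 2 := by
    intro s hs
    rw [hKeq, norm_mul, norm_mul, hMC]
    have h1 := norm_dir_le_card 0 M (by (clear * - hM hMpos'; omega)) s
    have h2 := norm_dir_le A B hAB hs
    simp only [sub_zero, Int.cast_natCast] at h1
    calc |s| * (1 / M * (‖dir 0 M s‖ * ‖dir A B s‖)) =
        (1 / M * ‖dir 0 M s‖) * (|s| * ‖dir A B s‖) := by ring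
      _ ≤ (1 / M * M) * (1 / 2) := by (clear * - h1 hMpos' h2; gcongr)
      _ = 1 / 2 := by (clear * - hMpos'; field_simp)
  have hK2 : ∀ s, |s| ≤ 1 / 2 → |s| ^ 2 * ‖K s‖ ≤ 1 / (4 * M) := by
    intro s hs
    rw [hKeq, norm_mul, norm_mul, hMC]
    have h1 := norm_dir_le 0 M (by omega) hs
    have h2 := norm_dir_le A B hAB hs
    calc |s| ^ 2 * (1 / M * (‖dir 0 M s‖ * ‖dir A B s‖)) =
        1 / M * ((|s| * ‖dir 0 M s‖) * (|s| * ‖dir A B s‖)) := by ring
      _ ≤ 1 / M * ((1 / 2) * (1 / 2)) := by (clear * - h1 h2 hMpos'; gcongr)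
      _ = 1 / (4 * M) := by field_simp; norm_num
  have hpt : ∀ s ∈ Set.Ioc (-(1 / 2) : ℝ) (1 / 2),
      ‖e (β (θ - s)) * K s - e (β θ) * (e (-(j * s)) * K s)‖ ≤
        2 * A1 * (1 + (c * s) ^ 2)⁻¹ := by
    intro s hs
    have hs' : |s| ≤ 1 / 2 := by
      rw [abs_le]; exact ⟨by linarith only [hs.1], hs.2⟩
    have h1 : e (β (θ - s)) * K s - e (β θ) * (e (-(j * s)) * K s) =
        (e (β (θ - s)) - e (β θ) * e (-(j * s))) * K s := by ring
    rw [h1, norm_mul]
    set x := ‖e (β (θ - s)) - e (β θ) * e (-(j * s))‖ with hx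
    have hx0 : 0 ≤ x := norm_nonneg _
    have hk0 : 0 ≤ ‖K s‖ := norm_nonneg _
    have b1 : x * ‖K s‖ ≤ A1 := by
      calc x * ‖K s‖ ≤ (Real.pi * |s| + 2 * Real.pi * (L * N) * |s| ^ 2) * ‖K s‖ := by
            gcongr
            exact hD2 s
        _ = Real.pi * (|s| * ‖K s‖) + 2 * Real.pi * (L * N) * (|s| ^ 2 * ‖K s‖) := by ring
        _ ≤ Real.pi * (1 / 2) + 2 * Real.pi * (L * N) * (1 / (4 * M)) := by
            gcongr
            · exact hK1 s hs'
            · exact hK2 s hs'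
        _ ≤ Real.pi * (1 / 2) + 2 * Real.pi * (L * N) * (1 / (4 * (η * N / 8))) := by
            (clear * - hη hNpos hM2 hL; gcongr)
        _ = A1 := by rw [hA1]; field_simp; ring
    have b2 : x * ‖K s‖ * |s| ^ 2 ≤ 4 / (η * N) := by
      calc x * ‖K s‖ * |s| ^ 2 = x * (|s| ^ 2 * ‖K s‖) := by ring
        _ ≤ 2 * (1 / (4 * (M : ℝ))) := by
            gcongr
            · exact hD1 s
            · exact hK2 s hs'
        _ ≤ 2 * (1 / (4 * (η * (N : ℝ) / 8))) := by (clear * - hη hNpos hM2; gcongr)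
        _ = 4 / (η * N) := by field_simp; norm_num
    rw [← div_eq_mul_inv, le_div_iff₀ (by (clear * -; positivity))]
    have h2 : x * ‖K s‖ * (1 + (c * s) ^ 2) = x * ‖K s‖ + c ^ 2 * (x * ‖K s‖ * |s| ^ 2) := by
      rw [sq_abs]; ring
    rw [h2]
    have h3 : c ^ 2 * (x * ‖K s‖ * |s| ^ 2) ≤ c ^ 2 * (4 / (η * N)) := by (clear * - b2 hL hη hNpos; gcongr)
    have h4 : c ^ 2 * (4 / (η * N)) = A1 := by
      rw [hc2]; (clear * - hη hNpos hA1p; field_simp)
    linarith only [b1, h3, h4]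
  -- step 5: conclusion
  have hmaj : IntervalIntegrable (fun s : ℝ => 2 * A1 * (1 + (c * s) ^ 2)⁻¹) volume
      (-(1 / 2)) (1 / 2) := by
    apply Continuous.intervalIntegrable
    apply continuous_const.mul
    apply Continuous.inv₀ (by fun_prop)
    intro s
    (clear * -; positivity)
  have hfinal : ‖∫ s in (-(1 / 2) : ℝ)..(1 / 2),
      (e (β (θ - s)) * K s - e (β θ) * (e (-(j * s)) * K s))‖ ≤ ε := by
    refine (intervalIntegral.norm_integral_le_of_norm_le (by norm_num)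
      (ae_of_all _ hpt) hmaj).trans ?_
    refine (integral_majorant hA1p.le hcpos).trans ?_
    rw [div_le_iff₀ hcpos]
    have h1 : (2 * A1 * Real.pi) ^ 2 ≤ (ε * c) ^ 2 := by
      rw [mul_pow ε c, hc2]
      rw [div_le_iff₀ (by positivity)] at hN2
      have h2 : (2 * A1 * Real.pi) ^ 2 = (16 * Real.pi ^ 2 * A1) * (A1 / 4) := by ring
      have h3 : ε ^ 2 * (A1 * (η * N) / 4) = (N * (η * ε ^ 2)) * (A1 / 4) := by ring
      rw [h2, h3]
      (clear * - hN2 hL hη; gcongr)
    exact le_of_sq_le_sq h1 (by (clear * - hε hL hη hNpos; positivity))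
  have hgoal := step3
  calc _ = ‖(∑ k ∈ Finset.Icc (-((q + M : ℕ) : ℤ)) (n + ((q + M : ℕ) : ℤ)),
      (trap A B M k : ℂ) * (∫ φ in (-(1 / 2) : ℝ)..(1 / 2), e (β φ - k * φ)) * e (k * θ)) -
      e (β θ)‖ := rfl
    _ ≤ ε := by rw [step3]; exact hfinal

end Vale.Agent.P110.AT
end
end

section

section

/-!
# P110, AT: truncation of a flat slowly varying chirp to a polynomial (`TruncStatement`)
-/

set_option autoImplicit false

namespace Vale.Agent.P110.AT

open Vale.Agent.P110 (e TruncStatement)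

theorem trunc : TruncStatement := by
  intro L T ε hL hT hε
  obtain ⟨N0, h⟩ := vp_trunc (L := L) (C := T + 1) (η := ε / 2) (ε := ε) hL.le (by positivity) hε
  refine ⟨max N0 (⌈4 / ε⌉₊ + 1), ?_⟩
  intro N hN b hlip hrange hper ⟨z, hz⟩
  have hN0 : N0 ≤ N := (le_max_left _ _).trans hN
  have hN1 : ⌈4 / ε⌉₊ + 1 ≤ N := (le_max_right _ _).trans hN
  have hN2 : 4 / ε ≤ N := by
    have h1 : (4 / ε : ℝ) ≤ ⌈4 / ε⌉₊ := Nat.le_ceil _
    have h2 : ((⌈4 / ε⌉₊ + 1 : ℕ) : ℝ) ≤ N := by exact_mod_cast hN1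
    push_cast at h2
    linarith only [h1, h2]
  have hNpos : (1 : ℝ) ≤ N := by
    have : 1 ≤ N := by omega
    exact_mod_cast this
  have hεN : 4 ≤ ε * N := by
    rw [div_le_iff₀ hε] at hN2
    linarith only [hN2]
  set n : ℕ := ⌈T * N⌉₊ with hn
  have hn1 : T * N ≤ n := Nat.le_ceil _
  have hn2 : (n : ℝ) < T * N + 1 := Nat.ceil_lt_add_one (by (clear * - hT hNpos; positivity))
  have hbc : Continuous b := lip_continuous hL.le hlip
  obtain ⟨w, W, hW, hw, hmain⟩ := h N hN0 n (fun x => N * b x) (by nlinarith only [hNpos, hn2])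
    (fun x y => by
      rw [← mul_sub, abs_mul, abs_of_nonneg (by linarith only [] : (0 : ℝ) ≤ N)]
      calc (N : ℝ) * |b x - b y| ≤ N * (L * |x - y|) :=
            mul_le_mul_of_nonneg_left (hlip x y) (by linarith only [])
        _ = L * N * |x - y| := by ring)
    (fun x => by
      obtain ⟨h1, h2⟩ := hrange x
      constructor
      · have : 0 ≤ (N : ℝ) * b x := mul_nonneg (by linarith only []) h1
        have : 0 ≤ ε / 2 * N / 4 := by (clear * - hε hNpos; positivity)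
        (clear L T hL hT h hlip hrange hper z hz hN0 n hn hn1 hn2 hbc h2 this; linarith)
      · have : (N : ℝ) * b x ≤ N * T := mul_le_mul_of_nonneg_left h2 (by linarith only [])
        have : 0 ≤ ε / 2 * N / 4 := by (clear * - hε hNpos; positivity)
        (clear L hL hT h hlip hrange hper z hz hN0 hn hn2 hbc h1 this; linarith))
    (fun x => by simp only [hper x])
    ⟨z, by rw [intervalIntegral.integral_const_mul]; exact hz⟩
  refine ⟨W, n + W + 1, w, ?_, ?_, hw, ?_⟩
  · have : ε / 2 * N ≤ ε * N := by nlinarith only [hεN]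
    linarith only [hW]
  · push_cast
    linarith only [hεN, hn2, hW]
  · intro θ
    have hset : Finset.Ico (-(W : ℤ)) ((n + W + 1 : ℕ) : ℤ) = Finset.Icc (-(W : ℤ)) (n + W) := by
      ext k
      simp only [Finset.mem_Ico, Finset.mem_Icc]
      push_cast
      omega
    have hint : ∀ k : ℤ, ∫ t in (0 : ℝ)..1, e (N * (∫ s in (0 : ℝ)..t, b s) - k * t) =
        ∫ φ in (-(1 / 2) : ℝ)..(1 / 2), e ((∫ t in (0 : ℝ)..φ, (N : ℝ) * b t) - k * φ) := by
      intro k
      have hf : (fun t : ℝ => e (N * (∫ s in (0 : ℝ)..t, b s) - k * t)) =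
          fun φ : ℝ => e ((∫ t in (0 : ℝ)..φ, (N : ℝ) * b t) - k * φ) := by
        funext t
        rw [intervalIntegral.integral_const_mul]
      rw [hf]
      set f : ℝ → ℂ := fun φ : ℝ => e ((∫ t in (0 : ℝ)..φ, (N : ℝ) * b t) - k * φ) with hfdef
      have hfper : Function.Periodic f 1 := by
        intro x
        simp only [hfdef]
        have hi : ∀ u v : ℝ, IntervalIntegrable (fun t => (N : ℝ) * b t) MeasureTheory.volume u v :=
          fun u v => (hbc.const_mul (N : ℝ)).intervalIntegrable _ _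
        have h1 : (∫ t in (0 : ℝ)..(x + 1), (N : ℝ) * b t) =
            (∫ t in (0 : ℝ)..x, (N : ℝ) * b t) + ∫ t in x..(x + 1), (N : ℝ) * b t :=
          (intervalIntegral.integral_add_adjacent_intervals (hi _ _) (hi _ _)).symm
        have hbp : Function.Periodic (fun t => (N : ℝ) * b t) 1 := fun t => by simp only [hper t]
        have h2 : ∫ t in x..(x + 1), (N : ℝ) * b t = z := by
          rw [hbp.intervalIntegral_add_eq x 0, zero_add, intervalIntegral.integral_const_mul]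
          exact hz
        rw [h1, h2, show (∫ t in (0 : ℝ)..x, (N : ℝ) * b t) + (z : ℝ) - k * (x + 1) =
          ((∫ t in (0 : ℝ)..x, (N : ℝ) * b t) - k * x) + ((z - k : ℤ) : ℝ) by push_cast; ring,
          e_add_int]
      have h3 := hfper.intervalIntegral_add_eq 0 (-(1 / 2))
      rw [zero_add] at h3
      rw [h3]
      congr 1
      norm_num
    rw [hset]
    have h4 := hmain θ
    rw [intervalIntegral.integral_const_mul] at h4
    simp only [hint]
    exact h4

end Vale.Agent.P110.AT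
end
end

section

section

open AddMonoidAlgebra Finset

namespace Vale.Agent.P110.TrigF

/-- unit vector -/
def uv (e : ℕ) (j : ℕ) : Fin e → ℤ := fun i => if (i : ℕ) = j then 1 else 0

noncomputable def Hp (e j : ℕ) : AddMonoidAlgebra ℝ (Fin e → ℤ) :=
  single (uv e j) 1 + single (- uv e j) 1

noncomputable def Fp (e : ℕ) : ℕ → AddMonoidAlgebra ℝ (Fin e → ℤ)
  | 0 => 0
  | j + 1 => Fp e j + (1 / 4 : ℝ) • ((1 - Fp e j * Fp e j) * Hp e j)

variable {e : ℕ}

def Low (j : ℕ) (P : AddMonoidAlgebra ℝ (Fin e → ℤ)) : Prop :=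
  ∀ χ, P.coeff χ ≠ 0 → ∀ i : Fin e, j ≤ (i : ℕ) → χ i = 0

lemma Low.mul {j : ℕ} {P Q : AddMonoidAlgebra ℝ (Fin e → ℤ)} (hP : Low j P) (hQ : Low j Q) :
    Low j (P * Q) := by
  classical
  intro χ hχ i hi
  have h1 : χ ∈ (P * Q).coeff.support := by simpa only [Finsupp.mem_support_iff, ne_eq] using hχ
  have h2 := support_coeff_mul_subset P Q h1
  rw [Finset.mem_add] at h2
  obtain ⟨a, ha, b, hb, rfl⟩ := h2
  have h3 := hP a (by simpa only [ne_eq, Finsupp.mem_support_iff] using ha) i hi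
  have h4 := hQ b (by simpa only [ne_eq, Finsupp.mem_support_iff] using hb) i hi
  simp [h3, h4]

lemma Low.add {j : ℕ} {P Q : AddMonoidAlgebra ℝ (Fin e → ℤ)} (hP : Low j P) (hQ : Low j Q) :
    Low j (P + Q) := by
  intro χ hχ i hi
  by_cases h : P.coeff χ = 0
  · have : Q.coeff χ ≠ 0 := by
      intro h'
      apply hχ
      simp only [coeff_add, Finsupp.coe_add, Pi.add_apply, h, h', add_zero]
    exact hQ χ this i hi
  · exact hP χ h i hi

lemma Low.sub {j : ℕ} {P Q : AddMonoidAlgebra ℝ (Fin e → ℤ)} (hP : Low j P) (hQ : Low j Q) :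
    Low j (P - Q) := by
  intro χ hχ i hi
  by_cases h : P.coeff χ = 0
  · have : Q.coeff χ ≠ 0 := by
      intro h'
      apply hχ
      simp [h, h']
    exact hQ χ this i hi
  · exact hP χ h i hi

lemma Low.smul {j : ℕ} {P : AddMonoidAlgebra ℝ (Fin e → ℤ)} (hP : Low j P) (c : ℝ) :
    Low j (c • P) := by
  intro χ hχ i hi
  refine hP χ ?_ i hi
  intro h
  apply hχ
  simp [h]

lemma Low.one {j : ℕ} : Low j (1 : AddMonoidAlgebra ℝ (Fin e → ℤ)) := by
  classical
  intro χ hχ i hi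
  rw [AddMonoidAlgebra.one_def, AddMonoidAlgebra.coeff_single, Finsupp.single_apply] at hχ
  by_cases h : (0 : Fin e → ℤ) = χ
  · subst h
    rfl
  · simp [h] at hχ

lemma Low.mono {j k : ℕ} (h : j ≤ k) {P : AddMonoidAlgebra ℝ (Fin e → ℤ)} (hP : Low j P) :
    Low k P := fun χ hχ i hi => hP χ hχ i (h.trans hi)

lemma Low.Hp (j : ℕ) : Low (j + 1) (Hp e j) := by
  classical
  intro χ hχ i hi
  rw [TrigF.Hp, AddMonoidAlgebra.coeff_add, Finsupp.add_apply, AddMonoidAlgebra.coeff_single,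
    AddMonoidAlgebra.coeff_single, Finsupp.single_apply, Finsupp.single_apply] at hχ
  by_cases h : uv e j = χ
  · subst h
    have : (i : ℕ) ≠ j := by omega
    simp [uv, this]
  · by_cases h' : - uv e j = χ
    · subst h'
      have : (i : ℕ) ≠ j := by omega
      simp [uv, this]
    · simp [h, h'] at hχ

lemma low_Fp (j : ℕ) : Low j (Fp e j) := by
  induction j with
  | zero =>
    intro χ hχ
    simp only [Fp, coeff_zero, Finsupp.coe_zero, Pi.zero_apply, ne_eq, not_true_eq_false] at hχ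
  | succ j ih =>
    have ih' := ih.mono (Nat.le_succ j)
    exact ih'.add (((Low.one.sub (ih'.mul ih')).mul (Low.Hp j)).smul _)

/-- the last nonzero coordinate is one or minus one -/
lemma last_Fp (j : ℕ) (hj : j ≤ e) (χ : Fin e → ℤ) (hχ : (Fp e j).coeff χ ≠ 0) :
    ∃ m : Fin e, (χ m = 1 ∨ χ m = -1) ∧ ∀ i, m < i → χ i = 0 := by
  induction j with
  | zero => simp only [Fp, coeff_zero, Finsupp.coe_zero, Pi.zero_apply, ne_eq, not_true_eq_false] at hχ
  | succ j ih =>
    by_cases h : (Fp e j).coeff χ = 0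
    · have h1 : ((1 - Fp e j * Fp e j) * Hp e j).coeff χ ≠ 0 := by
        intro h'
        apply hχ
        simp only [Fp, one_div, coeff_add, coeff_smul, Finsupp.coe_add, Finsupp.coe_smul, Pi.add_apply, h, Pi.smul_apply, h', smul_eq_mul, mul_zero, add_zero]
      have hlow : Low j (1 - Fp e j * Fp e j) := Low.one.sub ((low_Fp j).mul (low_Fp j))
      rw [Hp, mul_add, AddMonoidAlgebra.coeff_add, Finsupp.add_apply,
        coeff_mul_single_apply, coeff_mul_single_apply, mul_one, mul_one] at h1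
      let m : Fin e := ⟨j, by omega⟩
      have key : ∀ σ : Fin e → ℤ, (1 - Fp e j * Fp e j).coeff (χ + - σ) ≠ 0 →
          (∀ i : Fin e, i ≠ m → σ i = 0) → χ m = σ m ∧ ∀ i, m < i → χ i = 0 := by
        intro σ hσ hσ0
        have h2 := hlow _ hσ
        refine ⟨?_, ?_⟩
        · have := h2 m le_rfl
          simp only [Pi.add_apply, Pi.neg_apply] at this
          omega
        · intro i hi
          have h3 := h2 i (le_of_lt hi)
          have h4 := hσ0 i (ne_of_gt hi)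
          simp only [Pi.add_apply, Pi.neg_apply] at h3
          omega
      have huv : uv e j m = 1 := by simp [uv, m]
      have huv0 : ∀ i : Fin e, i ≠ m → uv e j i = 0 := by
        intro i hi
        have : (i : ℕ) ≠ j := by
          intro h
          apply hi
          ext
          exact h
        simp [uv, this]
      by_cases ha : (1 - Fp e j * Fp e j).coeff (χ + - uv e j) = 0
      · rw [ha, zero_add] at h1
        obtain ⟨h5, h6⟩ := key (- uv e j) h1 (by
          intro i hi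
          simp [huv0 i hi])
        refine ⟨m, Or.inr ?_, h6⟩
        rw [h5]
        simp [huv]
      · obtain ⟨h5, h6⟩ := key (uv e j) ha huv0
        refine ⟨m, Or.inl ?_, h6⟩
        rw [h5, huv]
    · exact ih (by omega) h

/-- symmetry -/
def Sym (P : AddMonoidAlgebra ℝ (Fin e → ℤ)) : Prop :=
  domCongr ℝ ℝ (AddEquiv.neg (Fin e → ℤ)) P = P

lemma Sym.coeff {P : AddMonoidAlgebra ℝ (Fin e → ℤ)} (h : Sym P) (χ : Fin e → ℤ) :
    P.coeff (-χ) = P.coeff χ := by
  have h1 : (domCongr ℝ ℝ (AddEquiv.neg (Fin e → ℤ)) P).coeff χ = P.coeff χ := by rw [h]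
  rw [coeff_domCongr] at h1
  exact h1

lemma sym_Hp (j : ℕ) : Sym (Hp e j) := by
  unfold Sym Hp
  rw [map_add, domCongr_single, domCongr_single]
  simp only [AddEquiv.neg_apply, neg_neg, add_comm]

lemma sym_Fp (j : ℕ) : Sym (Fp e j) := by
  induction j with
  | zero => simp [Fp, Sym]
  | succ j ih =>
    unfold Sym at *
    have h := sym_Hp (e := e) j
    unfold Sym at h
    rw [Fp, map_add, map_smul, map_mul, map_sub, map_mul, map_one, ih, h]

/-- mean of the square -/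
noncomputable def mass (P : AddMonoidAlgebra ℝ (Fin e → ℤ)) : ℝ := (P * P).coeff 0

lemma mass_eq {P : AddMonoidAlgebra ℝ (Fin e → ℤ)} (h : Sym P) :
    mass P = ∑ χ ∈ P.coeff.support, P.coeff χ ^ 2 := by
  unfold mass
  rw [coeff_mul_apply_left]
  rw [Finsupp.sum]
  apply Finset.sum_congr rfl
  intro χ _
  rw [add_zero, h.coeff, sq]

lemma sq_le_mass {P : AddMonoidAlgebra ℝ (Fin e → ℤ)} (h : Sym P) :
    P.coeff 0 ^ 2 ≤ mass P := by
  rw [mass_eq h]
  by_cases h0 : (0 : Fin e → ℤ) ∈ P.coeff.support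
  · exact Finset.single_le_sum (f := fun χ => P.coeff χ ^ 2) (fun χ _ => sq_nonneg _) h0
  · have : P.coeff 0 = 0 := by simpa only [Finsupp.mem_support_iff, ne_eq, Decidable.not_not] using h0
    rw [this]
    simpa only [ne_eq, OfNat.ofNat_ne_zero, not_false_eq_true, zero_pow, ge_iff_le] using     Finset.sum_nonneg (fun χ _ => sq_nonneg (P.coeff χ))

lemma coeff_eq_zero_of_low {j : ℕ} (hj : j < e) {P : AddMonoidAlgebra ℝ (Fin e → ℤ)}
    (hP : Low j P) (χ : Fin e → ℤ) (hχ : χ ⟨j, hj⟩ ≠ 0) : P.coeff χ = 0 := by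
  by_contra h
  exact hχ (hP χ h ⟨j, hj⟩ le_rfl)

lemma mass_step (j : ℕ) (hj : j < e) :
    mass (Fp e (j + 1)) = mass (Fp e j) + (1 / 8) * mass (1 - Fp e j * Fp e j) := by
  set A := Fp e j with hA
  set P := 1 - A * A with hP
  have hAl : Low j A := low_Fp j
  have hPl : Low j P := Low.one.sub (hAl.mul hAl)
  have e1 : Fp e (j + 1) * Fp e (j + 1)
      = A * A + (1 / 2 : ℝ) • ((A * P) * Hp e j)
        + (1 / 16 : ℝ) • ((P * P) * (Hp e j * Hp e j)) := by
    have : Fp e (j + 1) = A + (1 / 4 : ℝ) • (P * Hp e j) := rfl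
    rw [this]
    rw [add_mul, mul_add, mul_add, smul_mul_assoc, smul_mul_smul_comm, mul_smul_comm]
    have h1 : A * (P * Hp e j) = (A * P) * Hp e j := by ring
    have h2 : P * Hp e j * A = (A * P) * Hp e j := by ring
    have h3 : P * Hp e j * (P * Hp e j) = (P * P) * (Hp e j * Hp e j) := by ring
    rw [h1, h2, h3]
    module
  have hH : Hp e j * Hp e j = single (uv e j + uv e j) 1 + (2 : ℝ) • 1
      + single (- uv e j + - uv e j) 1 := by
    unfold Hp
    rw [add_mul, mul_add, mul_add, single_mul_single, single_mul_single, single_mul_single,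
      single_mul_single, AddMonoidAlgebra.one_def]
    simp only [mul_one, add_neg_cancel, neg_add_cancel]
    module
  have huv : uv e j ⟨j, hj⟩ = 1 := by simp [uv]
  unfold mass
  rw [e1, hH]
  simp only [AddMonoidAlgebra.coeff_add, Finsupp.add_apply, mul_add, Hp,
    coeff_smul_apply, coeff_mul_single_apply, mul_smul_comm, mul_one, smul_eq_mul]
  have z1 : ∀ σ : Fin e → ℤ, σ ⟨j, hj⟩ ≠ 0 → (A * P).coeff σ = 0 :=
    fun σ h => coeff_eq_zero_of_low hj (hAl.mul hPl) σ h
  have z2 : ∀ σ : Fin e → ℤ, σ ⟨j, hj⟩ ≠ 0 → (P * P).coeff σ = 0 :=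
    fun σ h => coeff_eq_zero_of_low hj (hPl.mul hPl) σ h
  rw [z1 (0 + - uv e j) (by simp [huv]), z1 (0 + - - uv e j) (by simp only [neg_neg, Pi.add_apply, Pi.zero_apply, huv, zero_add, ne_eq, one_ne_zero, not_false_eq_true]),
    z2 (0 + - (uv e j + uv e j)) (by simp [huv]),
    z2 (0 + - (- uv e j + - uv e j)) (by simp [huv])]
  ring

lemma mass_growth (j : ℕ) (hj : j < e) :
    mass (Fp e j) + (1 / 8) * (1 - mass (Fp e j)) ^ 2 ≤ mass (Fp e (j + 1)) := by
  rw [mass_step j hj]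
  have hs : Sym (1 - Fp e j * Fp e j) := by
    have h := sym_Fp (e := e) j
    unfold Sym at *
    rw [map_sub, map_mul, map_one, h]
  have h1 := sq_le_mass hs
  have h2 : (1 - Fp e j * Fp e j).coeff 0 = 1 - mass (Fp e j) := by
    rw [AddMonoidAlgebra.coeff_sub, Finsupp.sub_apply, AddMonoidAlgebra.coeff_one_zero]
    rfl
  rw [h2] at h1
  linarith only [h1]

lemma mass_lower (ε : ℝ) (hε : 0 < ε) (j : ℕ) (hj : j ≤ e) :
    min (1 - ε) (j * (ε ^ 2 / 8)) ≤ mass (Fp e j) := by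
  induction j with
  | zero =>
    simp only [CharP.cast_eq_zero, zero_mul, mass, Fp, mul_zero, coeff_zero, Finsupp.coe_zero, Pi.zero_apply, inf_le_right]
  | succ j ih =>
    have ih := ih (by omega)
    have hg := mass_growth j (show j < e by omega)
    by_cases h : 1 - ε ≤ mass (Fp e j)
    · refine (min_le_left _ _).trans (h.trans ?_)
      nlinarith only [hg]
    · push Not at h
      have h1 : (j : ℝ) * (ε ^ 2 / 8) ≤ mass (Fp e j) := by
        rcases min_le_iff.mp ih with h' | h'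
        · linarith only [h, h']
        · exact h'
      refine (min_le_right _ _).trans ?_
      push_cast
      nlinarith only [hg, h1, hε, h]

/-- evaluation -/
noncomputable def charHom (x : Fin e → ℝ) : Multiplicative (Fin e → ℤ) →* ℂ where
  toFun χ := Complex.exp (2 * Real.pi * Complex.I * ((∑ i, (Multiplicative.toAdd χ i : ℝ) * x i : ℝ) : ℂ))
  map_one' := by simp
  map_mul' a b := by
    rw [← Complex.exp_add]
    congr 1
    push_cast
    simp only [toAdd_mul, Pi.add_apply, Int.cast_add, add_mul, Finset.sum_add_distrib]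
    ring

noncomputable def ev (x : Fin e → ℝ) : AddMonoidAlgebra ℝ (Fin e → ℤ) →ₐ[ℝ] ℂ :=
  AddMonoidAlgebra.lift ℝ ℂ (Fin e → ℤ) (charHom x)

noncomputable def fr (x : ℕ → ℝ) : ℕ → ℝ
  | 0 => 0
  | j + 1 => fr x j + (1 / 2) * (1 - fr x j ^ 2) * Real.cos (2 * Real.pi * x j)

lemma abs_fr_le (x : ℕ → ℝ) (j : ℕ) : |fr x j| ≤ 1 := by
  induction j with
  | zero => simp only [fr, abs_zero, zero_le_one]
  | succ j ih =>
    have h1 := abs_le.mp ih
    have hc := Real.abs_cos_le_one (2 * Real.pi * x j)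
    have hc' := abs_le.mp hc
    rw [fr, abs_le]
    have h2 : 0 ≤ 1 - fr x j ^ 2 := by nlinarith only [h1]
    constructor
    · nlinarith [mul_nonneg h2 (show (0:ℝ) ≤ 1 + Real.cos (2 * Real.pi * x j) by linarith),
        mul_nonneg (show (0:ℝ) ≤ 1 + fr x j by linarith) (show (0:ℝ) ≤ 1 + fr x j by linarith)]
    · nlinarith only [h2, hc', mul_nonneg (show (0:ℝ) ≤ 1 - fr x j by linarith) (show (0:ℝ) ≤ 1 - fr x j by linarith)]

lemma sum_uv (x : Fin e → ℝ) (j : ℕ) (hj : j < e) :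
    (∑ i, (uv e j i : ℝ) * x i) = x ⟨j, hj⟩ := by
  rw [Finset.sum_eq_single ⟨j, hj⟩]
  · simp [uv]
  · intro b _ hb
    have : (b : ℕ) ≠ j := by
      intro h
      apply hb
      ext
      exact h
    simp [uv, this]
  · simp only [mem_univ, not_true_eq_false, mul_eq_zero, Int.cast_eq_zero, IsEmpty.forall_iff]

lemma ev_Hp (x : ℕ → ℝ) (j : ℕ) (hj : j < e) :
    ev (fun i : Fin e => x i) (Hp e j) = ((2 * Real.cos (2 * Real.pi * x j) : ℝ) : ℂ) := by
  unfold ev Hp
  rw [map_add, lift_single, lift_single]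
  simp only [charHom, MonoidHom.coe_mk, OneHom.coe_mk, toAdd_ofAdd, one_smul, Pi.neg_apply, Int.cast_neg, neg_mul, sum_neg_distrib]
  rw [sum_uv (fun i : Fin e => x i) j hj]
  push_cast
  rw [Complex.two_cos]
  congr 1
  · congr 1
    ring
  · congr 1
    ring

lemma ev_Fp (x : ℕ → ℝ) (j : ℕ) (hj : j ≤ e) :
    ev (fun i : Fin e => x i) (Fp e j) = ((fr x j : ℝ) : ℂ) := by
  induction j with
  | zero => simp [Fp, fr]
  | succ j ih =>
    have ih := ih (by omega)
    rw [Fp, map_add, map_smul, map_mul, map_sub, map_mul, map_one, ih,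
      ev_Hp x j (by omega), fr, Complex.real_smul]
    push_cast
    ring

lemma ev_eq_sum (x : Fin e → ℝ) (P : AddMonoidAlgebra ℝ (Fin e → ℤ)) :
    (ev x P).re = ∑ χ ∈ P.coeff.support,
      P.coeff χ * Real.cos (2 * Real.pi * ∑ i, (χ i : ℝ) * x i) := by
  unfold ev
  rw [lift_apply, Finsupp.sum, Complex.re_sum]
  apply Finset.sum_congr rfl
  intro χ _
  rw [Complex.real_smul, Complex.re_ofReal_mul]
  congr 1
  simp only [charHom, MonoidHom.coe_mk, OneHom.coe_mk, toAdd_ofAdd]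
  have : (2 * (Real.pi : ℂ) * Complex.I * ((∑ i, (χ i : ℝ) * x i : ℝ) : ℂ))
      = ((2 * Real.pi * ∑ i, (χ i : ℝ) * x i : ℝ) : ℂ) * Complex.I := by
    push_cast
    ring
  rw [this, Complex.exp_ofReal_mul_I_re]

/-- last nonzero coordinate equal to one -/
def Pos (χ : Fin e → ℤ) : Prop := ∃ m : Fin e, χ m = 1 ∧ ∀ i, m < i → χ i = 0

lemma not_pos_neg {χ : Fin e → ℤ} (h : Pos χ) : ¬ Pos (-χ) := by
  rintro ⟨m', h1', h2'⟩
  obtain ⟨m, h1, h2⟩ := h
  simp only [Pi.neg_apply] at h1' h2'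
  rcases lt_trichotomy m m' with hlt | heq | hgt
  · have := h2 m' hlt
    omega
  · subst heq
    omega
  · have := h2' m hgt
    omega

lemma pos_or_neg (j : ℕ) (hj : j ≤ e) (χ : Fin e → ℤ) (hχ : (Fp e j).coeff χ ≠ 0) :
    Pos χ ∨ Pos (-χ) := by
  obtain ⟨m, h1 | h1, h2⟩ := last_Fp j hj χ hχ
  · exact Or.inl ⟨m, h1, h2⟩
  · exact Or.inr ⟨m, by simp [h1], fun i hi => by simp [h2 i hi]⟩

open Classical in
lemma sum_half (j : ℕ) (hj : j ≤ e) (f : (Fin e → ℤ) → ℝ) (hf : ∀ χ, f (-χ) = f χ) :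
    ∑ χ ∈ (Fp e j).coeff.support, f χ
      = 2 * ∑ χ ∈ (Fp e j).coeff.support.filter Pos, f χ := by
  rw [← Finset.sum_filter_add_sum_filter_not _ Pos, two_mul]
  congr 1
  refine Finset.sum_nbij' (fun χ => -χ) (fun χ => -χ) ?_ ?_ ?_ ?_ ?_
  · intro χ hχ
    rw [Finset.mem_filter, Finsupp.mem_support_iff] at *
    refine ⟨by rw [(sym_Fp j).coeff]; exact hχ.1, ?_⟩
    rcases pos_or_neg j hj χ hχ.1 with h | h
    · exact absurd h hχ.2
    · exact h
  · intro χ hχ
    rw [Finset.mem_filter, Finsupp.mem_support_iff] at *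
    refine ⟨by rw [(sym_Fp j).coeff]; exact hχ.1, not_pos_neg hχ.2⟩
  · intro χ _
    simp
  · intro χ _
    simp
  · intro χ _
    exact (hf χ).symm

theorem exists_F (ε : ℝ) (hε : 0 < ε) :
    ∃ (e : ℕ) (S : Finset (Fin e → ℤ)) (a : (Fin e → ℤ) → ℝ), 2 ≤ e ∧
      (∀ χ ∈ S, a χ ≠ 0) ∧
      (∀ χ ∈ S, ∃ m : Fin e, χ m = 1 ∧ ∀ i, m < i → χ i = 0) ∧
      (∀ x : Fin e → ℝ, |∑ χ ∈ S, a χ * Real.cos (2 * Real.pi * ∑ i, (χ i : ℝ) * x i)| ≤ 1) ∧
      1 - ε ≤ (1 / 2) * ∑ χ ∈ S, a χ ^ 2 := by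
  classical
  obtain ⟨e0, he0⟩ := exists_nat_ge (1 / (ε ^ 2 / 8))
  let e := e0 + 2
  refine ⟨e, (Fp e e).coeff.support.filter Pos, fun χ => 2 * (Fp e e).coeff χ, by omega,
    ?_, ?_, ?_, ?_⟩
  · intro χ hχ
    rw [Finset.mem_filter, Finsupp.mem_support_iff] at hχ
    simpa only [ne_eq, mul_eq_zero, OfNat.ofNat_ne_zero, false_or] using hχ.1
  · intro χ hχ
    rw [Finset.mem_filter] at hχ
    exact hχ.2
  · intro x
    have h1 : ∑ χ ∈ (Fp e e).coeff.support.filter Pos,
        2 * (Fp e e).coeff χ * Real.cos (2 * Real.pi * ∑ i, (χ i : ℝ) * x i)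
        = (ev x (Fp e e)).re := by
      rw [ev_eq_sum, sum_half e le_rfl (fun χ => (Fp e e).coeff χ
        * Real.cos (2 * Real.pi * ∑ i, (χ i : ℝ) * x i)), Finset.mul_sum]
      · apply Finset.sum_congr rfl
        intro χ _
        ring
      · intro χ
        rw [(sym_Fp e).coeff]
        congr 1
        rw [← Real.cos_neg]
        congr 1
        simp only [Pi.neg_apply, Int.cast_neg, neg_mul, sum_neg_distrib, mul_neg, neg_neg]
    rw [h1]
    let y : ℕ → ℝ := fun n => if h : n < e then x ⟨n, h⟩ else 0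
    have hy : x = fun i : Fin e => y i := by
      funext i
      simp [y]
    rw [hy, ev_Fp y e le_rfl, Complex.ofReal_re]
    exact abs_fr_le y e
  · have h1 : (1 / 2) * ∑ χ ∈ (Fp e e).coeff.support.filter Pos, (2 * (Fp e e).coeff χ) ^ 2
        = mass (Fp e e) := by
      rw [mass_eq (sym_Fp e), sum_half e le_rfl (fun χ => (Fp e e).coeff χ ^ 2)]
      · rw [Finset.mul_sum, Finset.mul_sum]
        apply Finset.sum_congr rfl
        intro χ _
        ring
      · intro χ
        rw [(sym_Fp e).coeff]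
    rw [h1]
    refine le_trans ?_ (mass_lower ε hε e le_rfl)
    refine le_min le_rfl ?_
    have h2 : 0 < ε ^ 2 / 8 := by positivity
    have h3 : 1 ≤ (e0 : ℝ) * (ε ^ 2 / 8) := by
      rw [div_le_iff₀ h2] at he0
      exact he0
    have h4 : ((e : ℕ) : ℝ) = e0 + 2 := by simp only [Nat.cast_add, Nat.cast_ofNat, e]
    rw [h4]
    nlinarith only [hε, h3]

end Vale.Agent.P110.TrigF
end
end

section

section

/-! P110, rounding module: partial colouring by pigeonhole with fourth moments. -/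

namespace Vale.Agent.P110.RT

open Finset

/-- sign of a Boolean -/
def sg (b : Bool) : ℝ := if b then 1 else -1

theorem sg_not (b : Bool) : sg (!b) = - sg b := by cases b <;> simp [sg]

theorem sg_sq (b : Bool) : sg b ^ 2 = 1 := by cases b <;> simp only [sg, Bool.false_eq_true, ↓reduceIte, even_two, Even.neg_pow, one_pow]

theorem sg_abs (b : Bool) : |sg b| = 1 := by cases b <;> simp [sg]

section Moments

variable {ι : Type*} [Fintype ι] [DecidableEq ι]

/-- flip one coordinate -/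
def flipAt (i : ι) : Equiv.Perm (ι → Bool) :=
  Function.Involutive.toPerm (fun e => Function.update e i (!(e i))) (by
    intro e
    ext j
    by_cases h : j = i
    · subst h; simp
    · simp [h])

theorem flipAt_same (i : ι) (e : ι → Bool) : flipAt i e i = !(e i) := by
  simp [flipAt, Function.Involutive.toPerm]

theorem flipAt_ne (i j : ι) (h : j ≠ i) (e : ι → Bool) : flipAt i e j = e j := by
  simp [flipAt, Function.Involutive.toPerm, h]

theorem moments (a : ι → ℝ) (T : Finset ι) :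
    (∑ e : ι → Bool, (∑ i ∈ T, sg (e i) * a i) ^ 2
      = 2 ^ Fintype.card ι * ∑ i ∈ T, a i ^ 2) ∧
    (∑ e : ι → Bool, (∑ i ∈ T, sg (e i) * a i) ^ 4
      ≤ 3 * 2 ^ Fintype.card ι * (∑ i ∈ T, a i ^ 2) ^ 2) := by
  classical
  have hcard : (∑ _e : ι → Bool, (1 : ℝ)) = 2 ^ Fintype.card ι := by
    simp only [sum_const, card_univ, Fintype.card_pi, Fintype.card_bool, prod_const, nsmul_eq_mul, Nat.cast_pow, Nat.cast_ofNat, mul_one]
  induction T using Finset.induction_on with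
  | empty => simp only [sum_empty, ne_eq, OfNat.ofNat_ne_zero, not_false_eq_true, zero_pow, sum_const_zero, mul_zero, Std.le_refl, and_self]
  | insert i T hi ih =>
    obtain ⟨ih2, ih4⟩ := ih
    set S : (ι → Bool) → ℝ := fun e => ∑ j ∈ T, sg (e j) * a j with hS
    have hSf : ∀ e, S (flipAt i e) = S e := by
      intro e
      refine Finset.sum_congr rfl fun j hj => ?_
      rw [flipAt_ne i j (fun h => hi (h ▸ hj))]
    have hins : ∀ e : ι → Bool, ∑ j ∈ insert i T, sg (e j) * a j = sg (e i) * a i + S e :=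
      fun e => Finset.sum_insert hi
    have h2 : ∑ e : ι → Bool, (sg (e i) * a i + S e) ^ 2
        = ∑ e : ι → Bool, (a i ^ 2 + S e ^ 2) := by
      have h := Equiv.sum_comp (flipAt i) (fun e : ι → Bool => (sg (e i) * a i + S e) ^ 2)
      have hh : 2 * ∑ e : ι → Bool, (sg (e i) * a i + S e) ^ 2
          = 2 * ∑ e : ι → Bool, (a i ^ 2 + S e ^ 2) := by
        rw [two_mul]
        nth_rewrite 1 [← h]
        rw [← Finset.sum_add_distrib, Finset.mul_sum]
        refine Finset.sum_congr rfl fun e _ => ?_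
        simp only [flipAt_same, sg_not, hSf]
        have := sg_sq (e i)
        linear_combination (2 * a i ^ 2) * this
      linarith only [hh]
    have h4 : ∑ e : ι → Bool, (sg (e i) * a i + S e) ^ 4
        = ∑ e : ι → Bool, (a i ^ 4 + 6 * a i ^ 2 * S e ^ 2 + S e ^ 4) := by
      have h := Equiv.sum_comp (flipAt i) (fun e : ι → Bool => (sg (e i) * a i + S e) ^ 4)
      have hh : 2 * ∑ e : ι → Bool, (sg (e i) * a i + S e) ^ 4
          = 2 * ∑ e : ι → Bool, (a i ^ 4 + 6 * a i ^ 2 * S e ^ 2 + S e ^ 4) := by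
        rw [two_mul]
        nth_rewrite 1 [← h]
        rw [← Finset.sum_add_distrib, Finset.mul_sum]
        refine Finset.sum_congr rfl fun e _ => ?_
        simp only [flipAt_same, sg_not, hSf]
        have := sg_sq (e i)
        have h4 : sg (e i) ^ 4 = 1 := by
          rw [show (4 : ℕ) = 2 * 2 from rfl, pow_mul, this, one_pow]
        linear_combination (2 * a i ^ 4) * h4 + (12 * a i ^ 2 * S e ^ 2) * this
      linarith only [hh]
    constructor
    · simp only [hins]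
      rw [h2, Finset.sum_add_distrib, ih2, Finset.sum_insert hi, Finset.sum_const, Finset.card_univ,
        Fintype.card_fun, Fintype.card_bool]
      simp only [nsmul_eq_mul, Nat.cast_pow, Nat.cast_ofNat]
      ring
    · simp only [hins]
      rw [h4, Finset.sum_add_distrib, Finset.sum_add_distrib, ← Finset.mul_sum, ih2,
        Finset.sum_insert hi, Finset.sum_const, Finset.card_univ, Fintype.card_fun,
        Fintype.card_bool]
      simp only [nsmul_eq_mul, Nat.cast_pow, Nat.cast_ofNat]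
      have hp : (0 : ℝ) < 2 ^ Fintype.card ι := by positivity
      have hQ : 0 ≤ ∑ j ∈ T, a j ^ 2 := Finset.sum_nonneg fun j _ => sq_nonneg _
      nlinarith only [ih4, mul_nonneg hp.le (pow_nonneg (sq_nonneg (a i)) 2)]

/-- generating function of the Hamming distance -/
theorem sum_pow_hamming (t : ℝ) (e₀ : ι → Bool) :
    ∑ e : ι → Bool, ∏ i, (if e i = e₀ i then (1 : ℝ) else t) = (1 + t) ^ Fintype.card ι := by
  have h := Finset.prod_univ_sum (fun _ : ι => (Finset.univ : Finset Bool))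
    (fun i b => if b = e₀ i then (1 : ℝ) else t)
  rw [← Fintype.piFinset_univ, ← h, ← Finset.card_univ, ← Finset.prod_const]
  refine Finset.prod_congr rfl fun i _ => ?_
  cases h : e₀ i <;> simp [add_comm]

end Moments

section Cells

/-- one-variable generating function bound -/
theorem sum_geom_int (x : ℝ) (hx0 : 0 ≤ x) (hx : x ≤ 1 / 2) (R : ℕ) :
    ∑ i ∈ Finset.Icc (-(R : ℤ)) R, x ^ i.natAbs ≤ 1 + 4 * x - 4 * x * (if R = 0 then 1 else x ^ R) := by
  induction R with
  | zero => simp only [CharP.cast_eq_zero, neg_zero, Icc_self, sum_singleton, Int.natAbs_zero, pow_zero, ↓reduceIte, mul_one, add_sub_cancel_right, Std.le_refl]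
  | succ n ih =>
    have h1 : Finset.Icc (-((n + 1 : ℕ) : ℤ)) ((n + 1 : ℕ) : ℤ)
        = insert (-((n + 1 : ℕ) : ℤ)) (insert (((n + 1 : ℕ) : ℤ)) (Finset.Icc (-(n : ℤ)) n)) := by
      ext z
      simp only [Finset.mem_Icc, Finset.mem_insert]
      push_cast
      omega
    rw [h1, Finset.sum_insert, Finset.sum_insert]
    · have h2 : (-((n + 1 : ℕ) : ℤ)).natAbs = n + 1 := by omega
      have h3 : (((n + 1 : ℕ) : ℤ)).natAbs = n + 1 := by omega
      rw [h2, h3]
      have hxn : 0 ≤ x ^ n := pow_nonneg hx0 n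
      have hxn1 : x ^ (n + 1) = x * x ^ n := by ring
      simp only [Nat.succ_ne_zero, if_false]
      rcases Nat.eq_zero_or_pos n with rfl | hn
      · simp only [CharP.cast_eq_zero, neg_zero, Icc_self, sum_singleton, Int.natAbs_zero, pow_zero, ↓reduceIte, mul_one, add_sub_cancel_right, Std.le_refl, zero_add, pow_one, ge_iff_le] at ih ⊢
        nlinarith only [hx0, hx]
      · rw [if_neg (by omega)] at ih
        rw [hxn1]
        nlinarith only [ih, hx, mul_nonneg hx0 hxn]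
    · simp only [Finset.mem_Icc, not_and, not_le]
      intro _; push_cast; omega
    · simp only [Finset.mem_insert, Finset.mem_Icc, not_or, not_and, not_le]
      constructor
      · push_cast; omega
      · intro h; push_cast at h ⊢; omega

theorem sum_geom_int' (x : ℝ) (hx0 : 0 ≤ x) (hx : x ≤ 1 / 2) (R : ℕ) :
    ∑ i ∈ Finset.Icc (-(R : ℤ)) R, x ^ i.natAbs ≤ 1 + 4 * x := by
  have h := sum_geom_int x hx0 hx R
  have : 0 ≤ 4 * x * (if R = 0 then 1 else x ^ R) := by
    split_ifs <;> (clear * - hx0; positivity)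
  linarith only [h, this]

/-- counting integer vectors of bounded l1 norm -/
theorem card_cells {J : Type*} [Fintype J] [DecidableEq J] (B : Finset (J → ℤ)) (L : ℕ)
    (hB : ∀ b ∈ B, ∑ j, (b j).natAbs ≤ L) (x : ℝ) (hx0 : 0 < x) (hx : x ≤ 1 / 2) :
    (B.card : ℝ) * x ^ L ≤ Real.exp (4 * x * Fintype.card J) := by
  have h1 : (B.card : ℝ) * x ^ L ≤ ∑ b ∈ B, ∏ j, x ^ (b j).natAbs := by
    rw [← nsmul_eq_mul]
    refine Finset.card_nsmul_le_sum _ _ _ fun b hb => ?_
    rw [Finset.prod_pow_eq_pow_sum]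
    exact pow_le_pow_of_le_one hx0.le (by linarith only [hx]) (hB b hb)
  have h2 : ∑ b ∈ B, ∏ j, x ^ (b j).natAbs ≤
      ∑ b ∈ Fintype.piFinset (fun _ : J => Finset.Icc (-(L : ℤ)) L), ∏ j, x ^ (b j).natAbs := by
    refine Finset.sum_le_sum_of_subset_of_nonneg ?_ ?_
    · intro b hb
      rw [Fintype.mem_piFinset]
      intro j
      have h3 : (b j).natAbs ≤ L :=
        (Finset.single_le_sum (f := fun j => (b j).natAbs) (fun _ _ => Nat.zero_le _)
          (Finset.mem_univ j)).trans (hB b hb)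
      rw [Finset.mem_Icc]
      omega
    · intro b _ _
      exact Finset.prod_nonneg fun j _ => pow_nonneg hx0.le _
  have hp := Finset.prod_univ_sum (fun _ : J => Finset.Icc (-(L : ℤ)) L)
    (fun _ i => x ^ i.natAbs)
  rw [← hp] at h2
  have h3 : ∏ _j : J, ∑ i ∈ Finset.Icc (-(L : ℤ)) L, x ^ i.natAbs ≤ ∏ _j : J, Real.exp (4 * x) := by
    refine Finset.prod_le_prod (fun j _ => ?_) fun j _ => ?_
    · exact Finset.sum_nonneg fun i _ => pow_nonneg hx0.le _
    · refine (sum_geom_int' x hx0.le hx L).trans ?_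
      have := Real.add_one_le_exp (4 * x)
      linarith only [this]
  have h4 : ∏ _j : J, Real.exp (4 * x) = Real.exp (4 * x * Fintype.card J) := by
    rw [Finset.prod_const, ← Real.exp_nat_mul, Finset.card_univ]
    ring_nf
  calc (B.card : ℝ) * x ^ L ≤ _ := h1
    _ ≤ _ := h2
    _ ≤ _ := h3
    _ = _ := h4

end Cells

theorem natAbs_round_le (y : ℝ) : ((round y).natAbs : ℝ) ≤ (2 * y) ^ 4 := by
  have h0 : ((round y).natAbs : ℝ) = |(round y : ℝ)| := by
    rw [Nat.cast_natAbs, Int.cast_abs]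
  rw [h0]
  by_cases h : |y| < 1 / 2
  · have hr : round y = 0 := by
      rw [round_eq_zero_iff]
      rw [abs_lt] at h
      exact ⟨by linarith only [h], h.2⟩
    rw [hr]
    simp only [Int.cast_zero, abs_zero, ge_iff_le]
    (clear * -; positivity)
  · push Not at h
    have h1 : |(round y : ℝ)| ≤ |y| + 1 / 2 := by
      have := abs_sub_round y
      calc |(round y : ℝ)| = |y - (y - round y)| := by ring_nf
        _ ≤ |y| + |y - round y| := abs_sub _ _
        _ ≤ _ := by linarith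
    have h2 : |y| + 1 / 2 ≤ 2 * |y| := by linarith only [h]
    have h3 : (1 : ℝ) ≤ 2 * |y| := by linarith only [h]
    have h4 : 2 * |y| ≤ (2 * |y|) ^ 4 := by
      calc 2 * |y| = (2 * |y|) ^ 1 := by ring
        _ ≤ (2 * |y|) ^ 4 := pow_le_pow_right₀ h3 (by norm_num)
    have h5 : (2 * |y|) ^ 4 = (2 * y) ^ 4 := by
      rw [mul_pow, mul_pow, ← abs_pow]
      congr 1
      exact abs_of_nonneg (by (clear * -; positivity))
    linarith

theorem hamming_far {ι : Type*} [Fintype ι] [DecidableEq ι] (hm : 2 ≤ Fintype.card ι)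
    (F : Finset (ι → Bool)) (e₀ : ι → Bool)
    (hc : (2 : ℝ) ^ Fintype.card ι / 2 ≤ Real.exp (11 / 128 * (Fintype.card ι : ℝ)) * F.card) :
    ∃ e ∈ F, (Fintype.card ι : ℝ) ≤ 20 * (univ.filter (fun i => e i ≠ e₀ i)).card := by
  classical
  by_contra hcon
  push Not at hcon
  have h1 : (F.card : ℝ) * (9 / 10) ^ Fintype.card ι ≤ (1 + (9 / 10 : ℝ) ^ 20) ^ Fintype.card ι := by
    rw [← sum_pow_hamming _ e₀]
    refine le_trans ?_ (Finset.sum_le_sum_of_subset_of_nonneg (Finset.subset_univ F)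
      fun e _ _ => Finset.prod_nonneg fun i _ => by split_ifs <;> positivity)
    rw [← nsmul_eq_mul]
    refine Finset.card_nsmul_le_sum _ _ _ fun e he => ?_
    have h2 := hcon e he
    have h3 : 20 * (univ.filter (fun i => e i ≠ e₀ i)).card ≤ Fintype.card ι := by
      have : (20 * (univ.filter (fun i => e i ≠ e₀ i)).card : ℝ) < Fintype.card ι := h2
      exact_mod_cast this.le
    rw [Finset.prod_ite, Finset.prod_const_one, one_mul, Finset.prod_const, ← pow_mul]
    exact pow_le_pow_of_le_one (by norm_num) (by norm_num) h3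
  have h4 : (1 + (9 / 10 : ℝ) ^ 20) ≤ 1122 / 1000 := by norm_num
  have h5 : Real.exp (11 / 128) ≤ 1.0941 := by
    have h6 : (1 : ℝ) - 11 / 128 ≤ Real.exp (-(11 / 128)) := by
      have := Real.add_one_le_exp (-(11 / 128 : ℝ)); linarith only [this]
    have h7 : Real.exp (11 / 128) * Real.exp (-(11 / 128)) = 1 := by
      rw [← Real.exp_add]; simp
    have h8 := Real.exp_pos (11 / 128 : ℝ)
    nlinarith only [h7, h6]
  have h9 : Real.exp (11 / 128 * (Fintype.card ι : ℝ)) = Real.exp (11 / 128) ^ Fintype.card ι := by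
    rw [← Real.exp_nat_mul]; ring_nf
  rw [h9] at hc
  have h10 : (2 : ℝ) ^ Fintype.card ι / 2 * (9 / 10) ^ Fintype.card ι ≤
      (1.0941 * (1122 / 1000)) ^ Fintype.card ι := by
    calc (2 : ℝ) ^ Fintype.card ι / 2 * (9 / 10) ^ Fintype.card ι
        ≤ (Real.exp (11 / 128) ^ Fintype.card ι * F.card) * (9 / 10) ^ Fintype.card ι :=
          mul_le_mul_of_nonneg_right hc (by positivity)
      _ = Real.exp (11 / 128) ^ Fintype.card ι * (F.card * (9 / 10) ^ Fintype.card ι) := by ring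
      _ ≤ 1.0941 ^ Fintype.card ι * (1122 / 1000) ^ Fintype.card ι := by
          refine mul_le_mul (pow_le_pow_left₀ (Real.exp_pos _).le h5 _) (h1.trans ?_)
            (by (clear * -; positivity)) (by positivity)
          exact pow_le_pow_left₀ (by positivity) h4 _
      _ = _ := by rw [mul_pow]
  have h11 : ((2 * (9 / 10) : ℝ)) ^ Fintype.card ι / 2 ≤ (1.0941 * (1122 / 1000)) ^ Fintype.card ι := by
    rw [mul_pow]; linarith only [h10]
  have h13 : (1.46 * (1.0941 * (1122 / 1000)) : ℝ) ≤ 2 * (9 / 10) := by norm_num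
  have h14 : (1.46 : ℝ) ^ Fintype.card ι * (1.0941 * (1122 / 1000)) ^ Fintype.card ι ≤
      (2 * (9 / 10)) ^ Fintype.card ι := by
    rw [← mul_pow]; exact pow_le_pow_left₀ (by positivity) h13 _
  have h15 : (1.46 : ℝ) ^ 2 ≤ (1.46 : ℝ) ^ Fintype.card ι := pow_le_pow_right₀ (by norm_num) hm
  have h16 : (0 : ℝ) < (1.0941 * (1122 / 1000)) ^ Fintype.card ι := by positivity
  have h17 : (2 : ℝ) < 1.46 ^ 2 := by norm_num
  nlinarith only [h11, h14, h16, h15]

theorem exists_fiber {α β : Type*} [DecidableEq β] (G : Finset α) (b : α → β) (E P : ℝ)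
    (hP : 0 < P) (hE : 0 < E) (hB : ((G.image b).card : ℝ) ≤ E) (hG : P ≤ G.card) :
    ∃ c : β, P ≤ E * (G.filter (fun e => b e = c)).card := by
  classical
  by_contra hcon
  push Not at hcon
  have h1 : (G.card : ℝ) = ∑ c ∈ G.image b, ((G.filter (fun e => b e = c)).card : ℝ) := by
    exact_mod_cast Finset.card_eq_sum_card_image b G
  have hBne : (G.image b).Nonempty := by
    rw [Finset.image_nonempty, ← Finset.card_pos]
    have : (0 : ℝ) < G.card := lt_of_lt_of_le hP hG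
    exact_mod_cast this
  have h2 : E * (G.card : ℝ) < ∑ _c ∈ G.image b, P := by
    rw [h1, Finset.mul_sum]
    exact Finset.sum_lt_sum_of_nonempty hBne fun c _ => hcon c
  rw [Finset.sum_const, nsmul_eq_mul] at h2
  have h3 : ((G.image b).card : ℝ) * P ≤ E * (G.card : ℝ) :=
    mul_le_mul hB hG hP.le hE.le
  linarith only [h2, h3]

/-- sum over all sign patterns of the l1 norm of the rounded sums -/
theorem sum_round {ι J : Type*} [Fintype ι] [DecidableEq ι] [Fintype J]
    (v : J → ι → ℝ) (hv : ∀ j i, |v j i| ≤ 1) (lam : ℝ) (hlam0 : 0 < lam) :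
    ∑ e : ι → Bool, (((∑ j, (round ((∑ i, sg (e i) * v j i) / (2 * lam))).natAbs : ℕ)) : ℝ) ≤
      (Fintype.card J : ℝ) * (3 * 2 ^ Fintype.card ι * (Fintype.card ι : ℝ) ^ 2) / lam ^ 4 := by
  classical
  have h1 : ∀ e : ι → Bool, (((∑ j, (round ((∑ i, sg (e i) * v j i) / (2 * lam))).natAbs : ℕ)) : ℝ)
      ≤ ∑ j, (∑ i, sg (e i) * v j i) ^ 4 / lam ^ 4 := by
    intro e
    push_cast
    refine Finset.sum_le_sum fun j _ => ?_
    refine (natAbs_round_le _).trans (le_of_eq ?_)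
    field_simp
  refine (Finset.sum_le_sum fun e _ => h1 e).trans ?_
  rw [Finset.sum_comm]
  have h2 : ∀ j, ∑ e : ι → Bool, (∑ i, sg (e i) * v j i) ^ 4 / lam ^ 4 ≤
      (3 * 2 ^ Fintype.card ι * (Fintype.card ι : ℝ) ^ 2) / lam ^ 4 := by
    intro j
    rw [← Finset.sum_div]
    refine div_le_div_of_nonneg_right ?_ (by positivity)
    refine (moments (v j) univ).2.trans ?_
    have h3 : ∑ i, v j i ^ 2 ≤ (Fintype.card ι : ℝ) := by
      calc ∑ i, v j i ^ 2 ≤ ∑ _i : ι, (1 : ℝ) := Finset.sum_le_sum fun i _ => by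
            rw [← sq_abs]; exact pow_le_one₀ (abs_nonneg _) (hv j i)
        _ = (Fintype.card ι : ℝ) := by simp only [sum_const, card_univ, nsmul_eq_mul, mul_one]
    have h4 : 0 ≤ ∑ i, v j i ^ 2 := Finset.sum_nonneg fun _ _ => sq_nonneg _
    have : (∑ i, v j i ^ 2) ^ 2 ≤ (Fintype.card ι : ℝ) ^ 2 := pow_le_pow_left₀ h4 h3 2
    exact mul_le_mul_of_nonneg_left this (by positivity)
  refine (Finset.sum_le_sum fun j _ => h2 j).trans (le_of_eq ?_)
  rw [Finset.sum_const, Finset.card_univ, nsmul_eq_mul]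
  ring

/-- Markov -/
theorem good_card {ι : Type*} [Fintype ι] [DecidableEq ι] (f : (ι → Bool) → ℕ) (Lr : ℝ)
    (hLr0 : 0 < Lr) (hsum : ∑ e, (f e : ℝ) ≤ Lr * 2 ^ Fintype.card ι / 2) :
    (2 : ℝ) ^ Fintype.card ι / 2 ≤ (univ.filter (fun e => f e ≤ ⌊Lr⌋₊)).card := by
  classical
  have hcard2 : (Fintype.card (ι → Bool) : ℝ) = 2 ^ Fintype.card ι := by simp only [Fintype.card_pi, Fintype.card_bool, prod_const, card_univ, Nat.cast_pow, Nat.cast_ofNat]
  have h1 : ((univ.filter (fun e => ¬ f e ≤ ⌊Lr⌋₊)).card : ℝ) * Lr ≤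
      Lr * 2 ^ Fintype.card ι / 2 := by
    calc ((univ.filter (fun e => ¬ f e ≤ ⌊Lr⌋₊)).card : ℝ) * Lr
        ≤ ∑ e ∈ univ.filter (fun e => ¬ f e ≤ ⌊Lr⌋₊), (f e : ℝ) := by
          rw [← nsmul_eq_mul]
          refine Finset.card_nsmul_le_sum _ _ _ fun e he => ?_
          rw [Finset.mem_filter] at he
          have h2 := he.2
          push Not at h2
          exact ((Nat.floor_lt hLr0.le).1 h2).le
      _ ≤ ∑ e, (f e : ℝ) :=
          Finset.sum_le_sum_of_subset_of_nonneg (Finset.filter_subset _ _)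
            fun _ _ _ => Nat.cast_nonneg _
      _ ≤ _ := hsum
  have h2 : ((univ.filter (fun e => ¬ f e ≤ ⌊Lr⌋₊)).card : ℝ) ≤
      2 ^ Fintype.card ι / 2 := by
    rw [← mul_le_mul_iff_left₀ hLr0]
    linarith only [h1]
  have h3 : ((univ.filter (fun e => f e ≤ ⌊Lr⌋₊)).card : ℝ) +
      ((univ.filter (fun e => ¬ f e ≤ ⌊Lr⌋₊)).card : ℝ)
      = 2 ^ Fintype.card ι := by
    rw [← hcard2, ← Finset.card_univ]
    exact_mod_cast Finset.card_filter_add_card_filter_not
      (s := (univ : Finset (ι → Bool))) (fun e => f e ≤ ⌊Lr⌋₊)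
  linarith only [h2, h3]

/-- the cell count with the chosen parameters -/
theorem cells_bound (m M r Lr : ℝ) (L : ℕ) (J : Type*) [Fintype J] [DecidableEq J]
    (hM : M = Fintype.card J) (hm0 : 0 < m) (hmM : m ≤ M) (hr1 : 1 ≤ r) (hr2 : r ^ 2 = M / m)
    (hLr' : Lr = 6 / 4096 * (m / r)) (hL : L = ⌊Lr⌋₊) (B : Finset (J → ℤ))
    (hB : ∀ b ∈ B, ∑ j, (b j).natAbs ≤ L) : (B.card : ℝ) ≤ Real.exp (11 / 128 * m) := by
  have hM0 : 0 < M := by linarith only [hm0, hmM]
  have hr0 : 0 < r := by linarith only [hr1]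
  have hLr0 : 0 < Lr := by rw [hLr']; (clear * - hm0 hr1; positivity)
  set x : ℝ := m / (64 * M) with hx
  have hx0 : 0 < x := by positivity
  have hx1 : x ≤ 1 / 64 := by
    rw [hx, div_le_div_iff₀ (by positivity) (by norm_num)]
    nlinarith only [hmM]
  have h1 := card_cells B L hB x hx0 (by linarith only [hx1])
  have h2 : 4 * x * (Fintype.card J : ℝ) = m / 16 := by
    rw [hx, ← hM]; field_simp; norm_num
  rw [h2] at h1
  have h3 : Real.exp (-(3 / 128 * m)) ≤ x ^ L := by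
    have h4 : x = Real.exp (-(2 * Real.log (8 * r))) := by
      rw [Real.exp_neg, two_mul, Real.exp_add, Real.exp_log (by positivity)]
      have : 8 * r * (8 * r) = 64 * r ^ 2 := by ring
      rw [this, hr2, hx]
      (clear * - hM0 hm0; field_simp)
    rw [h4, ← Real.exp_nat_mul, Real.exp_le_exp]
    have h5 : (L : ℝ) ≤ Lr := by rw [hL]; exact Nat.floor_le hLr0.le
    have h6 : Real.log (8 * r) ≤ 8 * r := (Real.log_le_sub_one_of_pos (by positivity)).trans (by linarith only [])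
    have h7 : 0 ≤ Real.log (8 * r) := Real.log_nonneg (by linarith only [hr1])
    have h8 : (L : ℝ) * (2 * Real.log (8 * r)) ≤ Lr * (2 * (8 * r)) :=
      mul_le_mul h5 (by linarith only [h6]) (by linarith only [h7]) hLr0.le
    have h9 : Lr * (2 * (8 * r)) = 3 / 128 * m := by
      rw [hLr']; field_simp; norm_num
    linarith only [h8, h9]
  have h4 : (B.card : ℝ) * Real.exp (-(3 / 128 * m)) ≤ Real.exp (m / 16) :=
    (mul_le_mul_of_nonneg_left h3 (Nat.cast_nonneg _)).trans h1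
  have h5 : (B.card : ℝ) = (B.card : ℝ) * Real.exp (-(3 / 128 * m)) * Real.exp (3 / 128 * m) := by
    rw [mul_assoc, ← Real.exp_add]; simp only [neg_add_cancel, Real.exp_zero, mul_one]
  rw [h5]
  calc (B.card : ℝ) * Real.exp (-(3 / 128 * m)) * Real.exp (3 / 128 * m)
      ≤ Real.exp (m / 16) * Real.exp (3 / 128 * m) :=
        mul_le_mul_of_nonneg_right h4 (Real.exp_pos _).le
    _ = _ := by rw [← Real.exp_add]; ring_nf

theorem lam_pow (m M r : ℝ) (hm0 : 0 < m) (hM0 : 0 < M) (hr : r = Real.sqrt (M / m)) :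
    (8 * m ^ (1 / 8 : ℝ) * M ^ (3 / 8 : ℝ)) ^ 4 = 4096 * (M * m * r) := by
  have e1 : (m ^ (1 / 8 : ℝ)) ^ 4 = Real.sqrt m := by
    rw [← Real.rpow_natCast, ← Real.rpow_mul hm0.le, Real.sqrt_eq_rpow]
    norm_num
  have e2 : (M ^ (3 / 8 : ℝ)) ^ 4 = M * Real.sqrt M := by
    rw [← Real.rpow_natCast, ← Real.rpow_mul hM0.le, Real.sqrt_eq_rpow]
    rw [show (3 / 8 : ℝ) * ((4 : ℕ) : ℝ) = 1 + 1 / 2 by norm_num, Real.rpow_add hM0, Real.rpow_one]
  have e3 : m * r = Real.sqrt m * Real.sqrt M := by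
    rw [hr, Real.sqrt_div hM0.le]
    have hs : 0 < Real.sqrt m := Real.sqrt_pos.2 hm0
    field_simp
    nlinarith only [Real.mul_self_sqrt hm0.le]
  rw [mul_pow, mul_pow, e1, e2, mul_assoc M m r, e3]
  ring

theorem sg_cases (a b : Bool) : (sg a - sg b) / 2 = 0 ∨ (sg a - sg b) / 2 = 1 ∨
    (sg a - sg b) / 2 = -1 := by
  cases a <;> cases b <;> simp [sg] <;> norm_num

theorem sg_ne (a b : Bool) : (sg a - sg b) / 2 ≠ 0 ↔ a ≠ b := by
  cases a <;> cases b <;> simp [sg] <;> norm_num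

/-- partial colouring lemma -/
theorem partial_colouring {ι J : Type*} [Fintype ι] [DecidableEq ι] [Fintype J] [DecidableEq J]
    (v : J → ι → ℝ) (hv : ∀ j i, |v j i| ≤ 1) (hm : 2 ≤ Fintype.card ι)
    (hM : Fintype.card ι ≤ Fintype.card J) :
    ∃ χ : ι → ℝ, (∀ i, χ i = 0 ∨ χ i = 1 ∨ χ i = -1) ∧
      (Fintype.card ι : ℝ) ≤ 20 * (univ.filter (fun i => χ i ≠ 0)).card ∧
      ∀ j, |∑ i, χ i * v j i| ≤
        8 * (Fintype.card ι : ℝ) ^ (1 / 8 : ℝ) * (Fintype.card J : ℝ) ^ (3 / 8 : ℝ) := by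
  classical
  have hm2 : (2 : ℝ) ≤ (Fintype.card ι : ℝ) := by exact_mod_cast hm
  have hmM : (Fintype.card ι : ℝ) ≤ (Fintype.card J : ℝ) := by exact_mod_cast hM
  obtain ⟨m, hmdef⟩ : ∃ m : ℝ, m = (Fintype.card ι : ℝ) := ⟨_, rfl⟩
  obtain ⟨M, hMdef⟩ : ∃ M : ℝ, M = (Fintype.card J : ℝ) := ⟨_, rfl⟩
  rw [← hmdef, ← hMdef] at hmM
  rw [← hmdef] at hm2
  have hm0 : 0 < m := by linarith only [hm2]
  have hM0 : 0 < M := by linarith only [hm2, hmM]
  obtain ⟨r, hr⟩ : ∃ r : ℝ, r = Real.sqrt (M / m) := ⟨_, rfl⟩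
  have hr1 : 1 ≤ r := by
    rw [hr]
    rw [Real.one_le_sqrt]
    rw [le_div_iff₀ hm0]; linarith only [hmM]
  have hr0 : 0 < r := by linarith only [hr1]
  have hr2 : r ^ 2 = M / m := by rw [hr]; exact Real.sq_sqrt (by (clear * - hM0 hm2; positivity))
  have hlam4 := lam_pow m M r hm0 hM0 hr
  have hlam0 : 0 < 8 * m ^ (1 / 8 : ℝ) * M ^ (3 / 8 : ℝ) := by positivity
  rw [← hmdef, ← hMdef]
  generalize hlam : 8 * m ^ (1 / 8 : ℝ) * M ^ (3 / 8 : ℝ) = lam at hlam4 hlam0 ⊢
  have hsum := sum_round v hv lam hlam0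
  obtain ⟨Lr, hLr⟩ : ∃ Lr : ℝ, Lr = 6 * M * m ^ 2 / lam ^ 4 := ⟨_, rfl⟩
  have hLr0 : 0 < Lr := by rw [hLr]; (clear * - hM0 hm2 hlam0; positivity)
  have hLr' : Lr = 6 / 4096 * (m / r) := by
    rw [hLr, hlam4]
    field_simp
  rw [← hmdef, ← hMdef] at hsum
  have hGcard := good_card (fun e : ι → Bool =>
    ∑ j, (round ((∑ i, sg (e i) * v j i) / (2 * lam))).natAbs) Lr hLr0
    (hsum.trans (le_of_eq (by rw [hLr]; ring)))
  set b : (ι → Bool) → J → ℤ := fun e j => round ((∑ i, sg (e i) * v j i) / (2 * lam)) with hb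
  set G : Finset (ι → Bool) := univ.filter (fun e =>
    ∑ j, (round ((∑ i, sg (e i) * v j i) / (2 * lam))).natAbs ≤ ⌊Lr⌋₊) with hG
  have hBcard : ((G.image b).card : ℝ) ≤ Real.exp (11 / 128 * m) := by
    refine cells_bound m M r Lr ⌊Lr⌋₊ J hMdef hm0 hmM hr1 hr2 hLr' rfl _ fun c hc => ?_
    rw [Finset.mem_image] at hc
    obtain ⟨e, he, rfl⟩ := hc
    exact (Finset.mem_filter.1 he).2
  obtain ⟨c, hc⟩ := exists_fiber G b _ _ (show (0 : ℝ) < 2 ^ Fintype.card ι / 2 by positivity)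
    (Real.exp_pos _) hBcard hGcard
  have hFne : (G.filter (fun e => b e = c)).Nonempty := by
    rw [← Finset.card_pos]
    by_contra h
    have h0 : (G.filter (fun e => b e = c)).card = 0 := by omega
    rw [h0] at hc
    have : (0 : ℝ) < 2 ^ Fintype.card ι / 2 := by positivity
    simp only [CharP.cast_eq_zero, mul_zero] at hc
    linarith only [this, hc]
  obtain ⟨e₀, he₀⟩ := hFne
  rw [hmdef] at hc
  obtain ⟨e, he, hdist⟩ := hamming_far hm _ e₀ hc
  refine ⟨fun i => (sg (e i) - sg (e₀ i)) / 2, fun i => ?_, ?_, fun j => ?_⟩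
  · exact sg_cases _ _
  · have h1 : univ.filter (fun i => (sg (e i) - sg (e₀ i)) / 2 ≠ 0)
        = univ.filter (fun i => e i ≠ e₀ i) := by
      exact Finset.filter_congr fun i _ => sg_ne _ _
    rw [h1, hmdef]
    exact hdist
  · have h1 : ∑ i, (sg (e i) - sg (e₀ i)) / 2 * v j i =
        ((∑ i, sg (e i) * v j i) - (∑ i, sg (e₀ i) * v j i)) / 2 := by
      rw [← Finset.sum_sub_distrib, Finset.sum_div]
      exact Finset.sum_congr rfl fun i _ => by ring
    rw [h1]
    have h2 : b e j = b e₀ j := by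
      rw [Finset.mem_filter] at he he₀
      rw [he.2, he₀.2]
    have h3 : |(∑ i, sg (e i) * v j i) / (2 * lam) - (∑ i, sg (e₀ i) * v j i) / (2 * lam)| ≤ 1 := by
      have h4 := abs_sub_round ((∑ i, sg (e i) * v j i) / (2 * lam))
      have h5 := abs_sub_round ((∑ i, sg (e₀ i) * v j i) / (2 * lam))
      have h6 : (round ((∑ i, sg (e i) * v j i) / (2 * lam)) : ℝ)
          = round ((∑ i, sg (e₀ i) * v j i) / (2 * lam)) := by
        exact_mod_cast h2
      rw [h6] at h4
      rw [abs_le] at *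
      constructor <;> linarith only [h4, h5]
    rw [← sub_div, abs_div, abs_of_pos (show 0 < 2 * lam by (clear * - hlam0; positivity)),
      div_le_one (by (clear * - hlam0; positivity))] at h3
    rw [abs_div, abs_of_pos (show (0 : ℝ) < 2 by norm_num)]
    linarith only [h3]

end Vale.Agent.P110.RT
end
end

section

section

/-! P110, rounding module: full colouring by iteration, and dyadic rounding. -/

namespace Vale.Agent.P110.RT

open Finset

theorem root_bound (a b : ℝ) (ha : 0 ≤ a) (hb : 0 ≤ b) (h : 20 * b ≤ 19 * a) :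
    b ^ (1 / 8 : ℝ) ≤ 0.996 * a ^ (1 / 8 : ℝ) := by
  have h1 : b ≤ (0.996 : ℝ) ^ 8 * a := by
    have : (19 / 20 : ℝ) ≤ 0.996 ^ 8 := by (clear * -; norm_num)
    linarith
  calc b ^ (1 / 8 : ℝ) ≤ ((0.996 : ℝ) ^ 8 * a) ^ (1 / 8 : ℝ) :=
        Real.rpow_le_rpow hb h1 (by norm_num)
    _ = 0.996 * a ^ (1 / 8 : ℝ) := by
        rw [Real.mul_rpow (by positivity) ha]
        congr 1
        rw [← Real.rpow_natCast, ← Real.rpow_mul (by norm_num)]
        norm_num

/-- full colouring -/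
theorem full_colouring {κ J : Type*} [DecidableEq κ] [Fintype J] [DecidableEq J]
    (v : J → κ → ℝ) (hv : ∀ j k, |v j k| ≤ 1) (hJ : 1 ≤ Fintype.card J) (n : ℕ) :
    ∀ S : Finset κ, S.card = n → n ≤ Fintype.card J →
    ∃ χ : κ → ℝ, (∀ k ∈ S, χ k = 1 ∨ χ k = -1) ∧ (∀ k ∉ S, χ k = 0) ∧
      ∀ j, |∑ k ∈ S, χ k * v j k| ≤
        2000 * (n : ℝ) ^ (1 / 8 : ℝ) * (Fintype.card J : ℝ) ^ (3 / 8 : ℝ) := by
  classical
  induction n using Nat.strong_induction_on with
  | _ n ih =>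
    intro S hS hn
    have hM1 : (1 : ℝ) ≤ (Fintype.card J : ℝ) ^ (3 / 8 : ℝ) :=
      Real.one_le_rpow (by exact_mod_cast hJ) (by norm_num)
    rcases Nat.lt_or_ge n 2 with h2 | h2
    · refine ⟨fun k => if k ∈ S then 1 else 0, fun k hk => by simp [hk], fun k hk => by simp [hk],
        fun j => ?_⟩
      have h1 : |∑ k ∈ S, (if k ∈ S then (1 : ℝ) else 0) * v j k| ≤ n := by
        calc |∑ k ∈ S, (if k ∈ S then (1 : ℝ) else 0) * v j k|
            ≤ ∑ k ∈ S, |(if k ∈ S then (1 : ℝ) else 0) * v j k| := Finset.abs_sum_le_sum_abs _ _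
          _ ≤ ∑ _k ∈ S, (1 : ℝ) := Finset.sum_le_sum fun k hk => by
              simp only [hk, if_true, one_mul]; exact hv j k
          _ = n := by simp only [sum_const, hS, nsmul_eq_mul, mul_one]
      have h3 : (n : ℝ) ^ (1 / 8 : ℝ) = (n : ℝ) := by
        interval_cases n <;> norm_num
      refine h1.trans ?_
      rw [h3]
      have h4 : 0 ≤ (n : ℝ) := Nat.cast_nonneg _
      nlinarith only [hM1]
    · have hcS : Fintype.card S = n := by rw [Fintype.card_coe, hS]
      obtain ⟨χ0, h01, h0c, h0b⟩ := partial_colouring (ι := S) (fun j k => v j k)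
        (fun j k => hv j k) (by rw [hcS]; exact h2) (by rw [hcS]; exact hn)
      rw [hcS] at h0c h0b
      set χ0' : κ → ℝ := fun k => if h : k ∈ S then χ0 ⟨k, h⟩ else 0 with hχ0'
      set T : Finset κ := S.filter (fun k => χ0' k = 0) with hT
      have hTc : 20 * (T.card : ℝ) ≤ 19 * n := by
        have e1 : (univ.filter (fun i : S => χ0 i ≠ 0)).card = (S.filter (fun k => ¬ χ0' k = 0)).card := by
          have : (S.filter (fun k => ¬ χ0' k = 0)) =
              (univ.filter (fun i : S => χ0 i ≠ 0)).map (Function.Embedding.subtype _) := by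
            ext k
            simp only [Finset.mem_filter, Finset.mem_map, Finset.mem_univ, true_and,
              Function.Embedding.coe_subtype]
            constructor
            · rintro ⟨hk, hk2⟩
              refine ⟨⟨k, hk⟩, ?_, rfl⟩
              simpa only [ne_eq, hχ0', hk, ↓reduceDIte] using hk2
            · rintro ⟨⟨k', hk'⟩, h1, rfl⟩
              refine ⟨hk', ?_⟩
              simpa [hχ0', hk'] using h1
          rw [this, Finset.card_map]
        have e2 : (T.card : ℝ) + ((S.filter (fun k => ¬ χ0' k = 0)).card : ℝ) = n := by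
          rw [← hS]
          exact_mod_cast Finset.card_filter_add_card_filter_not (s := S) (fun k => χ0' k = 0)
        rw [e1] at h0c
        linarith only [h0c, e2]
      have hTn : T.card < n := by
        have h3 : (0 : ℝ) < n := by positivity
        have : (T.card : ℝ) < n := by linarith only [hTc, h3]
        exact_mod_cast this
      obtain ⟨χ1, h11, h10, h1b⟩ := ih T.card hTn T rfl (hTn.le.trans hn)
      refine ⟨fun k => χ0' k + χ1 k, fun k hk => ?_, fun k hk => ?_, fun j => ?_⟩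
      · show χ0' k + χ1 k = 1 ∨ χ0' k + χ1 k = -1
        by_cases hk0 : χ0' k = 0
        · have hkT : k ∈ T := by rw [hT, Finset.mem_filter]; exact ⟨hk, hk0⟩
          rw [hk0, zero_add]
          exact h11 k hkT
        · have hkT : k ∉ T := by rw [hT, Finset.mem_filter]; exact fun h => hk0 h.2
          rw [h10 k hkT, add_zero]
          have h3 := h01 ⟨k, hk⟩
          have h4 : χ0' k = χ0 ⟨k, hk⟩ := by simp [hχ0', hk]
          rw [h4] at hk0 ⊢
          rcases h3 with h3 | h3 | h3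
          · exact absurd h3 hk0
          · exact Or.inl h3
          · exact Or.inr h3
      · show χ0' k + χ1 k = 0
        have hkT : k ∉ T := by rw [hT, Finset.mem_filter]; exact fun h => hk h.1
        rw [h10 k hkT, add_zero]
        simp [hχ0', hk]
      · have e1 : ∑ k ∈ S, (χ0' k + χ1 k) * v j k = ∑ i : S, χ0 i * v j i + ∑ k ∈ T, χ1 k * v j k := by
          rw [← Finset.sum_coe_sort S (fun k => (χ0' k + χ1 k) * v j k)]
          have e2 : ∑ k ∈ T, χ1 k * v j k = ∑ k ∈ S, χ1 k * v j k := by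
            refine Finset.sum_subset (Finset.filter_subset _ _) fun k _ hkT => ?_
            rw [h10 k hkT, zero_mul]
          rw [e2, ← Finset.sum_coe_sort S (fun k => χ1 k * v j k), ← Finset.sum_add_distrib]
          refine Finset.sum_congr rfl fun i _ => ?_
          have : χ0' i = χ0 i := by simp [hχ0']
          rw [this]; ring
        rw [e1]
        refine (abs_add_le _ _).trans ?_
        have h3 := root_bound (n : ℝ) (T.card : ℝ) (Nat.cast_nonneg _) (Nat.cast_nonneg _) hTc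
        have h4 := h0b j
        have h5 := h1b j
        have h6 : 0 ≤ (n : ℝ) ^ (1 / 8 : ℝ) := by positivity
        have h7 : 2000 * (T.card : ℝ) ^ (1 / 8 : ℝ) * (Fintype.card J : ℝ) ^ (3 / 8 : ℝ) ≤
            2000 * (0.996 * (n : ℝ) ^ (1 / 8 : ℝ)) * (Fintype.card J : ℝ) ^ (3 / 8 : ℝ) := by
          have : 0 ≤ (Fintype.card J : ℝ) ^ (3 / 8 : ℝ) := by positivity
          (clear * - h3 hJ; gcongr)
        calc _ ≤ 8 * (n : ℝ) ^ (1 / 8 : ℝ) * (Fintype.card J : ℝ) ^ (3 / 8 : ℝ) +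
              2000 * (0.996 * (n : ℝ) ^ (1 / 8 : ℝ)) * (Fintype.card J : ℝ) ^ (3 / 8 : ℝ) :=
              add_le_add h4 (h5.trans h7)
          _ = _ := by ring

/-- the dyadic rounding step -/
theorem dyadic_rounding {κ J : Type*} [Fintype κ] [DecidableEq κ] [Fintype J] [DecidableEq J]
    (v : J → κ → ℝ) (hv : ∀ j k, |v j k| ≤ 1) (hJ : Fintype.card κ ≤ Fintype.card J)
    (D W : ℝ) (hD : 0 ≤ D)
    (hW : W = (2 * D) ^ (1 / 8 : ℝ) * ((Fintype.card J : ℝ) + 1) ^ (3 / 8 : ℝ)) (n : ℕ) :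
    ∀ z : κ → ℤ, (∀ k, |z k| ≤ 2 ^ n) →
      (∑ k, (1 - |(z k : ℝ) / 2 ^ n|) ≤ 2 * D - 4000 * W * (1 - 0.55 ^ n)) →
      ∃ e : κ → ℝ, (∀ k, e k = 1 ∨ e k = -1) ∧
        ∀ j, |∑ k, (e k - (z k : ℝ) / 2 ^ n) * v j k| ≤ 2000 * W + 4000 * W * (1 - 0.55 ^ n) := by
  classical
  have hW0 : 0 ≤ W := by rw [hW]; (clear * - hD; positivity)
  have hcardO : (Fintype.card (Option J) : ℝ) = (Fintype.card J : ℝ) + 1 := by
    rw [Fintype.card_option]; push_cast; ring
  induction n with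
  | zero =>
    intro z hz hsum
    simp only [pow_zero, div_one, sub_self, mul_zero, sub_zero, add_zero] at hsum ⊢
    set S : Finset κ := univ.filter (fun k => z k = 0) with hS
    have hScard : (S.card : ℝ) ≤ 2 * D := by
      refine le_trans ?_ hsum
      rw [← nsmul_one, ← Finset.sum_const]
      calc ∑ _k ∈ S, (1 : ℝ) = ∑ k ∈ S, (1 - |(z k : ℝ)|) := by
            refine Finset.sum_congr rfl fun k hk => ?_
            rw [(Finset.mem_filter.1 hk).2]; simp only [Int.cast_zero, abs_zero, sub_zero]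
        _ ≤ ∑ k, (1 - |(z k : ℝ)|) := by
            refine Finset.sum_le_sum_of_subset_of_nonneg (Finset.filter_subset _ _) fun k _ _ => ?_
            have := hz k
            have h2 : |(z k : ℝ)| ≤ 1 := by exact_mod_cast this
            linarith only [h2]
    obtain ⟨χ, h1, h0, hb⟩ := full_colouring (J := Option J)
      (fun o k => o.elim 1 (fun j => v j k)) (fun o k => by cases o <;> simp [hv])
      (by rw [Fintype.card_option]; omega) S.card S rfl
      ((Finset.card_le_univ S).trans (by rw [Fintype.card_option]; omega))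
    refine ⟨fun k => z k + χ k, fun k => ?_, fun j => ?_⟩
    · by_cases hk : z k = 0
      · have := h1 k (by rw [hS, Finset.mem_filter]; exact ⟨Finset.mem_univ _, hk⟩)
        simpa only [hk, Int.cast_zero, zero_add] using this
      · have h2 := h0 k (by rw [hS, Finset.mem_filter]; exact fun h => hk h.2)
        have h3 := hz k
        rw [pow_zero, abs_le] at h3
        have h4 : z k = 1 ∨ z k = -1 := by omega
        rcases h4 with h4 | h4 <;> simp [h2, h4]
    · have e1 : ∑ k, ((z k : ℝ) + χ k - (z k : ℝ)) * v j k = ∑ k ∈ S, χ k * v j k := by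
        rw [← Finset.sum_subset (Finset.subset_univ S) fun k _ hk => by rw [h0 k hk]; ring]
        exact Finset.sum_congr rfl fun k _ => by ring
      rw [e1]
      have h2 := hb (some j)
      simp only [Option.elim_some] at h2
      refine h2.trans ?_
      rw [hcardO, mul_assoc, hW]
      have h3 : (S.card : ℝ) ^ (1 / 8 : ℝ) ≤ (2 * D) ^ (1 / 8 : ℝ) :=
        Real.rpow_le_rpow (Nat.cast_nonneg _) hScard (by norm_num)
      have h4 : 0 ≤ ((Fintype.card J : ℝ) + 1) ^ (3 / 8 : ℝ) := by (clear * -; positivity)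
      have h5 := mul_le_mul_of_nonneg_right h3 h4
      linarith only [h5]
  | succ n ih =>
    intro z hz hsum
    set S : Finset κ := univ.filter (fun k => Odd (z k)) with hS
    have hp : (0 : ℝ) < 2 ^ (n + 1) := by positivity
    have hzl : ∀ k, |(z k : ℝ) / 2 ^ (n + 1)| ≤ 1 := by
      intro k
      rw [abs_div, abs_of_pos hp, div_le_one hp]
      exact_mod_cast hz k
    have hodd : ∀ k ∈ S, |z k| + 1 ≤ 2 ^ (n + 1) := by
      intro k hk
      have h1 := (Finset.mem_filter.1 hk).2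
      have h2 := hz k
      rcases h2.lt_or_eq with h3 | h3
      · (clear * - h3; omega)
      · exfalso
        have h4 : Odd (|z k|) := by
          rcases abs_choice (z k) with h5 | h5
          · rw [h5]; exact h1
          · rw [h5]; exact h1.neg
        rw [h3] at h4
        have h5 : Even ((2 : ℤ) ^ (n + 1)) := by
          rw [pow_succ]; exact Even.mul_left (by decide) _
        exact (Int.not_even_iff_odd.2 h4) h5
    have hScard : (S.card : ℝ) ≤ 2 ^ (n + 1) * (2 * D) := by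
      have h1 : (S.card : ℝ) * (1 / 2 ^ (n + 1)) ≤ ∑ k, (1 - |(z k : ℝ) / 2 ^ (n + 1)|) := by
        rw [← nsmul_eq_mul, ← Finset.sum_const]
        calc ∑ _k ∈ S, (1 / 2 ^ (n + 1) : ℝ) ≤ ∑ k ∈ S, (1 - |(z k : ℝ) / 2 ^ (n + 1)|) := by
              refine Finset.sum_le_sum fun k hk => ?_
              have h2 := hodd k hk
              have h3 : |(z k : ℝ)| + 1 ≤ 2 ^ (n + 1) := by exact_mod_cast h2
              rw [abs_div, abs_of_pos hp]
              rw [le_sub_iff_add_le, ← add_div, div_le_one hp]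
              linarith only [h3]
          _ ≤ _ := Finset.sum_le_sum_of_subset_of_nonneg (Finset.filter_subset _ _)
              fun k _ _ => by linarith only [hzl k]
      have h2 : 0 ≤ 4000 * W * (1 - 0.55 ^ (n + 1)) := by
        have : (0.55 : ℝ) ^ (n + 1) ≤ 1 := pow_le_one₀ (by norm_num) (by norm_num)
        have h3 : 0 ≤ 1 - (0.55 : ℝ) ^ (n + 1) := by linarith only [this]
        (clear * - hW0 this; positivity)
      have h3 : (S.card : ℝ) * (1 / 2 ^ (n + 1)) ≤ 2 * D := by (clear * - hsum h1 h2; linarith)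
      rw [mul_one_div, div_le_iff₀ hp] at h3
      linarith only [h3]
    set s : κ → ℝ := fun k => if 0 < z k then 1 else -1 with hs
    obtain ⟨χ, h1, h0, hb⟩ := full_colouring (J := Option J)
      (fun o k => o.elim (s k) (fun j => v j k)) (fun o k => by
        cases o with
        | none => simp only [Option.elim_none, hs]; split_ifs <;> simp
        | some j => simpa only [Option.elim_some] using hv j k)
      (by rw [Fintype.card_option]; omega) S.card S rfl
      ((Finset.card_le_univ S).trans (by rw [Fintype.card_option]; omega))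
    have hE : 2000 * (S.card : ℝ) ^ (1 / 8 : ℝ) * (Fintype.card (Option J) : ℝ) ^ (3 / 8 : ℝ) ≤
        2000 * (1.1 ^ (n + 1) * W) := by
      rw [hcardO, mul_assoc, hW]
      have h3 : (S.card : ℝ) ^ (1 / 8 : ℝ) ≤ 1.1 ^ (n + 1) * (2 * D) ^ (1 / 8 : ℝ) := by
        refine (Real.rpow_le_rpow (Nat.cast_nonneg _) hScard (by norm_num)).trans ?_
        rw [Real.mul_rpow (by positivity) (by (clear * - hD; positivity))]
        refine mul_le_mul_of_nonneg_right ?_ (by (clear * - hD; positivity))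
        rw [← Real.rpow_natCast, ← Real.rpow_mul (by norm_num), mul_comm, Real.rpow_mul (by norm_num),
          Real.rpow_natCast]
        refine pow_le_pow_left₀ (by positivity) ?_ _
        have h4 : (2 : ℝ) ≤ 1.1 ^ 8 := by norm_num
        calc (2 : ℝ) ^ (1 / 8 : ℝ) ≤ (1.1 ^ 8) ^ (1 / 8 : ℝ) :=
              Real.rpow_le_rpow (by norm_num) h4 (by norm_num)
          _ = 1.1 := by
              rw [← Real.rpow_natCast, ← Real.rpow_mul (by norm_num)]; norm_num
      have h4 : 0 ≤ ((Fintype.card J : ℝ) + 1) ^ (3 / 8 : ℝ) := by positivity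
      have h5 := mul_le_mul_of_nonneg_right h3 h4
      linarith only [h5]
    have hpow : (1.1 : ℝ) ^ (n + 1) = 0.55 ^ (n + 1) * 2 ^ (n + 1) := by
      rw [← mul_pow]; norm_num
    have hE' : ∀ o : Option J, |∑ k ∈ S, χ k * o.elim (s k) (fun j => v j k)| / 2 ^ (n + 1) ≤
        2000 * (0.55 ^ (n + 1) * W) := by
      intro o
      rw [div_le_iff₀ hp]
      refine (hb o).trans (hE.trans (le_of_eq ?_))
      rw [hpow]; ring
    -- the integer version of the colouring
    have hχz : ∀ k, ∃ y : ℤ, (y : ℝ) = χ k ∧ (k ∈ S → (y = 1 ∨ y = -1)) ∧ (k ∉ S → y = 0) := by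
      intro k
      by_cases hk : k ∈ S
      · rcases h1 k hk with h | h
        · exact ⟨1, by rw [h]; norm_num, fun _ => Or.inl rfl, fun h' => absurd hk h'⟩
        · exact ⟨-1, by rw [h]; norm_num, fun _ => Or.inr rfl, fun h' => absurd hk h'⟩
      · exact ⟨0, by rw [h0 k hk]; norm_num, fun h' => absurd h' hk, fun _ => rfl⟩
    choose y hy1 hy2 hy3 using hχz
    have heven : ∀ k, Even (z k + y k) := by
      intro k
      by_cases hk : k ∈ S
      · have h2 : Odd (z k) := (Finset.mem_filter.1 hk).2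
        refine h2.add_odd ?_
        rcases hy2 k hk with h | h <;> rw [h] <;> decide
      · rw [hy3 k hk, add_zero]
        have : ¬ Odd (z k) := fun h => hk (by rw [hS, Finset.mem_filter]; exact ⟨Finset.mem_univ _, h⟩)
        exact Int.not_odd_iff_even.1 this
    have hhalf : ∀ k, ∃ u : ℤ, z k + y k = u + u := fun k => heven k
    choose u hu using hhalf
    have hval : ∀ k, (u k : ℝ) / 2 ^ n = (z k : ℝ) / 2 ^ (n + 1) + χ k / 2 ^ (n + 1) := by
      intro k
      have h2 : (z k : ℝ) + y k = u k + u k := by exact_mod_cast hu k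
      rw [← hy1 k, ← add_div, h2, pow_succ]
      field_simp
      ring
    have hub : ∀ k, |u k| ≤ 2 ^ n := by
      intro k
      have h2 : |u k + u k| ≤ 2 ^ (n + 1) := by
        rw [← hu k]
        by_cases hk : k ∈ S
        · refine (abs_add_le _ _).trans ?_
          have h3 : |y k| = 1 := by rcases hy2 k hk with h | h <;> rw [h] <;> rfl
          rw [h3]; exact hodd k hk
        · rw [hy3 k hk, add_zero]; exact hz k
      have h3 : |u k + u k| = 2 * |u k| := by
        rw [← two_mul, abs_mul]; rfl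
      rw [h3, pow_succ] at h2
      omega
    have habs : ∀ k, |(u k : ℝ) / 2 ^ n| = |(z k : ℝ) / 2 ^ (n + 1)| + χ k * s k / 2 ^ (n + 1) := by
      intro k
      rw [hval k]
      by_cases hk : k ∈ S
      · have h2 : Odd (z k) := (Finset.mem_filter.1 hk).2
        have hne : z k ≠ 0 := by rintro h; rw [h] at h2; exact absurd h2 (by decide)
        rw [← add_div, abs_div, abs_div, abs_of_pos hp, ← add_div]
        congr 1
        by_cases hpos : 0 < z k
        · have h3 : (1 : ℝ) ≤ z k := by exact_mod_cast hpos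
          simp only [hs, hpos, if_true, mul_one]
          rw [abs_of_pos (show (0 : ℝ) < z k by linarith only [h3])]
          refine abs_of_nonneg ?_
          rcases h1 k hk with h | h <;> rw [h] <;> linarith only [h3]
        · have h3 : (z k : ℝ) ≤ -1 := by
            have : z k ≤ -1 := by omega
            exact_mod_cast this
          simp only [hs, hpos, if_false]
          rw [abs_of_neg (show (z k : ℝ) < 0 by linarith only [h3])]
          rw [abs_of_nonpos (by rcases h1 k hk with h | h <;> rw [h] <;> linarith only [h3])]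
          ring
      · rw [h0 k hk]; simp
    have hsum' : ∑ k, (1 - |(u k : ℝ) / 2 ^ n|) ≤ 2 * D - 4000 * W * (1 - 0.55 ^ n) := by
      have e1 : ∑ k, (1 - |(u k : ℝ) / 2 ^ n|) = ∑ k, (1 - |(z k : ℝ) / 2 ^ (n + 1)|)
          - (∑ k ∈ S, χ k * s k) / 2 ^ (n + 1) := by
        have e2 : (∑ k ∈ S, χ k * s k) = ∑ k, χ k * s k :=
          Finset.sum_subset (Finset.subset_univ S) fun k _ hk => by rw [h0 k hk, zero_mul]
        rw [e2, Finset.sum_div, ← Finset.sum_sub_distrib]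
        refine Finset.sum_congr rfl fun k _ => ?_
        rw [habs k]; ring
      rw [e1]
      have h2 := hE' none
      simp only [Option.elim_none] at h2
      have h3 : -((∑ k ∈ S, χ k * s k) / 2 ^ (n + 1)) ≤ 2000 * (0.55 ^ (n + 1) * W) := by
        refine le_trans ?_ h2
        rw [← neg_div]
        exact div_le_div_of_nonneg_right (neg_le_abs _) hp.le
      have h4 : (0.55 : ℝ) ^ (n + 1) = 0.55 ^ n * 0.55 := pow_succ _ _
      have h5 : (0 : ℝ) ≤ 0.55 ^ n * W := by (clear * - hW0; positivity)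
      rw [h4] at h3 hsum
      nlinarith only [hsum, h3, h5]
    obtain ⟨e, he, heb⟩ := ih u hub hsum'
    refine ⟨e, he, fun j => ?_⟩
    have e1 : ∑ k, (e k - (z k : ℝ) / 2 ^ (n + 1)) * v j k
        = ∑ k, (e k - (u k : ℝ) / 2 ^ n) * v j k + (∑ k ∈ S, χ k * v j k) / 2 ^ (n + 1) := by
      have e2 : (∑ k ∈ S, χ k * v j k) = ∑ k, χ k * v j k :=
        Finset.sum_subset (Finset.subset_univ S) fun k _ hk => by rw [h0 k hk, zero_mul]
      rw [e2, Finset.sum_div, ← Finset.sum_add_distrib]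
      refine Finset.sum_congr rfl fun k _ => ?_
      rw [hval k]; ring
    rw [e1]
    refine (abs_add_le _ _).trans ?_
    have h2 := hE' (some j)
    simp only [Option.elim_some] at h2
    have h3 := heb j
    rw [abs_div, abs_of_pos hp]
    have h4 : (0.55 : ℝ) ^ (n + 1) = 0.55 ^ n * 0.55 := pow_succ _ _
    have h5 : (0 : ℝ) ≤ 0.55 ^ n * W := by (clear * - hW0; positivity)
    rw [h4] at h2 ⊢
    nlinarith only [h2, h3, h5]

end Vale.Agent.P110.RT
end
end

section

section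

/-!
# P110: final assembly

From the rounding theorem, the analytic theorem and the existence of slot systems we get
ultraflat Littlewood polynomials of every large length.
-/

namespace Vale.Agent.P110

open Finset

/-- Parseval's identity for a trigonometric polynomial with real coefficients -/
theorem fin_parseval (n : ℕ) (x : ℕ → ℝ) :
    ∫ θ in (0 : ℝ)..1, ‖∑ k ∈ range n, (x k : ℂ) * e (k * θ)‖ ^ 2 =
      ∑ k ∈ range n, x k ^ 2 := by
  have hint : ∀ m : ℤ, ∫ θ in (0 : ℝ)..1, e (m * θ) = if m = 0 then 1 else 0 := by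
    intro m
    by_cases hm : m = 0
    · subst hm
      simp only [Int.cast_zero, zero_mul, AT.e_zero, intervalIntegral.integral_const, sub_zero, one_smul, ↓reduceIte]
    · rw [if_neg hm]
      have hc : (2 * Real.pi * m * Complex.I : ℂ) ≠ 0 := by
        have h1 : (m : ℂ) ≠ 0 := by exact_mod_cast hm
        have h2 : (Real.pi : ℂ) ≠ 0 := by exact_mod_cast Real.pi_ne_zero
        exact mul_ne_zero (mul_ne_zero (mul_ne_zero two_ne_zero h2) h1) Complex.I_ne_zero
      have hfun : ∀ θ : ℝ, e (m * θ) = Complex.exp ((2 * Real.pi * m * Complex.I) * (θ : ℂ)) := by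
        intro θ
        unfold e
        congr 1
        push_cast
        ring
      simp_rw [hfun]
      rw [integral_exp_mul_complex hc]
      have h1 : Complex.exp (2 * Real.pi * m * Complex.I * ((1 : ℝ) : ℂ)) = 1 := by
        rw [Complex.exp_eq_one_iff]
        exact ⟨m, by push_cast; ring⟩
      rw [h1]
      simp
  have hsq : ∀ θ : ℝ, ((‖∑ k ∈ range n, (x k : ℂ) * e (k * θ)‖ ^ 2 : ℝ) : ℂ) =
      ∑ j ∈ range n, ∑ k ∈ range n, ((x j : ℂ) * (x k : ℂ)) * e (((j : ℤ) - (k : ℤ) : ℤ) * θ) := by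
    intro θ
    have h0 : ((‖∑ k ∈ range n, (x k : ℂ) * e (k * θ)‖ ^ 2 : ℝ) : ℂ) =
        (∑ k ∈ range n, (x k : ℂ) * e (k * θ)) *
          starRingEnd ℂ (∑ k ∈ range n, (x k : ℂ) * e (k * θ)) := by
      rw [Complex.mul_conj']
      push_cast
      rfl
    rw [h0, map_sum, Finset.sum_mul_sum]
    refine Finset.sum_congr rfl fun j _ => Finset.sum_congr rfl fun k _ => ?_
    rw [map_mul, Complex.conj_ofReal, ← AT.e_neg]
    have h1 : (((j : ℤ) - (k : ℤ) : ℤ) : ℝ) * θ = (j : ℝ) * θ + -((k : ℝ) * θ) := by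
      push_cast
      ring
    rw [h1, AT.e_add]
    ring
  have hcomplex : ((∫ θ in (0 : ℝ)..1, ‖∑ k ∈ range n, (x k : ℂ) * e (k * θ)‖ ^ 2 : ℝ) : ℂ) =
      ((∑ k ∈ range n, x k ^ 2 : ℝ) : ℂ) := by
    rw [← intervalIntegral.integral_ofReal]
    simp_rw [hsq]
    rw [intervalIntegral.integral_finsetSum]
    · have h1 : ∀ j ∈ range n, ∫ θ in (0 : ℝ)..1,
          ∑ k ∈ range n, ((x j : ℂ) * (x k : ℂ)) * e (((j : ℤ) - (k : ℤ) : ℤ) * θ) =
          ((x j ^ 2 : ℝ) : ℂ) := by
        intro j hj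
        rw [intervalIntegral.integral_finsetSum]
        · have h2 : ∀ k ∈ range n, ∫ θ in (0 : ℝ)..1,
              ((x j : ℂ) * (x k : ℂ)) * e (((j : ℤ) - (k : ℤ) : ℤ) * θ) =
              if j = k then ((x j : ℂ) * (x k : ℂ)) else 0 := by
            intro k _
            rw [intervalIntegral.integral_const_mul, hint]
            by_cases hjk : j = k
            · rw [if_pos hjk, if_pos (by rw [hjk]; simp)]
              ring
            · have : ((j : ℤ) - (k : ℤ) : ℤ) ≠ 0 := by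
                intro h
                apply hjk
                omega
              rw [if_neg hjk, if_neg this]
              ring
          rw [Finset.sum_congr rfl h2, Finset.sum_ite_eq, if_pos hj]
          push_cast
          ring
        · intro k _
          apply Continuous.intervalIntegrable
          exact continuous_const.mul (AT.continuous_e.comp (continuous_const.mul continuous_id))
      rw [Finset.sum_congr rfl h1]
      push_cast
      rfl
    · intro j _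
      apply Continuous.intervalIntegrable
      refine continuous_finsetSum _ fun k _ => ?_
      exact continuous_const.mul (AT.continuous_e.comp (continuous_const.mul continuous_id))
  exact_mod_cast hcomplex

/-- a lower bound on the circle bounds the sum of the squares of the coefficients -/
theorem fin_sum_sq_ge (n : ℕ) (x : ℕ → ℝ) (a : ℝ) (ha : 0 ≤ a)
    (h : ∀ θ : ℝ, a ≤ ‖∑ k ∈ range n, (x k : ℂ) * e (k * θ)‖) :
    a ^ 2 ≤ ∑ k ∈ range n, x k ^ 2 := by
  rw [← fin_parseval]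
  have hcont : Continuous fun θ : ℝ => ‖∑ k ∈ range n, (x k : ℂ) * e (k * θ)‖ ^ 2 := by
    refine Continuous.pow (Continuous.norm ?_) 2
    refine continuous_finsetSum _ fun k _ => ?_
    exact continuous_const.mul (AT.continuous_e.comp (continuous_const.mul continuous_id))
  have h1 : ∫ _θ in (0 : ℝ)..1, a ^ 2 ≤
      ∫ θ in (0 : ℝ)..1, ‖∑ k ∈ range n, (x k : ℂ) * e (k * θ)‖ ^ 2 := by
    apply intervalIntegral.integral_mono_on (by norm_num)
    · exact continuous_const.intervalIntegrable _ _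
    · exact hcont.intervalIntegrable _ _
    · intro θ _
      exact pow_le_pow_left₀ ha (h θ) 2
  simpa only [ge_iff_le, intervalIntegral.integral_const, sub_zero, smul_eq_mul, one_mul] using h1

/-- flat sign polynomials at every large length, in terms of `e` -/
theorem flat_all_lengths (hRT : RoundingStatement) (hAT : AnalyticStatement)
    (hCT : SlotSystemStatement) (c : ℝ) (hc : 0 < c) :
    ∃ N₀ : ℕ, ∀ N : ℕ, N₀ ≤ N → ∃ ε : ℕ → ℝ, (∀ k, ε k = 1 ∨ ε k = -1) ∧
      ∀ θ : ℝ, (1 - c) * Real.sqrt N ≤ ‖∑ k ∈ range N, (ε k : ℂ) * e (k * θ)‖ ∧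
        ‖∑ k ∈ range N, (ε k : ℂ) * e (k * θ)‖ ≤ (1 + c) * Real.sqrt N := by
  obtain ⟨δ, hδ, N₁, hR⟩ := hRT (c / 2) (by (clear * - hc; positivity))
  -- the small parameter
  obtain ⟨t, ht0, ht1, htδ, htc⟩ : ∃ t : ℝ, 0 < t ∧ t ≤ 1 / 10 ∧ 10 * t ≤ δ ∧ 5 * t ≤ c / 2 := by
    refine ⟨min (1 / 10) (min (δ / 10) (c / 10)), by (clear * - hδ hc; positivity), min_le_left _ _, ?_, ?_⟩
    · have := (min_le_right (1 / 10 : ℝ) (min (δ / 10) (c / 10))).trans (min_le_left _ _)
      linarith only [this]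
    · have := (min_le_right (1 / 10 : ℝ) (min (δ / 10) (c / 10))).trans (min_le_right _ _)
      linarith only [this]
  obtain ⟨S⟩ := hCT t ht0
  obtain ⟨M₀, hA⟩ := hAT t ht0 S t ht0
  set A : ℝ := 1 + t + t with hAdef
  have hA1 : 1 < A := by rw [hAdef]; linarith only [ht0]
  have hA0 : 0 < A := by linarith only [ht0]
  refine ⟨N₁ + ⌈A * (M₀ + 1)⌉₊ + ⌈A ^ 2 / (2 * t)⌉₊, fun N hN => ?_⟩
  have hN1 : N₁ ≤ N := by omega
  have hN2 : A * (M₀ + 1) ≤ N :=
    (Nat.le_ceil _).trans (by exact_mod_cast (by omega : ⌈A * (M₀ + 1)⌉₊ ≤ N))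
  have hN3 : A ^ 2 / (2 * t) ≤ N :=
    (Nat.le_ceil _).trans (by exact_mod_cast (by omega : ⌈A ^ 2 / (2 * t)⌉₊ ≤ N))
  have hNpos : (0 : ℝ) < N := lt_of_lt_of_le (by (clear * - ht0; positivity)) hN2
  -- the level
  set M : ℕ := ⌊(N : ℝ) / A⌋₊ with hM
  have hMle : (M : ℝ) ≤ N / A := Nat.floor_le (by (clear * - hNpos ht0; positivity))
  have hMge : (N : ℝ) / A - 1 ≤ M := (Nat.sub_one_lt_floor _).le
  have hMM : M₀ ≤ M := by
    apply Nat.le_floor
    rw [le_div_iff₀ hA0]
    nlinarith only [hN2]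
  have hMge' : (N : ℝ) / A ^ 2 ≤ M := by
    refine le_trans ?_ hMge
    rw [div_le_iff₀ (by positivity)] at hN3
    rw [le_sub_iff_add_le, div_add_one (by positivity), div_le_div_iff₀ (by positivity) hA0]
    have h2t : 2 * t = A - 1 := by rw [hAdef]; ring
    rw [h2t] at hN3
    have h3 : A ^ 2 * A ≤ N * (A - 1) * A := mul_le_mul_of_nonneg_right hN3 hA0.le
    nlinarith only [h3]
  obtain ⟨N', x, hN', hx, hflat⟩ := hA M hMM
  have hN'N : N' ≤ N := by
    have h1 : (N' : ℝ) ≤ N := by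
      calc (N' : ℝ) ≤ A * M := hN'
        _ ≤ A * (N / A) := by (clear * - hMle ht0; gcongr)
        _ = N := by (clear * - hA1 hNpos; field_simp)
    exact_mod_cast h1
  -- normalised and padded coefficients
  let y : ℕ → ℝ := fun k => if k < N' then x k / A else 0
  have hy1 : ∀ k, |y k| ≤ 1 := by
    intro k
    by_cases hk : k < N'
    · have : y k = x k / A := if_pos hk
      rw [this, abs_div, abs_of_pos hA0, div_le_one hA0]
      exact hx k
    · have : y k = 0 := if_neg hk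
      rw [this, abs_zero]
      exact zero_le_one
  have hysum : ∀ θ : ℝ, ∑ k ∈ range N, (y k : ℂ) * e (k * θ) =
      (∑ k ∈ range N', (x k : ℂ) * e (k * θ)) / A := by
    intro θ
    rw [← Finset.sum_subset (Finset.range_subset_range.2 hN'N)
      (f := fun k => (y k : ℂ) * e (k * θ)), Finset.sum_div]
    · refine Finset.sum_congr rfl fun k hk => ?_
      have : y k = x k / A := if_pos (Finset.mem_range.1 hk)
      rw [this]
      push_cast
      ring
    · intro k _ hk
      have : y k = 0 := if_neg (fun h => hk (Finset.mem_range.2 h))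
      rw [this]
      simp
  have hynorm : ∀ θ : ℝ, ‖∑ k ∈ range N, (y k : ℂ) * e (k * θ)‖ =
      ‖∑ k ∈ range N', (x k : ℂ) * e (k * θ)‖ / A := by
    intro θ
    rw [hysum, norm_div, Complex.norm_real, Real.norm_eq_abs, abs_of_pos hA0]
  have hsM : Real.sqrt M ≤ Real.sqrt N := by
    apply Real.sqrt_le_sqrt
    refine hMle.trans ?_
    exact div_le_self hNpos.le hA1.le
  have hsM' : Real.sqrt N / A ≤ Real.sqrt M := by
    have h1 : Real.sqrt N / A = Real.sqrt (N / A ^ 2) := by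
      rw [Real.sqrt_div hNpos.le, Real.sqrt_sq hA0.le]
    rw [h1]
    exact Real.sqrt_le_sqrt hMge'
  have hsN : 0 < Real.sqrt N := Real.sqrt_pos.2 hNpos
  have hAinv : 1 - 2 * t ≤ 1 / A := by
    rw [le_div_iff₀ hA0, hAdef]
    nlinarith only [ht0]
  have hAinv0 : 0 < 1 / A := by positivity
  have hyub : ∀ θ : ℝ, ‖∑ k ∈ range N, (y k : ℂ) * e (k * θ)‖ ≤ (1 + t) * Real.sqrt N := by
    intro θ
    rw [hynorm θ]
    have h1 := (abs_le.1 (hflat θ)).2
    have h2 : ‖∑ k ∈ range N', (x k : ℂ) * e (k * θ)‖ ≤ (1 + t) * Real.sqrt N := by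
      nlinarith only [hsM, h1, ht0]
    exact (div_le_self (norm_nonneg _) hA1.le).trans h2
  have hylb : ∀ θ : ℝ, (1 - 5 * t) * Real.sqrt N ≤ ‖∑ k ∈ range N, (y k : ℂ) * e (k * θ)‖ := by
    intro θ
    rw [hynorm θ]
    have h1 := (abs_le.1 (hflat θ)).1
    have h2 : (1 - t) * (Real.sqrt N / A) ≤ ‖∑ k ∈ range N', (x k : ℂ) * e (k * θ)‖ := by
      have h3 : (1 - t) * (Real.sqrt N / A) ≤ (1 - t) * Real.sqrt M :=
        mul_le_mul_of_nonneg_left hsM' (by linarith only [ht1])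
      linarith only [h1, h3]
    have h4 : (1 - t) * (Real.sqrt N / A) / A ≤
        ‖∑ k ∈ range N', (x k : ℂ) * e (k * θ)‖ / A :=
      div_le_div_of_nonneg_right h2 hA0.le
    refine le_trans ?_ h4
    have h5 : (1 - t) * (Real.sqrt N / A) / A = (1 - t) * (1 / A) ^ 2 * Real.sqrt N := by
      (clear * - hA1 hNpos; field_simp)
    rw [h5]
    apply mul_le_mul_of_nonneg_right _ hsN.le
    have h6 : (1 - 2 * t) ^ 2 ≤ (1 / A) ^ 2 := pow_le_pow_left₀ (by linarith only [ht1]) hAinv 2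
    have h7 : (1 - t) * (1 - 2 * t) ^ 2 ≤ (1 - t) * (1 / A) ^ 2 :=
      mul_le_mul_of_nonneg_left h6 (by linarith only [ht1])
    refine le_trans ?_ h7
    nlinarith only [ht1, mul_pos ht0 ht0]
  have hsum : ∑ k ∈ range N, (1 - y k ^ 2) ≤ δ * N := by
    have h1 := fin_sum_sq_ge N y ((1 - 5 * t) * Real.sqrt N)
      (mul_nonneg (by linarith only [ht1]) hsN.le) hylb
    rw [mul_pow, Real.sq_sqrt hNpos.le] at h1
    rw [Finset.sum_sub_distrib]
    simp only [Finset.sum_const, Finset.card_range, nsmul_eq_mul, mul_one]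
    have h2 : (1 - 10 * t) * N ≤ (1 - 5 * t) ^ 2 * N := by
      apply mul_le_mul_of_nonneg_right _ hNpos.le
      nlinarith only [sq_nonneg t]
    have h3 : 10 * t * N ≤ δ * N := mul_le_mul_of_nonneg_right htδ hNpos.le
    linarith only [h1, h2, h3]
  obtain ⟨ε, hε, hε2⟩ := hR N hN1 y hy1 hsum
  refine ⟨ε, hε, fun θ => ?_⟩
  have hdiff : ∑ k ∈ range N, (ε k : ℂ) * e (k * θ) =
      ∑ k ∈ range N, (y k : ℂ) * e (k * θ) + ∑ k ∈ range N, ((ε k - y k : ℝ) : ℂ) * e (k * θ) := by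
    rw [← Finset.sum_add_distrib]
    refine Finset.sum_congr rfl fun k _ => ?_
    push_cast
    ring
  have hε3 := hε2 θ
  have hub := hyub θ
  have hlb := hylb θ
  constructor
  · have h1 : ‖∑ k ∈ range N, (y k : ℂ) * e (k * θ)‖ -
        ‖∑ k ∈ range N, ((ε k - y k : ℝ) : ℂ) * e (k * θ)‖ ≤
        ‖∑ k ∈ range N, (ε k : ℂ) * e (k * θ)‖ := by
      rw [hdiff]
      have := norm_sub_le (∑ k ∈ range N, (y k : ℂ) * e (k * θ) +
        ∑ k ∈ range N, ((ε k - y k : ℝ) : ℂ) * e (k * θ))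
        (∑ k ∈ range N, ((ε k - y k : ℝ) : ℂ) * e (k * θ))
      rw [add_sub_cancel_right] at this
      linarith only [this]
    nlinarith only [hε3, hlb, h1, htc, hsN]
  · have h1 : ‖∑ k ∈ range N, (ε k : ℂ) * e (k * θ)‖ ≤
        ‖∑ k ∈ range N, (y k : ℂ) * e (k * θ)‖ +
        ‖∑ k ∈ range N, ((ε k - y k : ℝ) : ℂ) * e (k * θ)‖ := by
      rw [hdiff]
      exact norm_add_le _ _
    nlinarith only [hε3, hub, h1, hsN, ht0, ht1, htc]

/-- every point of the unit circle is `e θ` -/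
theorem fin_exists_e_eq {z : ℂ} (hz : ‖z‖ = 1) : ∃ θ : ℝ, z = e θ := by
  refine ⟨Complex.arg z / (2 * Real.pi), ?_⟩
  unfold e
  have h1 : 2 * Real.pi * (Complex.arg z / (2 * Real.pi)) = Complex.arg z := by
    have := Real.pi_ne_zero
    field_simp
  rw [h1]
  have h2 := Complex.norm_mul_exp_arg_mul_I z
  rw [hz] at h2
  simpa using h2.symm

theorem fin_e_pow (θ : ℝ) (k : ℕ) : e θ ^ k = e (k * θ) := by
  unfold e
  rw [← Complex.exp_nat_mul]
  congr 1
  push_cast
  ring

/-- flat Littlewood polynomials of every large length -/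
theorem ultraflat_of (hRT : RoundingStatement) (hAT : AnalyticStatement)
    (hCT : SlotSystemStatement) (c : ℝ) (hc : 0 < c) :
    ∃ N₀ : ℕ, ∀ N : ℕ, N₀ ≤ N → ∃ a : Fin N → ℤˣ, ∀ z : ℂ, ‖z‖ = 1 →
      (1 - c) * Real.sqrt N ≤ ‖∑ k : Fin N, ((a k : ℤ) : ℂ) * z ^ (k : ℕ)‖ ∧
      ‖∑ k : Fin N, ((a k : ℤ) : ℂ) * z ^ (k : ℕ)‖ ≤ (1 + c) * Real.sqrt N := by
  classical
  obtain ⟨N₀, h⟩ := flat_all_lengths hRT hAT hCT c hc
  refine ⟨N₀, fun N hN => ?_⟩
  obtain ⟨ε, hε, hflat⟩ := h N hN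
  refine ⟨fun k => if ε k = 1 then 1 else -1, fun z hz => ?_⟩
  obtain ⟨θ, rfl⟩ := fin_exists_e_eq hz
  have hsum : ∑ k : Fin N, (((if ε k = 1 then (1 : ℤˣ) else -1 : ℤˣ) : ℤ) : ℂ) * e θ ^ (k : ℕ) =
      ∑ k ∈ range N, (ε k : ℂ) * e (k * θ) := by
    rw [Finset.sum_range]
    refine Finset.sum_congr rfl fun k _ => ?_
    rw [fin_e_pow]
    rcases hε k with h1 | h1
    · rw [if_pos h1, h1]
      simp only [Units.val_one, Int.cast_one, one_mul, Complex.ofReal_one]
    · have h2 : ¬ ε k = 1 := by rw [h1]; norm_num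
      rw [if_neg h2, h1]
      simp only [Units.val_neg, Units.val_one, Int.reduceNeg, Int.cast_neg, Int.cast_one, neg_mul, one_mul, Complex.ofReal_neg, Complex.ofReal_one]
  rw [hsum]
  exact hflat θ

end Vale.Agent.P110
end
end

section

section

open Finset

namespace Vale.Agent.P110.LinCount

lemma card_fiber_mul {G H : Type*} [AddGroup G] [Fintype G] [AddGroup H] [Fintype H]
    [DecidableEq H] (f : G →+ H) (hf : Function.Surjective f) (y : H) :
    (univ.filter fun x => f x = y).card * Fintype.card H = Fintype.card G := by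
  classical
  have h1 : ∀ z : H, (univ.filter fun x => f x = z).card = (univ.filter fun x => f x = y).card :=
    fun z => AddMonoidHom.card_fiber_eq_of_mem_range f (by simpa only [Set.mem_range] using hf z) (by simpa only [Set.mem_range] using hf y)
  have h2 : Fintype.card G = ∑ z : H, (univ.filter fun x => f x = z).card := by
    rw [← Finset.card_univ]
    exact Finset.card_eq_sum_card_fiberwise (fun _ _ => by simp only [coe_univ, Set.mem_univ])
  rw [h2, Finset.sum_congr rfl (fun z _ => h1 z), Finset.sum_const, Finset.card_univ, smul_eq_mul,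
    mul_comm]

variable {m : ℕ} [Fact m.Prime] {ι : Type*} [Fintype ι] [DecidableEq ι]

/-- the linear form as an additive homomorphism -/
def form (v : ι → ZMod m) : (ι → ZMod m) →+ ZMod m where
  toFun x := ∑ i, v i * x i
  map_zero' := by simp
  map_add' x y := by
    rw [← Finset.sum_add_distrib]
    exact Finset.sum_congr rfl (fun i _ => by rw [Pi.add_apply, mul_add])

omit [DecidableEq ι] in
@[simp] lemma form_apply (v x : ι → ZMod m) : form v x = ∑ i, v i * x i := rfl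

lemma form_single (v : ι → ZMod m) (i : ι) (s : ZMod m) : form v (Pi.single i s) = v i * s := by
  rw [form_apply, Finset.sum_eq_single i]
  · simp
  · intro b _ hb
    simp [hb]
  · simp only [mem_univ, not_true_eq_false, Pi.single_eq_same, mul_eq_zero, IsEmpty.forall_iff]

/-- one linear equation -/
theorem card_one (v : ι → ZMod m) (i0 : ι) (hv : v i0 ≠ 0) (a : ZMod m) :
    (univ.filter fun x : ι → ZMod m => ∑ i, v i * x i = a).card * m = m ^ Fintype.card ι := by
  have h := card_fiber_mul (form v) (by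
    intro y
    refine ⟨Pi.single i0 ((v i0)⁻¹ * y), ?_⟩
    rw [form_single]
    field_simp) a
  simp only [form_apply, Fintype.card_pi, ZMod.card, Finset.prod_const, Finset.card_univ] at h
  exact h

/-- two independent linear equations -/
theorem card_two (v w : ι → ZMod m) (i0 j0 : ι) (h0 : v i0 * w j0 - v j0 * w i0 ≠ 0)
    (a b : ZMod m) :
    (univ.filter fun x : ι → ZMod m => ∑ i, v i * x i = a ∧ ∑ i, w i * x i = b).card * m ^ 2
      = m ^ Fintype.card ι := by
  have h := card_fiber_mul ((form v).prod (form w)) (by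
    rintro ⟨y, z⟩
    refine ⟨Pi.single i0 ((y * w j0 - z * v j0) / (v i0 * w j0 - v j0 * w i0))
      + Pi.single j0 ((v i0 * z - w i0 * y) / (v i0 * w j0 - v j0 * w i0)), ?_⟩
    rw [AddMonoidHom.prod_apply, map_add, map_add, form_single, form_single, form_single,
      form_single]
    refine Prod.ext ?_ ?_
    · change v i0 * _ + v j0 * _ = y
      rw [← mul_div_assoc, ← mul_div_assoc, ← add_div, div_eq_iff h0]
      ring
    · change w i0 * _ + w j0 * _ = z
      rw [← mul_div_assoc, ← mul_div_assoc, ← add_div, div_eq_iff h0]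
      ring) (a, b)
  simp only [AddMonoidHom.prod_apply, form_apply, Fintype.card_pi, ZMod.card, Finset.prod_const,
    Finset.card_univ, Prod.mk.injEq, Fintype.card_prod] at h
  rw [← h, sq]

theorem card_two_le (v w : ι → ZMod m) (i0 j0 : ι) (h0 : v i0 * w j0 - v j0 * w i0 ≠ 0)
    (a b : ZMod m) :
    (univ.filter fun x : ι → ZMod m => ∑ i, v i * x i = a ∧ ∑ i, w i * x i = b).card
      ≤ m ^ (Fintype.card ι - 2) := by
  have h1 := card_two v w i0 j0 h0 a b
  have hm : 0 < m := (Fact.out : m.Prime).pos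
  have hne : i0 ≠ j0 := by
    rintro rfl
    apply h0
    ring
  have h2 : 2 ≤ Fintype.card ι := by
    have : 1 < Fintype.card ι := Fintype.one_lt_card_iff.mpr ⟨i0, j0, hne⟩
    omega
  have h3 : m ^ Fintype.card ι = m ^ (Fintype.card ι - 2) * m ^ 2 := by
    rw [← pow_add]
    congr 1
    omega
  rw [h3] at h1
  exact le_of_eq (Nat.eq_of_mul_eq_mul_right (by positivity) h1)

theorem card_one_le (v : ι → ZMod m) (i0 : ι) (hv : v i0 ≠ 0) (a : ZMod m) :
    (univ.filter fun x : ι → ZMod m => ∑ i, v i * x i = a).card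
      ≤ m ^ (Fintype.card ι - 1) := by
  classical
  have h1 := card_one v i0 hv a
  have hm : 0 < m := (Fact.out : m.Prime).pos
  have h2 : 0 < Fintype.card ι := Fintype.card_pos_iff.mpr ⟨i0⟩
  have h3 : m ^ Fintype.card ι = m ^ (Fintype.card ι - 1) * m := by
    rw [← pow_succ]
    congr 1
    omega
  rw [h3] at h1
  exact le_of_eq (Nat.eq_of_mul_eq_mul_right (by positivity) h1)

/-- nonzero two by two minor over the integers -/
lemma exists_minor {d : ℕ} {X : Finset (Fin d → ℤ)} {V : Fin d → ℤ} (hX : GoodSet d X V)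
    {χ χ' : Fin d → ℤ} (h : χ ∈ X) (h' : χ' ∈ X) (hne : χ ≠ χ') :
    ∃ i j, χ i * χ' j - χ j * χ' i ≠ 0 := by
  obtain ⟨j, hj, hj'⟩ := hX.top χ h
  obtain ⟨k, hk, hk'⟩ := hX.top χ' h'
  rcases lt_trichotomy j k with hlt | heq | hgt
  · refine ⟨j, k, ?_⟩
    rw [hj, hk, hj' k hlt]
    simp
  · subst heq
    obtain ⟨i, hi⟩ := Function.ne_iff.mp hne
    refine ⟨i, j, ?_⟩
    rw [hj, hk]
    intro h0
    apply hi
    linarith
  · refine ⟨j, k, ?_⟩
    rw [hj, hk, hk' j hgt]
    simp only [mul_one, mul_zero, sub_zero, ne_eq, one_ne_zero, not_false_eq_true]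

lemma cast_ne_zero_of_lt {z : ℤ} (hz : z ≠ 0) {m : ℕ} (hm : z.natAbs < m) :
    ((z : ℤ) : ZMod m) ≠ 0 := by
  rw [Ne, ZMod.intCast_zmod_eq_zero_iff_dvd]
  intro hd
  have := Int.natAbs_dvd_natAbs.mpr hd
  rw [Int.natAbs_natCast] at this
  have := Nat.le_of_dvd (Int.natAbs_pos.mpr hz) this
  omega

/-- for all large moduli the minors stay nonzero -/
theorem exists_minor_zmod {d : ℕ} {X : Finset (Fin d → ℤ)} {V : Fin d → ℤ}
    (hX : GoodSet d X V) :
    ∃ m₁ : ℕ, ∀ m : ℕ, m₁ ≤ m → ∀ χ ∈ X, ∀ χ' ∈ X, χ ≠ χ' →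
      ∃ i j, ((χ i : ZMod m) * (χ' j : ZMod m) - (χ j : ZMod m) * (χ' i : ZMod m)) ≠ 0 := by
  classical
  refine ⟨(∑ χ ∈ X, ∑ χ' ∈ X, ∑ i, ∑ j, (χ i * χ' j - χ j * χ' i).natAbs) + 1, ?_⟩
  intro m hm χ h χ' h' hne
  obtain ⟨i, j, hij⟩ := exists_minor hX h h' hne
  refine ⟨i, j, ?_⟩
  have h1 : (χ i * χ' j - χ j * χ' i).natAbs
      ≤ ∑ χ ∈ X, ∑ χ' ∈ X, ∑ i, ∑ j, (χ i * χ' j - χ j * χ' i).natAbs :=
    calc (χ i * χ' j - χ j * χ' i).natAbs ≤ ∑ j, (χ i * χ' j - χ j * χ' i).natAbs :=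
          Finset.single_le_sum (f := fun j => (χ i * χ' j - χ j * χ' i).natAbs)
            (fun _ _ => Nat.zero_le _) (Finset.mem_univ j)
      _ ≤ ∑ i, ∑ j, (χ i * χ' j - χ j * χ' i).natAbs :=
          Finset.single_le_sum (f := fun i => ∑ j, (χ i * χ' j - χ j * χ' i).natAbs)
            (fun _ _ => Nat.zero_le _) (Finset.mem_univ i)
      _ ≤ ∑ χ' ∈ X, ∑ i, ∑ j, (χ i * χ' j - χ j * χ' i).natAbs :=
          Finset.single_le_sum (f := fun χ' : Fin d → ℤ => ∑ i, ∑ j,
            (χ i * χ' j - χ j * χ' i).natAbs) (fun _ _ => Nat.zero_le _) h'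
      _ ≤ _ :=
          Finset.single_le_sum (f := fun χ : Fin d → ℤ => ∑ χ' ∈ X, ∑ i, ∑ j,
            (χ i * χ' j - χ j * χ' i).natAbs) (fun _ _ => Nat.zero_le _) h
  have h2 := cast_ne_zero_of_lt hij (m := m) (by omega)
  push_cast at h2
  exact h2

end Vale.Agent.P110.LinCount
end
end

section

section

/-!
# P110, module COL: the random colouring lemma
-/

namespace Vale.Agent.P110

open Finset

namespace Col

/-! ### fibres of linear forms -/

theorem card_fiber {G H : Type*} [AddGroup G] [Fintype G] [AddGroup H] [Fintype H]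
    [DecidableEq H] (φ : G →+ H) (hφ : Function.Surjective φ) (b : H) :
    (univ.filter fun g => φ g = b).card * Fintype.card H = Fintype.card G := by
  classical
  have h1 : ∀ b' : H, (univ.filter fun g => φ g = b').card
      = (univ.filter fun g => φ g = b).card := by
    intro b'
    exact AddMonoidHom.card_fiber_eq_of_mem_range φ (hφ b') (hφ b)
  have h2 : Fintype.card G = ∑ b' : H, (univ.filter fun g => φ g = b').card := by
    rw [← Finset.card_univ]
    exact Finset.card_eq_sum_card_fiberwise (fun _ _ => mem_univ _)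
  rw [h2, Finset.sum_congr rfl (fun b' _ => h1 b'), Finset.sum_const, Finset.card_univ,
    smul_eq_mul, mul_comm]

section forms

variable {m : ℕ} [Fact m.Prime] {n : ℕ}

/-- the linear form with coefficients `a` -/
def form (a : Fin n → ZMod m) : (Fin n → ZMod m) →+ ZMod m where
  toFun σ := ∑ i, a i * σ i
  map_zero' := by simp
  map_add' x y := by simp [mul_add, Finset.sum_add_distrib]

@[simp] theorem form_apply (a : Fin n → ZMod m) (σ : Fin n → ZMod m) :
    form a σ = ∑ i, a i * σ i := rfl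

theorem form_single (a : Fin n → ZMod m) (i : Fin n) (x : ZMod m) :
    form a (Pi.single i x) = a i * x := by
  rw [form_apply, Finset.sum_eq_single i]
  · simp
  · intro j _ hj
    simp only [Pi.single_eq_of_ne hj, mul_zero]
  · simp only [mem_univ, not_true_eq_false, Pi.single_eq_same, mul_eq_zero, IsEmpty.forall_iff]

theorem card_form (a : Fin n → ZMod m) (i : Fin n) (ha : a i ≠ 0) (b : ZMod m) :
    (univ.filter fun σ : Fin n → ZMod m => ∑ i, a i * σ i = b).card * m = m ^ n := by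
  have h := card_fiber (form a) (fun b' => ⟨Pi.single i ((a i)⁻¹ * b'), by
    rw [form_single, mul_inv_cancel_left₀ ha]⟩) b
  have h2 : Fintype.card (Fin n → ZMod m) = m ^ n := by simp only [Fintype.card_pi, ZMod.card, prod_const, card_univ, Fintype.card_fin]
  rw [h2, ZMod.card] at h
  exact h

theorem card_form2 (a a' : Fin n → ZMod m) (i j : Fin n)
    (ha : a i * a' j - a j * a' i ≠ 0) (b b' : ZMod m) :
    (univ.filter fun σ : Fin n → ZMod m =>
      ∑ i, a i * σ i = b ∧ ∑ i, a' i * σ i = b').card * (m * m) = m ^ n := by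
  have h := card_fiber ((form a).prod (form a')) (fun y => by
    refine ⟨Pi.single i ((a i * a' j - a j * a' i)⁻¹ * (y.1 * a' j - y.2 * a j)) +
      Pi.single j ((a i * a' j - a j * a' i)⁻¹ * (a i * y.2 - a' i * y.1)), ?_⟩
    rw [AddMonoidHom.prod_apply, map_add, map_add, form_single, form_single, form_single,
      form_single]
    ext
    · simp only
      have : a i * ((a i * a' j - a j * a' i)⁻¹ * (y.1 * a' j - y.2 * a j)) +
          a j * ((a i * a' j - a j * a' i)⁻¹ * (a i * y.2 - a' i * y.1))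
          = ((a i * a' j - a j * a' i)⁻¹ * (a i * a' j - a j * a' i)) * y.1 := by ring
      rw [this, inv_mul_cancel₀ ha, one_mul]
    · simp only
      have : a' i * ((a i * a' j - a j * a' i)⁻¹ * (y.1 * a' j - y.2 * a j)) +
          a' j * ((a i * a' j - a j * a' i)⁻¹ * (a i * y.2 - a' i * y.1))
          = ((a i * a' j - a j * a' i)⁻¹ * (a i * a' j - a j * a' i)) * y.2 := by ring
      rw [this, inv_mul_cancel₀ ha, one_mul]) (b, b')
  simpa only [AddMonoidHom.prod_apply, form_apply, Prod.ext_iff, Fintype.card_prod, ZMod.card, Fintype.card_pi,     prod_const, card_univ, Fintype.card_fin] using h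

end forms

section expectation

variable {m : ℕ} [Fact m.Prime] {n : ℕ}

/-- sample space: every residue gets a side and a colour -/
def Om (m : ℕ) [Fact m.Prime] {n : ℕ} (X : Finset (Fin n → ℤ)) :
    Finset (ZMod m → Bool × (Fin n → ℤ)) :=
  Fintype.piFinset fun _ => (univ : Finset Bool) ×ˢ X

/-- expectation -/
noncomputable def E (X : Finset (Fin n → ℤ)) (p : (Fin n → ℤ) → ℝ)
    (F : (ZMod m → Bool × (Fin n → ℤ)) → ℝ) : ℝ :=
  ∑ ω ∈ Om m X, (∏ i, p (ω i).2) * F ω

variable (X : Finset (Fin n → ℤ)) (p : (Fin n → ℤ) → ℝ)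

theorem E_sum {S : Type*} (s : Finset S) (F : S → (ZMod m → Bool × (Fin n → ℤ)) → ℝ) :
    E X p (fun ω => ∑ k ∈ s, F k ω) = ∑ k ∈ s, E X p (F k) := by
  unfold E
  simp_rw [Finset.mul_sum]
  exact Finset.sum_comm

theorem E_add (F G : (ZMod m → Bool × (Fin n → ℤ)) → ℝ) :
    E X p (fun ω => F ω + G ω) = E X p F + E X p G := by
  unfold E
  simp_rw [mul_add]
  exact Finset.sum_add_distrib

theorem E_sub (F G : (ZMod m → Bool × (Fin n → ℤ)) → ℝ) :
    E X p (fun ω => F ω - G ω) = E X p F - E X p G := by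
  unfold E
  simp_rw [mul_sub]
  exact Finset.sum_sub_distrib _ _

theorem E_smul (c : ℝ) (F : (ZMod m → Bool × (Fin n → ℤ)) → ℝ) :
    E X p (fun ω => c * F ω) = c * E X p F := by
  unfold E
  rw [Finset.mul_sum]
  exact Finset.sum_congr rfl fun ω _ => by ring

theorem E_prod (g : ZMod m → Bool × (Fin n → ℤ) → ℝ) :
    E X p (fun ω => ∏ i, g i (ω i))
      = ∏ i, ∑ a ∈ (univ : Finset Bool) ×ˢ X, p a.2 * g i a := by
  unfold E Om
  rw [Finset.prod_univ_sum]
  exact Finset.sum_congr rfl fun ω _ => by rw [Finset.prod_mul_distrib]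

variable {X p}

theorem sum_weights (h : 2 * ∑ χ ∈ X, p χ = 1) :
    ∑ a ∈ (univ : Finset Bool) ×ˢ X, p a.2 = 1 := by
  rw [Finset.sum_product]
  simp only [Finset.sum_const, Finset.card_univ, Fintype.card_bool, nsmul_eq_mul]
  exact_mod_cast h

theorem E_const (h : 2 * ∑ χ ∈ X, p χ = 1) (c : ℝ) :
    E X p (fun _ : ZMod m → Bool × (Fin n → ℤ) => c) = c := by
  have h1 := E_prod (m := m) X p (fun _ _ => 1)
  simp only [Finset.prod_const_one, mul_one, sum_weights h] at h1
  have h2 := E_smul (m := m) X p c (fun _ => 1)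
  simp only [mul_one] at h2
  rw [h2, h1, mul_one]

theorem E_mono (hp : ∀ χ ∈ X, 0 < p χ) {F G : (ZMod m → Bool × (Fin n → ℤ)) → ℝ}
    (hFG : ∀ ω, F ω ≤ G ω) : E X p F ≤ E X p G := by
  unfold E
  refine Finset.sum_le_sum fun ω hω => ?_
  refine mul_le_mul_of_nonneg_left (hFG ω) (Finset.prod_nonneg fun i _ => ?_)
  have := Fintype.mem_piFinset.1 hω i
  exact (hp _ (Finset.mem_product.1 this).2).le

/-- there is an outcome at least as large as the expectation -/
theorem exists_ge (hp : ∀ χ ∈ X, 0 < p χ) (h : 2 * ∑ χ ∈ X, p χ = 1)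
    (F : (ZMod m → Bool × (Fin n → ℤ)) → ℝ) : ∃ ω, E X p F ≤ F ω := by
  by_contra hcon
  push Not at hcon
  have h1 : E X p F < E X p (fun _ : ZMod m → Bool × (Fin n → ℤ) => E X p F) := by
    obtain ⟨χ, hχ⟩ : X.Nonempty := by
      rw [Finset.nonempty_iff_ne_empty]
      rintro rfl
      simp at h
    refine Finset.sum_lt_sum_of_nonempty ⟨fun _ => (true, χ), ?_⟩ fun ω hω => ?_
    · exact Fintype.mem_piFinset.2 fun i => Finset.mem_product.2 ⟨mem_univ _, hχ⟩
    · refine mul_lt_mul_of_pos_left (hcon ω) (Finset.prod_pos fun i _ => ?_)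
      have := Fintype.mem_piFinset.1 hω i
      exact hp _ (Finset.mem_product.1 this).2
  rw [E_const h] at h1
  exact lt_irrefl _ h1

/-- representative of the pair `{t, -1-t}` -/
def rep (t : ZMod m) : ZMod m := if t.val < (-1 - t).val then t else -1 - t

/-- side of `t` in its pair -/
def side (t : ZMod m) : Bool := decide (t.val < (-1 - t).val)

theorem rep_eq {t t' : ZMod m} (h : rep t = rep t') : t = t' ∨ t = -1 - t' := by
  unfold rep at h
  split_ifs at h
  · exact Or.inl h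
  · exact Or.inr h
  · right; rw [← h]; ring
  · left; linear_combination -h

theorem neg_neg' (t : ZMod m) : -1 - (-1 - t) = t := by ring

theorem val_ne {t : ZMod m} (ht : t ≠ -1 - t) : t.val ≠ (-1 - t).val := by
  intro h
  exact ht (ZMod.val_injective m h)

theorem rep_neg {t : ZMod m} (ht : t ≠ -1 - t) : rep (-1 - t) = rep t := by
  unfold rep
  rw [neg_neg']
  have := val_ne ht
  split_ifs with h1 h2 h2
  · omega
  · rfl
  · rfl
  · omega

theorem side_neg {t : ZMod m} (ht : t ≠ -1 - t) : side (-1 - t) = !side t := by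
  unfold side
  rw [neg_neg']
  have := val_ne ht
  by_cases h : t.val < (-1 - t).val
  · have h2 : ¬ (-1 - t).val < t.val := by omega
    simp [h, h2]
  · have h2 : (-1 - t).val < t.val := by omega
    simp [h, h2]

/-- the random colouring -/
def col (ω : ZMod m → Bool × (Fin n → ℤ)) (t : ZMod m) : Option (Fin n → ℤ) :=
  if t = -1 - t then none else if (ω (rep t)).1 = side t then some (ω (rep t)).2 else none

theorem col_neg (ω : ZMod m → Bool × (Fin n → ℤ)) (t : ZMod m) (h : col ω t ≠ none) :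
    col ω (-1 - t) = none := by
  by_cases ht : t = -1 - t
  · exact absurd (if_pos ht) h
  · unfold col at h ⊢
    rw [if_neg ht] at h
    have h1 : (ω (rep t)).1 = side t := by
      by_contra h2
      exact h (if_neg h2)
    rw [if_neg (by rw [neg_neg']; exact fun h' => ht h'.symm), rep_neg ht, side_neg ht,
      if_neg (by rw [h1]; cases side t <;> simp)]

theorem col_eq_some (ω : ZMod m → Bool × (Fin n → ℤ)) {t : ZMod m} (ht : t ≠ -1 - t)
    (χ : Fin n → ℤ) : col ω t = some χ ↔ ω (rep t) = (side t, χ) := by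
  unfold col
  rw [if_neg ht]
  constructor
  · intro h
    split_ifs at h with h1
    exact Prod.ext h1 (Option.some.inj h)
  · intro h
    rw [h]
    simp

/-- indicator that `t` has colour `χ` -/
def ind (ω : ZMod m → Bool × (Fin n → ℤ)) (t : ZMod m) (χ : Fin n → ℤ) : ℝ :=
  if col ω t = some χ then 1 else 0

theorem E_ind_prod (h : 2 * ∑ χ ∈ X, p χ = 1) {S : Type*} (s : Finset S) (t : S → ZMod m)
    (κ : S → (Fin n → ℤ)) (hκ : ∀ k ∈ s, κ k ∈ X) (hmid : ∀ k ∈ s, t k ≠ -1 - t k)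
    (hdis : ∀ k ∈ s, ∀ l ∈ s, k ≠ l → t k ≠ t l ∧ t k ≠ -1 - t l) :
    E X p (fun ω => ∏ k ∈ s, ind ω (t k) (κ k)) = ∏ k ∈ s, p (κ k) := by
  classical
  have h1 : (fun ω : ZMod m → Bool × (Fin n → ℤ) => ∏ k ∈ s, ind ω (t k) (κ k))
      = fun ω => ∏ i, ∏ k ∈ s with rep (t k) = i,
        (if ω i = (side (t k), κ k) then (1 : ℝ) else 0) := by
    funext ω
    rw [← Finset.prod_fiberwise s (fun k => rep (t k))]
    refine Finset.prod_congr rfl fun i _ => Finset.prod_congr rfl fun k hk => ?_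
    rw [Finset.mem_filter] at hk
    unfold ind
    rw [← hk.2]
    exact if_congr (col_eq_some ω (hmid k hk.1) (κ k)) rfl rfl
  rw [h1, E_prod X p (fun i a => ∏ k ∈ s with rep (t k) = i,
    (if a = (side (t k), κ k) then (1 : ℝ) else 0)),
    ← Finset.prod_fiberwise s (fun k => rep (t k))]
  refine Finset.prod_congr rfl fun i _ => ?_
  rcases Finset.eq_empty_or_nonempty (s.filter fun k => rep (t k) = i) with h2 | ⟨k, hk⟩
  · rw [h2]
    simp only [prod_empty, mul_one]
    exact sum_weights h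
  · have h3 : (s.filter fun k => rep (t k) = i) = {k} := by
      refine Finset.eq_singleton_iff_unique_mem.2 ⟨hk, fun l hl => ?_⟩
      rw [Finset.mem_filter] at hk hl
      by_contra hne
      have h4 := hdis l hl.1 k hk.1 hne
      rcases rep_eq (hl.2.trans hk.2.symm) with h5 | h5
      · exact h4.1 h5
      · exact h4.2 h5
    rw [h3]
    simp only [Finset.prod_singleton, mul_ite, mul_one, mul_zero]
    rw [Finset.sum_ite_eq' (univ ×ˢ X) (side (t k), κ k) (fun a => p a.2), if_pos]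
    exact Finset.mem_product.2 ⟨mem_univ _, hκ k (Finset.mem_filter.1 hk).1⟩

theorem ind_nonneg (ω : ZMod m → Bool × (Fin n → ℤ)) (t : ZMod m) (χ : Fin n → ℤ) :
    0 ≤ ind ω t χ := by
  unfold ind; split_ifs <;> norm_num

theorem ind_le_one (ω : ZMod m → Bool × (Fin n → ℤ)) (t : ZMod m) (χ : Fin n → ℤ) :
    ind ω t χ ≤ 1 := by
  unfold ind; split_ifs <;> norm_num

end expectation

section counting

variable {m : ℕ} [Fact m.Prime] {n : ℕ}

/-- the point of the form `χ` -/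
def pt (c : (Fin n → ℤ) → ZMod m) (χ : Fin n → ℤ) (σ : Fin n → ZMod m) : ZMod m :=
  ∑ i, (χ i : ZMod m) * σ i + c χ

/-- `m` is not one of finitely many exceptional primes -/
structure Nice (m : ℕ) [Fact m.Prime] {n : ℕ} (X : Finset (Fin n → ℤ)) : Prop where
  two : (2 : ZMod m) ≠ 0
  ne : ∀ χ ∈ X, ∃ i, (χ i : ZMod m) ≠ 0
  minor : ∀ χ ∈ X, ∀ χ' ∈ X, χ ≠ χ' → ∃ i j,
    (χ i : ZMod m) * χ' j - (χ j : ZMod m) * χ' i ≠ 0

theorem m_pos (m : ℕ) [h : Fact m.Prime] : (0 : ℝ) < m := by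
  exact_mod_cast h.out.pos

variable {X : Finset (Fin n → ℤ)} (hN : Nice m X) (c : (Fin n → ℤ) → ZMod m)
include hN

theorem card_pt {χ : Fin n → ℤ} (hχ : χ ∈ X) (t : ZMod m) :
    ((univ.filter fun σ => pt c χ σ = t).card : ℝ) = (m : ℝ) ^ n / m := by
  obtain ⟨i, hi⟩ := hN.ne χ hχ
  have h := card_form (fun i => (χ i : ZMod m)) i hi (t - c χ)
  have h2 : (univ.filter fun σ => pt c χ σ = t)
      = univ.filter fun σ : Fin n → ZMod m => ∑ i, (χ i : ZMod m) * σ i = t - c χ := by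
    refine Finset.filter_congr fun σ _ => ?_
    unfold pt
    rw [eq_sub_iff_add_eq]
  rw [h2, eq_div_iff (m_pos m).ne']
  exact_mod_cast h

theorem card_add {χ χ' : Fin n → ℤ} (hχ : χ ∈ X) (hχ' : χ' ∈ X) :
    ((univ.filter fun σ => pt c χ σ = -1 - pt c χ' σ).card : ℝ) ≤ (m : ℝ) ^ n / m := by
  have h0 : ∃ i, ((χ i : ZMod m) + χ' i) ≠ 0 := by
    by_cases hne : χ = χ'
    · obtain ⟨i, hi⟩ := hN.ne χ hχ
      refine ⟨i, ?_⟩
      rw [← hne, ← two_mul]
      exact mul_ne_zero hN.two hi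
    · obtain ⟨i, j, hij⟩ := hN.minor χ hχ χ' hχ' hne
      by_contra hcon
      push Not at hcon
      apply hij
      have h1 := hcon i
      have h2 := hcon j
      linear_combination (χ' j : ZMod m) * h1 - (χ' i : ZMod m) * h2
  obtain ⟨i, hi⟩ := h0
  have h := card_form (fun i => (χ i : ZMod m) + (χ' i : ZMod m)) i hi (-1 - c χ - c χ')
  have h2 : (univ.filter fun σ => pt c χ σ = -1 - pt c χ' σ)
      = univ.filter fun σ : Fin n → ZMod m =>
        ∑ i, ((χ i : ZMod m) + (χ' i : ZMod m)) * σ i = -1 - c χ - c χ' := by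
    refine Finset.filter_congr fun σ _ => ?_
    unfold pt
    simp only [add_mul, Finset.sum_add_distrib]
    constructor
    · intro h; linear_combination h
    · intro h; linear_combination h
  rw [h2]
  refine le_of_eq ?_
  rw [eq_div_iff (m_pos m).ne']
  exact_mod_cast h

theorem card_sub {χ χ' : Fin n → ℤ} (hχ : χ ∈ X) (hχ' : χ' ∈ X) (hne : χ ≠ χ') :
    ((univ.filter fun σ => pt c χ σ = pt c χ' σ).card : ℝ) ≤ (m : ℝ) ^ n / m := by
  have h0 : ∃ i, ((χ i : ZMod m) - χ' i) ≠ 0 := by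
    obtain ⟨i, j, hij⟩ := hN.minor χ hχ χ' hχ' hne
    by_contra hcon
    push Not at hcon
    apply hij
    have h1 := hcon i
    have h2 := hcon j
    linear_combination (χ' j : ZMod m) * h1 - (χ' i : ZMod m) * h2
  obtain ⟨i, hi⟩ := h0
  have h := card_form (fun i => (χ i : ZMod m) - (χ' i : ZMod m)) i hi (c χ' - c χ)
  have h2 : (univ.filter fun σ => pt c χ σ = pt c χ' σ)
      = univ.filter fun σ : Fin n → ZMod m =>
        ∑ i, ((χ i : ZMod m) - (χ' i : ZMod m)) * σ i = c χ' - c χ := by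
    refine Finset.filter_congr fun σ _ => ?_
    unfold pt
    simp only [sub_mul, Finset.sum_sub_distrib]
    constructor
    · intro h; linear_combination h
    · intro h; linear_combination h
  rw [h2]
  refine le_of_eq ?_
  rw [eq_div_iff (m_pos m).ne']
  exact_mod_cast h

theorem card_pair {χ χ' : Fin n → ℤ} (hχ : χ ∈ X) (hχ' : χ' ∈ X) (hne : χ ≠ χ')
    (t t' : ZMod m) :
    ((univ.filter fun σ => pt c χ σ = t ∧ pt c χ' σ = t').card : ℝ)
      ≤ (m : ℝ) ^ n / (m * m) := by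
  obtain ⟨i, j, hij⟩ := hN.minor χ hχ χ' hχ' hne
  have h := card_form2 (fun i => (χ i : ZMod m)) (fun i => (χ' i : ZMod m)) i j hij
    (t - c χ) (t' - c χ')
  have h2 : (univ.filter fun σ => pt c χ σ = t ∧ pt c χ' σ = t')
      = univ.filter fun σ : Fin n → ZMod m => ∑ i, (χ i : ZMod m) * σ i = t - c χ ∧
        ∑ i, (χ' i : ZMod m) * σ i = t' - c χ' := by
    refine Finset.filter_congr fun σ _ => ?_
    unfold pt
    rw [eq_sub_iff_add_eq, eq_sub_iff_add_eq]
  rw [h2]
  refine le_of_eq ?_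
  have hm := m_pos m
  rw [eq_div_iff (mul_pos hm hm).ne']
  exact_mod_cast h

omit hN in
/-- degenerate `σ` -/
def deg (X : Finset (Fin n → ℤ)) (c : (Fin n → ℤ) → ZMod m) : Finset (Fin n → ZMod m) :=
  X.biUnion fun χ => X.biUnion fun χ' =>
    (univ.filter fun σ => pt c χ σ = -1 - pt c χ' σ) ∪
      (univ.filter fun σ => χ ≠ χ' ∧ pt c χ σ = pt c χ' σ)

omit hN in
theorem not_mem_deg {σ : Fin n → ZMod m} (h : σ ∉ deg X c) {χ χ' : Fin n → ℤ} (hχ : χ ∈ X)
    (hχ' : χ' ∈ X) : pt c χ σ ≠ -1 - pt c χ' σ ∧ (χ ≠ χ' → pt c χ σ ≠ pt c χ' σ) := by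
  unfold deg at h
  simp only [mem_biUnion, mem_union, mem_filter, mem_univ, true_and, not_exists, not_and, not_or] at h
  exact ⟨(h χ hχ χ' hχ').1, (h χ hχ χ' hχ').2⟩

theorem card_deg : ((deg X c).card : ℝ) ≤ 2 * (X.card : ℝ) ^ 2 * ((m : ℝ) ^ n / m) := by
  have hW : 0 ≤ (m : ℝ) ^ n / m := by (clear * -; positivity)
  have h1 : ∀ χ ∈ X, ((X.biUnion fun χ' =>
      (univ.filter fun σ => pt c χ σ = -1 - pt c χ' σ) ∪
      (univ.filter fun σ => χ ≠ χ' ∧ pt c χ σ = pt c χ' σ)).card : ℝ)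
      ≤ X.card * (2 * ((m : ℝ) ^ n / m)) := by
    intro χ hχ
    refine le_trans (Nat.cast_le.2 Finset.card_biUnion_le) ?_
    rw [Nat.cast_sum, ← nsmul_eq_mul]
    refine Finset.sum_le_card_nsmul _ _ _ fun χ' hχ' => ?_
    refine le_trans (Nat.cast_le.2 (Finset.card_union_le _ _)) ?_
    rw [Nat.cast_add, two_mul]
    refine add_le_add (card_add hN c hχ hχ') ?_
    by_cases hne : χ = χ'
    · rw [Finset.filter_false_of_mem (fun σ _ h => h.1 hne)]
      simpa only [card_empty, CharP.cast_eq_zero] using hW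
    · refine le_trans ?_ (card_sub hN c hχ hχ' hne)
      refine Nat.cast_le.2 (Finset.card_le_card fun σ h => ?_)
      rw [Finset.mem_filter] at h ⊢
      exact ⟨h.1, h.2.2⟩
  refine le_trans (Nat.cast_le.2 Finset.card_biUnion_le) ?_
  rw [Nat.cast_sum]
  refine le_trans (Finset.sum_le_card_nsmul _ _ _ h1) ?_
  rw [nsmul_eq_mul]
  exact le_of_eq (by ring)

end counting

section moment

variable {m : ℕ} [Fact m.Prime] {n : ℕ} {X : Finset (Fin n → ℤ)} {p : (Fin n → ℤ) → ℝ}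

theorem E_prod_ge (hp : ∀ χ ∈ X, 0 < p χ) (h : 2 * ∑ χ ∈ X, p χ = 1)
    (c : (Fin n → ℤ) → ZMod m) (s : Finset (Fin n → ℤ)) (hs : s ⊆ X) (σ : Fin n → ZMod m) :
    (∏ χ ∈ s, p χ) * (1 - if σ ∈ deg X c then 1 else 0)
      ≤ E X p (fun ω => ∏ χ ∈ s, ind ω (pt c χ σ) χ) := by
  by_cases hσ : σ ∈ deg X c
  · rw [if_pos hσ, sub_self, mul_zero]
    have h1 := E_mono (m := m) hp (F := fun _ => 0)
      (G := fun ω => ∏ χ ∈ s, ind ω (pt c χ σ) χ)
      (fun ω => Finset.prod_nonneg fun χ _ => ind_nonneg _ _ _)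
    rwa [E_const h] at h1
  · rw [if_neg hσ, sub_zero, mul_one]
    refine le_of_eq ?_
    symm
    refine E_ind_prod h s (fun χ => pt c χ σ) (fun χ => χ) (fun χ hχ => hs hχ) ?_ ?_
    · intro χ hχ
      exact (not_mem_deg c hσ (hs hχ) (hs hχ)).1
    · intro χ hχ χ' hχ' hne
      exact ⟨(not_mem_deg c hσ (hs hχ) (hs hχ')).2 hne,
        (not_mem_deg c hσ (hs hχ) (hs hχ')).1⟩

/-- all modes except `χ₀` have the correct colour -/
def Y (X : Finset (Fin n → ℤ)) (c : (Fin n → ℤ) → ZMod m) (χ₀ : Fin n → ℤ)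
    (ω : ZMod m → Bool × (Fin n → ℤ)) (σ : Fin n → ZMod m) : ℝ :=
  ∏ χ ∈ X.erase χ₀, ind ω (pt c χ σ) χ

theorem Y_nonneg (c : (Fin n → ℤ) → ZMod m) (χ₀ : Fin n → ℤ)
    (ω : ZMod m → Bool × (Fin n → ℤ)) (σ : Fin n → ZMod m) : 0 ≤ Y X c χ₀ ω σ :=
  Finset.prod_nonneg fun _ _ => ind_nonneg _ _ _

theorem Y_le_one (c : (Fin n → ℤ) → ZMod m) (χ₀ : Fin n → ℤ)
    (ω : ZMod m → Bool × (Fin n → ℤ)) (σ : Fin n → ZMod m) : Y X c χ₀ ω σ ≤ 1 :=
  Finset.prod_le_one (fun _ _ => ind_nonneg _ _ _) fun _ _ => ind_le_one _ _ _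

/-- the error term of a pair `(σ, σ')` -/
def R (X : Finset (Fin n → ℤ)) (c : (Fin n → ℤ) → ZMod m) (χ₀ : Fin n → ℤ)
    (σ σ' : Fin n → ZMod m) : ℝ :=
  (if σ ∈ deg X c then 1 else 0) + (if σ' ∈ deg X c then 1 else 0) +
    ∑ χ ∈ X.erase χ₀, ∑ χ' ∈ X.erase χ₀,
      ((if pt c χ' σ' = pt c χ σ then 1 else 0) +
        (if pt c χ' σ' = -1 - pt c χ σ then 1 else 0))

theorem E_YY (hp : ∀ χ ∈ X, 0 < p χ) (h : 2 * ∑ χ ∈ X, p χ = 1)
    (c : (Fin n → ℤ) → ZMod m) (χ₀ : Fin n → ℤ) (σ σ' : Fin n → ZMod m) :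
    E X p (fun ω => Y X c χ₀ ω σ * Y X c χ₀ ω σ')
      ≤ (∏ χ ∈ X.erase χ₀, p χ) ^ 2 + R X c χ₀ σ σ' := by
  have hi : ∀ (P : Prop) [Decidable P], (0 : ℝ) ≤ if P then 1 else 0 := by
    intro P _; split_ifs <;> norm_num
  have hs : 0 ≤ ∑ χ ∈ X.erase χ₀, ∑ χ' ∈ X.erase χ₀,
      ((if pt c χ' σ' = pt c χ σ then (1 : ℝ) else 0) +
        (if pt c χ' σ' = -1 - pt c χ σ then 1 else 0)) :=
    Finset.sum_nonneg fun χ _ => Finset.sum_nonneg fun χ' _ => add_nonneg (hi _) (hi _)
  have hle1 : E X p (fun ω => Y X c χ₀ ω σ * Y X c χ₀ ω σ') ≤ 1 := by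
    have h1 := E_mono (m := m) hp (F := fun ω => Y X c χ₀ ω σ * Y X c χ₀ ω σ')
      (G := fun _ => 1) (fun ω => mul_le_one₀ (Y_le_one _ _ _ _) (Y_nonneg _ _ _ _)
        (Y_le_one _ _ _ _))
    rwa [E_const h] at h1
  by_cases h1 : σ ∈ deg X c
  · have : 1 ≤ R X c χ₀ σ σ' := by
      unfold R
      rw [if_pos h1]
      linarith [hi (σ' ∈ deg X c)]
    nlinarith [sq_nonneg (∏ χ ∈ X.erase χ₀, p χ)]
  by_cases h2 : σ' ∈ deg X c
  · have : 1 ≤ R X c χ₀ σ σ' := by
      unfold R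
      rw [if_pos h2]
      linarith [hi (σ ∈ deg X c)]
    nlinarith [sq_nonneg (∏ χ ∈ X.erase χ₀, p χ)]
  by_cases h3 : ∃ χ ∈ X.erase χ₀, ∃ χ' ∈ X.erase χ₀,
      pt c χ' σ' = pt c χ σ ∨ pt c χ' σ' = -1 - pt c χ σ
  · obtain ⟨χ, hχ, χ', hχ', h4⟩ := h3
    have h5 : 1 ≤ R X c χ₀ σ σ' := by
      have h6 : (1 : ℝ) ≤ ∑ χ ∈ X.erase χ₀, ∑ χ' ∈ X.erase χ₀,
          ((if pt c χ' σ' = pt c χ σ then (1 : ℝ) else 0) +
            (if pt c χ' σ' = -1 - pt c χ σ then 1 else 0)) := by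
        refine le_trans ?_ (Finset.single_le_sum (fun χ _ => Finset.sum_nonneg fun χ' _ =>
          add_nonneg (hi _) (hi _)) hχ)
        refine le_trans ?_ (Finset.single_le_sum (fun χ' _ =>
          add_nonneg (hi _) (hi _)) hχ')
        rcases h4 with h4 | h4
        · rw [if_pos h4]
          linarith [hi (pt c χ' σ' = -1 - pt c χ σ)]
        · rw [if_pos h4]
          linarith [hi (pt c χ' σ' = pt c χ σ)]
      unfold R
      linarith [hi (σ ∈ deg X c), hi (σ' ∈ deg X c)]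
    (clear hs h1 h2; nlinarith [sq_nonneg (∏ χ ∈ X.erase χ₀, p χ)])
  · push Not at h3
    have h4 := E_ind_prod (m := m) h ((X.erase χ₀) ×ˢ (univ : Finset Bool))
      (fun k => pt c k.1 (if k.2 then σ else σ')) (fun k => k.1)
      (fun k hk => Finset.mem_of_mem_erase (Finset.mem_product.1 hk).1)
      (by
        rintro ⟨χ, b⟩ hk
        have hχ := Finset.mem_of_mem_erase (Finset.mem_product.1 hk).1
        cases b
        · exact (not_mem_deg c h2 hχ hχ).1
        · exact (not_mem_deg c h1 hχ hχ).1)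
      (by
        rintro ⟨χ, b⟩ hk ⟨χ', b'⟩ hk' hne
        have hχ0 := (Finset.mem_product.1 hk).1
        have hχ0' := (Finset.mem_product.1 hk').1
        have hχ := Finset.mem_of_mem_erase hχ0
        have hχ' := Finset.mem_of_mem_erase hχ0'
        cases b <;> cases b'
        · have hne' : χ ≠ χ' := fun h => hne (by rw [h])
          exact ⟨(not_mem_deg c h2 hχ hχ').2 hne', (not_mem_deg c h2 hχ hχ').1⟩
        · exact h3 χ' hχ0' χ hχ0
        · refine ⟨fun h5 => (h3 χ hχ0 χ' hχ0').1 h5.symm, fun h5 => ?_⟩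
          refine (h3 χ hχ0 χ' hχ0').2 ?_
          simp only [if_true] at h5
          change pt c χ σ = -1 - pt c χ' σ' at h5
          rw [h5]
          ring
        · have hne' : χ ≠ χ' := fun h => hne (by rw [h])
          exact ⟨(not_mem_deg c h1 hχ hχ').2 hne', (not_mem_deg c h1 hχ hχ').1⟩)
    have h5 : (fun ω => ∏ k ∈ (X.erase χ₀) ×ˢ (univ : Finset Bool),
        ind ω (pt c k.1 (if k.2 then σ else σ')) k.1)
        = fun ω => Y X c χ₀ ω σ * Y X c χ₀ ω σ' := by
      funext ω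
      rw [Finset.prod_product]
      unfold Y
      rw [← Finset.prod_mul_distrib]
      refine Finset.prod_congr rfl fun χ _ => ?_
      rw [Fintype.prod_bool]
      simp
    have h6 : ∏ k ∈ (X.erase χ₀) ×ˢ (univ : Finset Bool), p k.1
        = (∏ χ ∈ X.erase χ₀, p χ) ^ 2 := by
      rw [Finset.prod_product, ← Finset.prod_pow]
      refine Finset.prod_congr rfl fun χ _ => ?_
      rw [Fintype.prod_bool, sq]
    rw [h5, h6] at h4
    rw [h4]
    have : 0 ≤ R X c χ₀ σ σ' := by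
      unfold R
      linarith [hi (σ ∈ deg X c), hi (σ' ∈ deg X c)]
    linarith

theorem sum_ite_one {α : Type*} [Fintype α] (P : α → Prop) [DecidablePred P] :
    ∑ a, (if P a then (1 : ℝ) else 0) = (univ.filter P).card := by
  rw [Finset.sum_boole]

theorem sum_R (hN : Nice m X) (c : (Fin n → ℤ) → ZMod m) {χ₀ : Fin n → ℤ} (h₀ : χ₀ ∈ X) :
    ∑ σ, ∑ σ', (if pt c χ₀ σ' = pt c χ₀ σ then R X c χ₀ σ σ' else 0)
      ≤ 6 * (X.card : ℝ) ^ 2 * ((m : ℝ) ^ n / m) ^ 2 := by
  have hm := m_pos m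
  have hW : 0 ≤ (m : ℝ) ^ n / m := by positivity
  have hdeg := card_deg hN c
  have hcard : (Fintype.card (Fin n → ZMod m) : ℝ) = (m : ℝ) ^ n := by
    simp only [Fintype.card_pi, ZMod.card, prod_const, card_univ, Fintype.card_fin, Nat.cast_pow]
  -- part 1
  have h1 : ∑ σ, ∑ σ', (if pt c χ₀ σ' = pt c χ₀ σ then
      (if σ ∈ deg X c then (1 : ℝ) else 0) else 0)
      ≤ 2 * (X.card : ℝ) ^ 2 * ((m : ℝ) ^ n / m) ^ 2 := by
    have h2 : ∀ σ : Fin n → ZMod m, ∑ σ', (if pt c χ₀ σ' = pt c χ₀ σ then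
        (if σ ∈ deg X c then (1 : ℝ) else 0) else 0)
        = (if σ ∈ deg X c then (1 : ℝ) else 0) * ((m : ℝ) ^ n / m) := by
      intro σ
      rw [← card_pt hN c h₀ (pt c χ₀ σ), ← sum_ite_one, Finset.mul_sum]
      refine Finset.sum_congr rfl fun σ' _ => ?_
      split_ifs <;> simp
    rw [Finset.sum_congr rfl fun σ _ => h2 σ, ← Finset.sum_mul, sum_ite_one,
      Finset.filter_mem_eq_inter, Finset.univ_inter]
    nlinarith
  have h1' : ∑ σ, ∑ σ', (if pt c χ₀ σ' = pt c χ₀ σ then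
      (if σ' ∈ deg X c then (1 : ℝ) else 0) else 0)
      ≤ 2 * (X.card : ℝ) ^ 2 * ((m : ℝ) ^ n / m) ^ 2 := by
    rw [Finset.sum_comm]
    refine le_trans (le_of_eq ?_) h1
    refine Finset.sum_congr rfl fun σ _ => Finset.sum_congr rfl fun σ' _ => ?_
    exact if_congr eq_comm rfl rfl
  have h3 : ∑ σ, ∑ σ', (if pt c χ₀ σ' = pt c χ₀ σ then
      (∑ χ ∈ X.erase χ₀, ∑ χ' ∈ X.erase χ₀,
      ((if pt c χ' σ' = pt c χ σ then (1 : ℝ) else 0) +
        (if pt c χ' σ' = -1 - pt c χ σ then 1 else 0))) else 0)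
      ≤ 2 * (X.card : ℝ) ^ 2 * ((m : ℝ) ^ n / m) ^ 2 := by
    have h4 : ∀ σ : Fin n → ZMod m, ∑ σ', (if pt c χ₀ σ' = pt c χ₀ σ then
        (∑ χ ∈ X.erase χ₀, ∑ χ' ∈ X.erase χ₀,
        ((if pt c χ' σ' = pt c χ σ then (1 : ℝ) else 0) +
          (if pt c χ' σ' = -1 - pt c χ σ then 1 else 0))) else 0)
        ≤ (X.card : ℝ) ^ 2 * (2 * ((m : ℝ) ^ n / (m * m))) := by
      intro σ
      have h5 : ∑ σ', (if pt c χ₀ σ' = pt c χ₀ σ then
          (∑ χ ∈ X.erase χ₀, ∑ χ' ∈ X.erase χ₀,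
          ((if pt c χ' σ' = pt c χ σ then (1 : ℝ) else 0) +
            (if pt c χ' σ' = -1 - pt c χ σ then 1 else 0))) else 0)
          = ∑ χ ∈ X.erase χ₀, ∑ χ' ∈ X.erase χ₀,
            (((univ.filter fun σ' => pt c χ₀ σ' = pt c χ₀ σ ∧
              pt c χ' σ' = pt c χ σ).card : ℝ) +
            ((univ.filter fun σ' => pt c χ₀ σ' = pt c χ₀ σ ∧
              pt c χ' σ' = -1 - pt c χ σ).card : ℝ)) := by
        have h6 : ∀ σ' : Fin n → ZMod m, (if pt c χ₀ σ' = pt c χ₀ σ then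
          (∑ χ ∈ X.erase χ₀, ∑ χ' ∈ X.erase χ₀,
          ((if pt c χ' σ' = pt c χ σ then (1 : ℝ) else 0) +
            (if pt c χ' σ' = -1 - pt c χ σ then 1 else 0))) else 0)
            = ∑ χ ∈ X.erase χ₀, ∑ χ' ∈ X.erase χ₀,
            ((if pt c χ₀ σ' = pt c χ₀ σ ∧ pt c χ' σ' = pt c χ σ then (1 : ℝ) else 0) +
            (if pt c χ₀ σ' = pt c χ₀ σ ∧ pt c χ' σ' = -1 - pt c χ σ then 1 else 0)) := by
          intro σ'
          by_cases h7 : pt c χ₀ σ' = pt c χ₀ σ
          · simp only [h7, ↓reduceIte, true_and]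
          · simp [h7]
        rw [Finset.sum_congr rfl fun σ' _ => h6 σ', Finset.sum_comm]
        refine Finset.sum_congr rfl fun χ _ => ?_
        rw [Finset.sum_comm]
        refine Finset.sum_congr rfl fun χ' _ => ?_
        rw [Finset.sum_add_distrib, sum_ite_one, sum_ite_one]
      rw [h5]
      have h8 : ∀ χ ∈ X.erase χ₀, ∑ χ' ∈ X.erase χ₀,
            (((univ.filter fun σ' => pt c χ₀ σ' = pt c χ₀ σ ∧
              pt c χ' σ' = pt c χ σ).card : ℝ) +
            ((univ.filter fun σ' => pt c χ₀ σ' = pt c χ₀ σ ∧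
              pt c χ' σ' = -1 - pt c χ σ).card : ℝ))
            ≤ (X.erase χ₀).card • (2 * ((m : ℝ) ^ n / (m * m))) := by
        intro χ _
        refine Finset.sum_le_card_nsmul _ _ _ fun χ' hχ' => ?_
        rw [two_mul]
        exact add_le_add
          (card_pair hN c h₀ (Finset.mem_of_mem_erase hχ') (Finset.ne_of_mem_erase hχ').symm _ _)
          (card_pair hN c h₀ (Finset.mem_of_mem_erase hχ') (Finset.ne_of_mem_erase hχ').symm _ _)
      refine le_trans (Finset.sum_le_card_nsmul _ _ _ h8) ?_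
      rw [nsmul_eq_mul, nsmul_eq_mul, ← mul_assoc, ← sq]
      have h9 : ((X.erase χ₀).card : ℝ) ≤ X.card := by
        exact_mod_cast Finset.card_le_card (Finset.erase_subset _ _)
      (clear * - h9 hm; gcongr)
    refine le_trans (Finset.sum_le_card_nsmul univ _ _ fun σ _ => h4 σ) ?_
    rw [nsmul_eq_mul, Finset.card_univ, hcard]
    refine le_of_eq ?_
    (clear * - hm; field_simp)
  have h10 : ∀ σ σ' : Fin n → ZMod m, (if pt c χ₀ σ' = pt c χ₀ σ then R X c χ₀ σ σ' else 0)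
      = (if pt c χ₀ σ' = pt c χ₀ σ then
      (if σ ∈ deg X c then (1 : ℝ) else 0) else 0) + (if pt c χ₀ σ' = pt c χ₀ σ then
      (if σ' ∈ deg X c then (1 : ℝ) else 0) else 0) + (if pt c χ₀ σ' = pt c χ₀ σ then
      (∑ χ ∈ X.erase χ₀, ∑ χ' ∈ X.erase χ₀,
      ((if pt c χ' σ' = pt c χ σ then (1 : ℝ) else 0) +
        (if pt c χ' σ' = -1 - pt c χ σ then 1 else 0))) else 0) := by
    intro σ σ'
    unfold R
    by_cases h7 : pt c χ₀ σ' = pt c χ₀ σ
    · rw [if_pos h7, if_pos h7, if_pos h7, if_pos h7]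
    · rw [if_neg h7, if_neg h7, if_neg h7, if_neg h7]
      ring
  have h11 : ∀ f g k : (Fin n → ZMod m) → (Fin n → ZMod m) → ℝ,
      ∑ σ, ∑ σ', (f σ σ' + g σ σ' + k σ σ')
        = ∑ σ, ∑ σ', f σ σ' + ∑ σ, ∑ σ', g σ σ' + ∑ σ, ∑ σ', k σ σ' := by
    intro f g k
    simp only [Finset.sum_add_distrib]
  rw [Finset.sum_congr rfl fun σ _ => Finset.sum_congr rfl fun σ' _ => h10 σ σ',
    h11 (fun σ σ' => if pt c χ₀ σ' = pt c χ₀ σ then
      (if σ ∈ deg X c then (1 : ℝ) else 0) else 0) (fun σ σ' => if pt c χ₀ σ' = pt c χ₀ σ then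
      (if σ' ∈ deg X c then (1 : ℝ) else 0) else 0) (fun σ σ' =>
      if pt c χ₀ σ' = pt c χ₀ σ then
      (∑ χ ∈ X.erase χ₀, ∑ χ' ∈ X.erase χ₀,
      ((if pt c χ' σ' = pt c χ σ then (1 : ℝ) else 0) +
        (if pt c χ' σ' = -1 - pt c χ σ then 1 else 0))) else 0)]
  linarith

/-- number of `σ` through `t` in mode `χ₀`, all other modes correct -/
def Nt (X : Finset (Fin n → ℤ)) (c : (Fin n → ℤ) → ZMod m) (χ₀ : Fin n → ℤ)
    (ω : ZMod m → Bool × (Fin n → ℤ)) (t : ZMod m) : ℝ :=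
  ∑ σ : Fin n → ZMod m, if pt c χ₀ σ = t then Y X c χ₀ ω σ else 0

theorem sum_Nt (c : (Fin n → ℤ) → ZMod m) (χ₀ : Fin n → ℤ)
    (ω : ZMod m → Bool × (Fin n → ℤ)) : ∑ t, Nt X c χ₀ ω t = ∑ σ, Y X c χ₀ ω σ := by
  unfold Nt
  rw [Finset.sum_comm]
  refine Finset.sum_congr rfl fun σ _ => ?_
  simp only [sum_ite_eq, mem_univ, ↓reduceIte]

theorem sum_Nt_sq (c : (Fin n → ℤ) → ZMod m) (χ₀ : Fin n → ℤ)
    (ω : ZMod m → Bool × (Fin n → ℤ)) : ∑ t, Nt X c χ₀ ω t ^ 2
      = ∑ σ, ∑ σ', if pt c χ₀ σ' = pt c χ₀ σ then Y X c χ₀ ω σ * Y X c χ₀ ω σ' else 0 := by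
  unfold Nt
  simp_rw [sq, Finset.sum_mul_sum]
  rw [Finset.sum_comm]
  refine Finset.sum_congr rfl fun σ _ => ?_
  rw [Finset.sum_comm]
  refine Finset.sum_congr rfl fun σ' _ => ?_
  simp_rw [ite_mul, zero_mul]
  rw [Finset.sum_ite_eq univ (pt c χ₀ σ), if_pos (mem_univ _), mul_ite, mul_zero]

/-- second moment bound -/
theorem variance (hp : ∀ χ ∈ X, 0 < p χ) (h : 2 * ∑ χ ∈ X, p χ = 1) (hN : Nice m X)
    (c : (Fin n → ℤ) → ZMod m) {χ₀ : Fin n → ℤ} (h₀ : χ₀ ∈ X) :
    E X p (fun ω => ∑ t, (Nt X c χ₀ ω t - (∏ χ ∈ X.erase χ₀, p χ) * ((m : ℝ) ^ n / m)) ^ 2)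
      ≤ 10 * (X.card : ℝ) ^ 2 * ((m : ℝ) ^ n / m) ^ 2 := by
  have hm := m_pos m
  set W : ℝ := (m : ℝ) ^ n / m with hWdef
  have hW : 0 ≤ W := by (clear * - hm; positivity)
  set P : ℝ := ∏ χ ∈ X.erase χ₀, p χ with hP
  have hcard : (Fintype.card (Fin n → ZMod m) : ℝ) = (m : ℝ) ^ n := by
    simp only [Fintype.card_pi, ZMod.card, prod_const, card_univ, Fintype.card_fin, Nat.cast_pow]
  have hWm : (m : ℝ) ^ n = W * m := by
    rw [hWdef]; field_simp
  have hP0 : 0 ≤ P := Finset.prod_nonneg fun χ hχ => (hp χ (Finset.mem_of_mem_erase hχ)).le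
  have hP1 : P ≤ 1 := Finset.prod_le_one
    (fun χ hχ => (hp χ (Finset.mem_of_mem_erase hχ)).le) fun χ hχ => by
      have h1 := Finset.single_le_sum (fun χ hχ => (hp χ hχ).le) (Finset.mem_of_mem_erase hχ)
      have h2 : p χ ≤ ∑ χ ∈ X, p χ := h1
      linarith [hp χ (Finset.mem_of_mem_erase hχ)]
  -- expectation of the sum
  have h1 : P * (m ^ n - 2 * (X.card : ℝ) ^ 2 * W)
      ≤ E X p (fun ω => ∑ t, Nt X c χ₀ ω t) := by
    simp_rw [sum_Nt]
    rw [E_sum]
    have h2 : ∀ σ : Fin n → ZMod m, P * (1 - if σ ∈ deg X c then 1 else 0)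
        ≤ E X p (fun ω => Y X c χ₀ ω σ) := fun σ =>
      E_prod_ge hp h c (X.erase χ₀) (Finset.erase_subset _ _) σ
    refine le_trans ?_ (Finset.sum_le_sum fun σ _ => h2 σ)
    rw [← Finset.mul_sum, Finset.sum_sub_distrib, sum_ite_one,
      Finset.filter_mem_eq_inter, Finset.univ_inter, Finset.sum_const, nsmul_eq_mul,
      Finset.card_univ, hcard, mul_one]
    have := card_deg hN c
    refine mul_le_mul_of_nonneg_left ?_ hP0
    linarith
  have h2 : E X p (fun ω => ∑ t, Nt X c χ₀ ω t ^ 2)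
      ≤ P ^ 2 * (m ^ n * W) + 6 * (X.card : ℝ) ^ 2 * W ^ 2 := by
    simp_rw [sum_Nt_sq]
    rw [E_sum]
    have h3 : ∀ σ : Fin n → ZMod m, E X p (fun ω => ∑ σ',
        if pt c χ₀ σ' = pt c χ₀ σ then Y X c χ₀ ω σ * Y X c χ₀ ω σ' else 0)
        ≤ P ^ 2 * W + ∑ σ', (if pt c χ₀ σ' = pt c χ₀ σ then R X c χ₀ σ σ' else 0) := by
      intro σ
      rw [E_sum]
      have h4 : ∀ σ' : Fin n → ZMod m, E X p (fun ω =>
          if pt c χ₀ σ' = pt c χ₀ σ then Y X c χ₀ ω σ * Y X c χ₀ ω σ' else 0)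
          ≤ P ^ 2 * (if pt c χ₀ σ' = pt c χ₀ σ then 1 else 0) +
            (if pt c χ₀ σ' = pt c χ₀ σ then R X c χ₀ σ σ' else 0) := by
        intro σ'
        by_cases h5 : pt c χ₀ σ' = pt c χ₀ σ
        · simp only [h5, if_true, mul_one]
          exact E_YY hp h c χ₀ σ σ'
        · simp only [h5, if_false, mul_zero, add_zero]
          rw [E_const h]
      refine le_trans (Finset.sum_le_sum fun σ' _ => h4 σ') ?_
      rw [Finset.sum_add_distrib, ← Finset.mul_sum, sum_ite_one,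
        card_pt hN c h₀ (pt c χ₀ σ)]
    refine le_trans (Finset.sum_le_sum fun σ _ => h3 σ) ?_
    rw [Finset.sum_add_distrib, Finset.sum_const, nsmul_eq_mul, Finset.card_univ, hcard]
    have := sum_R hN c h₀
    (clear hp h hm hWdef hW hP hcard hWm hP0 hP1 h1 h3; linarith)
  have h3 : (fun ω => ∑ t, (Nt X c χ₀ ω t - P * W) ^ 2)
      = fun ω => (∑ t, Nt X c χ₀ ω t ^ 2 - 2 * (P * W) * ∑ t, Nt X c χ₀ ω t)
        + m * (P * W) ^ 2 := by
    funext ω
    have h4 : ∀ t, (Nt X c χ₀ ω t - P * W) ^ 2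
        = Nt X c χ₀ ω t ^ 2 - 2 * (P * W) * Nt X c χ₀ ω t + (P * W) ^ 2 := fun t => by ring
    rw [Finset.sum_congr rfl fun t _ => h4 t, Finset.sum_add_distrib,
      Finset.sum_sub_distrib, ← Finset.mul_sum, Finset.sum_const,
      nsmul_eq_mul, Finset.card_univ, ZMod.card]
  rw [h3, E_add, E_sub, E_smul, E_const h]
  have h5 : 2 * (P * W) * (P * (m ^ n - 2 * (X.card : ℝ) ^ 2 * W))
      ≤ 2 * (P * W) * E X p (fun ω => ∑ t, Nt X c χ₀ ω t) :=
    mul_le_mul_of_nonneg_left h1 (mul_nonneg two_pos.le (mul_nonneg hP0 hW))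
  have h6 : P ^ 2 * (4 * (X.card : ℝ) ^ 2 * W ^ 2) ≤ 1 * (4 * (X.card : ℝ) ^ 2 * W ^ 2) :=
    mul_le_mul_of_nonneg_right (pow_le_one₀ hP0 hP1)
      (mul_nonneg (mul_nonneg (by norm_num) (sq_nonneg _)) (sq_nonneg _))
  rw [hWm] at h2 h5
  (clear hp h hN h₀ hm hWdef hW hP hcard hWm hP0 hP1 h1 h3; nlinarith)

end moment

section main

theorem cast_ne_zero {m : ℕ} (a : ℤ) (ha : a ≠ 0) (h : a.natAbs < m) : (a : ZMod m) ≠ 0 := by
  rw [Ne, ZMod.intCast_zmod_eq_zero_iff_dvd]
  intro hd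
  have h1 : m ∣ a.natAbs := by
    have := Int.natAbs_dvd_natAbs.2 hd
    simpa only [Int.natAbs_natCast] using this
  have := Nat.le_of_dvd (Int.natAbs_pos.2 ha) h1
  omega

theorem nice_of_large {d : ℕ} {X : Finset (Fin d → ℤ)} {V : Fin d → ℤ} (hX : GoodSet d X V) :
    ∃ B : ℕ, ∀ (m : ℕ) [Fact m.Prime], B < m → Nice m X := by
  obtain ⟨m₁, hm₁⟩ := LinCount.exists_minor_zmod hX
  refine ⟨m₁ + 2, fun m _ hm => ⟨?_, ?_, ?_⟩⟩
  · have := cast_ne_zero (m := m) 2 two_ne_zero (by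
      have : (2 : ℤ).natAbs = 2 := rfl
      omega)
    simpa only [ne_eq, Int.cast_ofNat] using this
  · intro χ hχ
    obtain ⟨j, hj, -⟩ := hX.top χ hχ
    refine ⟨j, ?_⟩
    rw [hj]
    simp
  · intro χ hχ χ' hχ' hne
    exact hm₁ m (by omega) χ hχ χ' hχ' hne

variable {m : ℕ} [Fact m.Prime] {n : ℕ} {X : Finset (Fin n → ℤ)} {p : (Fin n → ℤ) → ℝ}

open Classical in
/-- overloaded points -/
noncomputable def Bad (X : Finset (Fin n → ℤ)) (p : (Fin n → ℤ) → ℝ) (ε₁ : ℝ)
    (c : (Fin n → ℤ) → ZMod m) (χ₀ : Fin n → ℤ) (ω : ZMod m → Bool × (Fin n → ℤ)) :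
    Finset (ZMod m) :=
  univ.filter fun t =>
    (1 + ε₁) * ((∏ χ ∈ X.erase χ₀, p χ) * ((m : ℝ) ^ n / m)) < Nt X c χ₀ ω t

theorem E_Bad (hp : ∀ χ ∈ X, 0 < p χ) (h : 2 * ∑ χ ∈ X, p χ = 1) (hN : Nice m X)
    {ε₁ : ℝ} (hε : 0 < ε₁)
    (c : (Fin n → ℤ) → ZMod m) {χ₀ : Fin n → ℤ} (h₀ : χ₀ ∈ X) :
    E X p (fun ω => ((Bad X p ε₁ c χ₀ ω).card : ℝ))
      ≤ 10 * (X.card : ℝ) ^ 2 / (ε₁ * ∏ χ ∈ X, p χ) ^ 2 := by
  have hm := m_pos m
  have hv := variance hp h hN c h₀
  have hW : 0 < (m : ℝ) ^ n / m := by (clear * - hm; positivity)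
  have hP : 0 < ∏ χ ∈ X.erase χ₀, p χ :=
    Finset.prod_pos fun χ hχ => hp χ (Finset.mem_of_mem_erase hχ)
  have h1 : ∀ ω : ZMod m → Bool × (Fin n → ℤ), (ε₁ * ((∏ χ ∈ X.erase χ₀, p χ) *
      ((m : ℝ) ^ n / m))) ^ 2 * ((Bad X p ε₁ c χ₀ ω).card : ℝ)
      ≤ ∑ t, (Nt X c χ₀ ω t - (∏ χ ∈ X.erase χ₀, p χ) * ((m : ℝ) ^ n / m)) ^ 2 := by
    intro ω
    have h2 : (Bad X p ε₁ c χ₀ ω).card • (ε₁ * ((∏ χ ∈ X.erase χ₀, p χ) *
        ((m : ℝ) ^ n / m))) ^ 2 ≤ ∑ t ∈ Bad X p ε₁ c χ₀ ω,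
        (Nt X c χ₀ ω t - (∏ χ ∈ X.erase χ₀, p χ) * ((m : ℝ) ^ n / m)) ^ 2 := by
      refine Finset.card_nsmul_le_sum _ _ _ fun t ht => ?_
      unfold Bad at ht
      rw [Finset.mem_filter] at ht
      have := ht.2
      refine pow_le_pow_left₀ (by positivity) ?_ 2
      (clear hp h hN hε h₀ hm hv hW hP this; linarith)
    rw [nsmul_eq_mul, mul_comm] at h2
    exact h2.trans (Finset.sum_le_sum_of_subset_of_nonneg (Finset.subset_univ _)
      fun t _ _ => sq_nonneg _)
  have h2 := (E_mono hp h1).trans hv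
  rw [E_smul] at h2
  have h3 : ∏ χ ∈ X, p χ ≤ ∏ χ ∈ X.erase χ₀, p χ := by
    rw [← Finset.mul_prod_erase X p h₀]
    have h4 : p χ₀ ≤ 1 := by
      have h5 := Finset.single_le_sum (fun χ hχ => (hp χ hχ).le) h₀
      linarith only [h, h5]
    nlinarith only [hP, h4]
  have hPi : 0 < ∏ χ ∈ X, p χ := Finset.prod_pos hp
  have h6 : E X p (fun ω => ((Bad X p ε₁ c χ₀ ω).card : ℝ))
      ≤ 10 * (X.card : ℝ) ^ 2 / (ε₁ * ∏ χ ∈ X.erase χ₀, p χ) ^ 2 := by
    rw [le_div_iff₀ (by (clear * - hε hP; positivity))]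
    have h7 : 0 < ((m : ℝ) ^ n / m) ^ 2 := by (clear * - hm; positivity)
    refine le_of_mul_le_mul_right ?_ h7
    refine le_trans (le_of_eq (by ring)) h2
  refine h6.trans ?_
  (clear * - hε hPi h3; gcongr)

open Classical in
/-- the good pairs -/
noncomputable def GG (X : Finset (Fin n → ℤ)) (p : (Fin n → ℤ) → ℝ) (ε₁ : ℝ) (J : ℕ)
    (c : (Fin n → ℤ) → ℕ → ℕ) (ω : ZMod m → Bool × (Fin n → ℤ)) :
    Finset ((Fin n → ZMod m) × ℕ) :=
  ((univ : Finset (Fin n → ZMod m)) ×ˢ range J).filter fun r =>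
    ∀ χ ∈ X, col ω (pt (fun χ => (c χ r.2 : ZMod m)) χ r.1) = some χ ∧
      pt (fun χ => (c χ r.2 : ZMod m)) χ r.1 ∉
        Bad X p ε₁ (fun χ => (c χ r.2 : ZMod m)) χ ω

theorem E_GG (hp : ∀ χ ∈ X, 0 < p χ) (h : 2 * ∑ χ ∈ X, p χ = 1) (hN : Nice m X)
    {ε₁ : ℝ} (hε : 0 < ε₁) (J : ℕ) (c : (Fin n → ℤ) → ℕ → ℕ) :
    J * ((∏ χ ∈ X, p χ) * (m ^ n - 2 * (X.card : ℝ) ^ 2 * ((m : ℝ) ^ n / m)) -
      X.card * (10 * (X.card : ℝ) ^ 2 / (ε₁ * ∏ χ ∈ X, p χ) ^ 2 * ((m : ℝ) ^ n / m)))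
      ≤ E X p (fun ω : ZMod m → Bool × (Fin n → ℤ) => ((GG X p ε₁ J c ω).card : ℝ)) := by
  classical
  have hm := m_pos m
  have hW : 0 < (m : ℝ) ^ n / m := by positivity
  have hPi : 0 < ∏ χ ∈ X, p χ := Finset.prod_pos hp
  have hcard : (Fintype.card (Fin n → ZMod m) : ℝ) = (m : ℝ) ^ n := by
    simp only [Fintype.card_pi, ZMod.card, prod_const, card_univ, Fintype.card_fin, Nat.cast_pow]
  set cc : ℕ → (Fin n → ℤ) → ZMod m := fun j χ => (c χ j : ZMod m) with hcc
  -- pointwise lower bound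
  have h1 : ∀ ω : ZMod m → Bool × (Fin n → ℤ),
      ∑ j ∈ range J, (∑ σ, ∏ χ ∈ X, ind ω (pt (cc j) χ σ) χ -
        ∑ χ ∈ X, ((m : ℝ) ^ n / m) * ((Bad X p ε₁ (cc j) χ ω).card : ℝ))
      ≤ ((GG X p ε₁ J c ω).card : ℝ) := by
    intro ω
    have h2 : ((GG X p ε₁ J c ω).card : ℝ) = ∑ j ∈ range J, ∑ σ : Fin n → ZMod m,
        if (∀ χ ∈ X, col ω (pt (cc j) χ σ) = some χ ∧
          pt (cc j) χ σ ∉ Bad X p ε₁ (cc j) χ ω) then (1 : ℝ) else 0 := by
      unfold GG
      rw [← Finset.sum_boole, Finset.sum_product_right]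
    rw [h2]
    refine Finset.sum_le_sum fun j _ => ?_
    have h3 : ∀ χ ∈ X, ((m : ℝ) ^ n / m) * ((Bad X p ε₁ (cc j) χ ω).card : ℝ)
        = ∑ σ : Fin n → ZMod m,
          if pt (cc j) χ σ ∈ Bad X p ε₁ (cc j) χ ω then (1 : ℝ) else 0 := by
      intro χ hχ
      have h4 : ∀ σ : Fin n → ZMod m,
          (if pt (cc j) χ σ ∈ Bad X p ε₁ (cc j) χ ω then (1 : ℝ) else 0)
          = ∑ t ∈ Bad X p ε₁ (cc j) χ ω, if pt (cc j) χ σ = t then (1 : ℝ) else 0 := by
        intro σ
        rw [Finset.sum_ite_eq]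
      rw [Finset.sum_congr rfl fun σ _ => h4 σ, Finset.sum_comm,
        Finset.sum_congr rfl fun t _ => (sum_ite_one _).trans (card_pt hN (cc j) hχ t),
        Finset.sum_const, nsmul_eq_mul, mul_comm]
    rw [Finset.sum_congr rfl h3, Finset.sum_comm, ← Finset.sum_sub_distrib]
    refine Finset.sum_le_sum fun σ _ => ?_
    have hi : ∀ (P : Prop) [Decidable P], (0 : ℝ) ≤ if P then 1 else 0 := by
      intro P _; split_ifs <;> norm_num
    by_cases h5 : ∀ χ ∈ X, col ω (pt (cc j) χ σ) = some χ ∧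
          pt (cc j) χ σ ∉ Bad X p ε₁ (cc j) χ ω
    · rw [if_pos h5]
      have h6 : ∏ χ ∈ X, ind ω (pt (cc j) χ σ) χ ≤ 1 :=
        Finset.prod_le_one (fun _ _ => ind_nonneg _ _ _) fun _ _ => ind_le_one _ _ _
      have h7 : 0 ≤ ∑ χ ∈ X, (if pt (cc j) χ σ ∈ Bad X p ε₁ (cc j) χ ω
          then (1 : ℝ) else 0) := Finset.sum_nonneg fun _ _ => hi _
      (clear hp h hN hε hm hW hPi hcard hcc h2 h3 h5; linarith)
    · rw [if_neg h5]
      push Not at h5
      obtain ⟨χ, hχ, h6⟩ := h5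
      by_cases h7 : col ω (pt (cc j) χ σ) = some χ
      · have h8 := h6 h7
        have h9 : ∏ χ ∈ X, ind ω (pt (cc j) χ σ) χ ≤ 1 :=
          Finset.prod_le_one (fun _ _ => ind_nonneg _ _ _) fun _ _ => ind_le_one _ _ _
        have h10 := Finset.single_le_sum (f := fun χ =>
          (if pt (cc j) χ σ ∈ Bad X p ε₁ (cc j) χ ω then (1 : ℝ) else 0))
          (fun _ _ => hi _) hχ
        simp only [if_pos h8] at h10
        (clear hp h hN hε hm hW hPi hcard hcc h2 h3 hi χ hχ h6 h7 h8; linarith)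
      · have h9 : ∏ χ ∈ X, ind ω (pt (cc j) χ σ) χ = 0 := by
          refine Finset.prod_eq_zero hχ ?_
          unfold ind
          rw [if_neg h7]
        have h10 : 0 ≤ ∑ χ ∈ X, (if pt (cc j) χ σ ∈ Bad X p ε₁ (cc j) χ ω
          then (1 : ℝ) else 0) := Finset.sum_nonneg fun _ _ => hi _
        (clear hp h hN hε hm hW hPi hcard hcc h2 h3 h6; linarith)
  refine le_trans ?_ (E_mono hp h1)
  rw [E_sum, ← nsmul_eq_mul]
  nth_rewrite 1 [← Finset.card_range J]
  refine Finset.card_nsmul_le_sum _ _ _ fun j _ => ?_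
  rw [E_sub, E_sum, E_sum]
  refine sub_le_sub ?_ ?_
  · refine le_trans ?_ (Finset.sum_le_sum fun σ _ =>
      E_prod_ge hp h (cc j) X (Finset.Subset.refl _) σ)
    rw [← Finset.mul_sum, Finset.sum_sub_distrib, sum_ite_one,
      Finset.filter_mem_eq_inter, Finset.univ_inter, Finset.sum_const, nsmul_eq_mul,
      Finset.card_univ, hcard, mul_one]
    have := card_deg hN (cc j)
    refine mul_le_mul_of_nonneg_left ?_ hPi.le
    linarith
  · rw [← nsmul_eq_mul]
    refine Finset.sum_le_card_nsmul _ _ _ fun χ hχ => ?_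
    rw [E_smul, mul_comm]
    exact mul_le_mul_of_nonneg_right (E_Bad hp h hN hε (cc j) hχ) hW.le

end main

end Col

open Col in
/-- COL: the random colouring lemma -/
theorem coloring : ColoringStatement := by
  intro d X V hX p hp h J c hJ ε hε
  classical
  obtain ⟨B, hB⟩ := nice_of_large hX
  set ε₁ : ℝ := min ε 1 / 4 with hε₁def
  have hε₁ : 0 < ε₁ := by
    have : 0 < min ε 1 := lt_min hε one_pos
    positivity
  have hε₁' : ε₁ ≤ 1 / 4 := by
    have : min ε 1 ≤ 1 := min_le_right _ _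
    rw [hε₁def]; (clear * - this; linarith)
  have hε₁'' : 4 * ε₁ ≤ ε := by
    have : min ε 1 ≤ ε := min_le_left _ _
    rw [hε₁def]; linarith only [this]
  clear_value ε₁
  set P : ℝ := ∏ χ ∈ X, p χ with hPdef
  have hP : 0 < P := Finset.prod_pos hp
  have hJ' : (1 : ℝ) ≤ J := by exact_mod_cast hJ
  set A : ℝ := 2 * (X.card : ℝ) ^ 2 * P + X.card * (10 * (X.card : ℝ) ^ 2 / (ε₁ * P) ^ 2)
    with hAdef
  obtain ⟨m₁, hm₁⟩ := exists_nat_ge (A / (ε₁ * P))
  refine ⟨max (B + 1) m₁, fun m hm hprime => ?_⟩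
  have : Fact m.Prime := ⟨hprime⟩
  have hN : Nice m X := hB m (by omega)
  have hm0 := m_pos m
  have hA : A ≤ ε₁ * P * m := by
    have h1 : (m₁ : ℝ) ≤ m := by exact_mod_cast (le_max_right _ _).trans hm
    have h2 := hm₁.trans h1
    rw [div_le_iff₀ (by (clear * - hε₁ hP; positivity))] at h2
    linarith only [h2]
  have hW : 0 < (m : ℝ) ^ (d) / m := by (clear * - hm0; positivity)
  have hWm : (m : ℝ) ^ (d) = (m : ℝ) ^ (d) / m * m := by (clear * - hm0; field_simp)
  obtain ⟨ω, hω⟩ := exists_ge (m := m) hp h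
    (fun ω => ((GG X p ε₁ J c ω).card : ℝ))
  have hG : J * P * (1 - ε₁) * (m : ℝ) ^ (d) ≤ ((GG X p ε₁ J c ω).card : ℝ) := by
    refine le_trans ?_ ((E_GG hp h hN hε₁ J c).trans hω)
    rw [← hPdef]
    have h1 : P * ((m : ℝ) ^ (d) - 2 * (X.card : ℝ) ^ 2 * ((m : ℝ) ^ (d) / m)) -
      X.card * (10 * (X.card : ℝ) ^ 2 / (ε₁ * P) ^ 2 * ((m : ℝ) ^ (d) / m))
      = P * (m : ℝ) ^ (d) - A * ((m : ℝ) ^ (d) / m) := by
      rw [hAdef]; ring
    rw [h1]
    have h2 : A * ((m : ℝ) ^ (d) / m) ≤ ε₁ * P * (m : ℝ) ^ (d) := by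
      calc A * ((m : ℝ) ^ (d) / m) ≤ (ε₁ * P * m) * ((m : ℝ) ^ (d) / m) :=
            mul_le_mul_of_nonneg_right hA hW.le
        _ = ε₁ * P * (m : ℝ) ^ (d) := by (clear * - hm0 hP hε₁; field_simp)
    calc J * P * (1 - ε₁) * (m : ℝ) ^ (d)
        = J * (P * (m : ℝ) ^ (d) - ε₁ * P * (m : ℝ) ^ (d)) := by ring
      _ ≤ _ := mul_le_mul_of_nonneg_left (by linarith only [h2]) (by positivity)
  refine ⟨col ω, GG X p ε₁ J c ω, col_neg ω, ?_, ?_, ?_, ?_⟩
  · intro r hr
    unfold GG at hr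
    rw [Finset.mem_filter, Finset.mem_product, Finset.mem_range] at hr
    exact hr.1.2
  · intro r hr χ hχ
    unfold GG at hr
    rw [Finset.mem_filter] at hr
    exact (hr.2 χ hχ).1
  · intro χ hχ t j hj
    have hcnt : ((((GG X p ε₁ J c ω).filter fun r => r.2 = j ∧
            ∑ i, (χ i : ZMod m) * r.1 i + c χ r.2 = t).card : ℝ))
        ≤ (1 + ε₁) * ((∏ χ' ∈ X.erase χ, p χ') * ((m : ℝ) ^ (d) / m)) := by
      have hpos : 0 ≤ (1 + ε₁) * ((∏ χ' ∈ X.erase χ, p χ') * ((m : ℝ) ^ (d) / m)) := by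
        have : 0 < ∏ χ' ∈ X.erase χ, p χ' :=
          Finset.prod_pos fun χ' hχ' => hp χ' (Finset.mem_of_mem_erase hχ')
        (clear * - hε₁ this hm0; positivity)
      by_cases hbad : t ∈ Bad X p ε₁ (fun χ => (c χ j : ZMod m)) χ ω
      · rw [Finset.filter_false_of_mem]
        · simpa only [card_empty, CharP.cast_eq_zero, ge_iff_le] using hpos
        · rintro ⟨σ, j'⟩ hr ⟨h1, h2⟩
          unfold GG at hr
          rw [Finset.mem_filter] at hr
          have h3 := (hr.2 χ hχ).2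
          simp only at h1
          subst h1
          apply h3
          have h4 : pt (fun χ => (c χ j' : ZMod m)) χ σ = t := h2
          simp only
          rw [h4]
          exact hbad
      · have h1 : Nt X (fun χ => (c χ j : ZMod m)) χ ω t
            ≤ (1 + ε₁) * ((∏ χ' ∈ X.erase χ, p χ') * ((m : ℝ) ^ (d) / m)) := by
          by_contra hcon
          push Not at hcon
          apply hbad
          unfold Bad
          rw [Finset.mem_filter]
          exact ⟨mem_univ _, hcon⟩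
        refine le_trans ?_ h1
        -- inject into the `σ` counted by `Nt`
        have h2 : ((GG X p ε₁ J c ω).filter fun r => r.2 = j ∧
            ∑ i, (χ i : ZMod m) * r.1 i + c χ r.2 = t).card
            ≤ ((univ : Finset (Fin (d) → ZMod m)).filter fun σ =>
              pt (fun χ => (c χ j : ZMod m)) χ σ = t ∧
              ∀ χ' ∈ X.erase χ, col ω (pt (fun χ => (c χ j : ZMod m)) χ' σ) = some χ').card := by
          refine Finset.card_le_card_of_injOn (fun r => r.1) ?_ ?_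
          · rintro ⟨σ, j'⟩ hr
            rw [Finset.mem_coe, Finset.mem_filter] at hr
            obtain ⟨hr, h3, h4⟩ := hr
            simp only at h3
            subst h3
            unfold GG at hr
            rw [Finset.mem_filter] at hr
            rw [Finset.mem_coe, Finset.mem_filter]
            exact ⟨mem_univ _, h4, fun χ' hχ' => (hr.2 χ' (Finset.mem_of_mem_erase hχ')).1⟩
          · rintro ⟨σ, j'⟩ hr ⟨σ', j''⟩ hr' heq
            rw [Finset.mem_coe, Finset.mem_filter] at hr hr'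
            simp only at hr hr' heq
            rw [heq, hr.2.1, hr'.2.1]
        refine le_trans (Nat.cast_le.2 h2) ?_
        unfold Nt
        rw [← Finset.sum_boole]
        refine Finset.sum_le_sum fun σ _ => ?_
        by_cases h3 : pt (fun χ => (c χ j : ZMod m)) χ σ = t
        · rw [if_pos h3]
          by_cases h4 : ∀ χ' ∈ X.erase χ,
              col ω (pt (fun χ => (c χ j : ZMod m)) χ' σ) = some χ'
          · rw [if_pos ⟨h3, h4⟩]
            refine le_of_eq ?_
            symm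
            unfold Y
            refine Finset.prod_eq_one fun χ' hχ' => ?_
            unfold ind
            rw [if_pos (h4 χ' hχ')]
          · rw [if_neg (fun h5 => h4 h5.2)]
            exact Y_nonneg _ _ _ _
        · rw [if_neg h3, if_neg (fun h5 => h3 h5.1)]
    have h2 : (1 + ε₁) * ((∏ χ' ∈ X.erase χ, p χ') * ((m : ℝ) ^ (d) / m)) * (J * m * p χ)
        = (1 + ε₁) * (J * P * (m : ℝ) ^ (d)) := by
      rw [hPdef, ← Finset.mul_prod_erase X p hχ]
      (clear * - hm0 hJ hε₁; field_simp)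
    have h3 : 0 ≤ (J : ℝ) * m * p χ := by
      have := hp χ hχ
      (clear * - hJ hm0 this; positivity)
    refine le_trans (mul_le_mul_of_nonneg_right hcnt h3) ?_
    rw [h2]
    have h4 : (1 + ε₁) ≤ (1 + ε) * (1 - ε₁) := by nlinarith only [hε₁'', hε, hε₁']
    have h5 : 0 ≤ (J : ℝ) * P * (m : ℝ) ^ (d) := by (clear * - hJ hP hm0; positivity)
    calc (1 + ε₁) * (J * P * (m : ℝ) ^ (d))
        ≤ ((1 + ε) * (1 - ε₁)) * (J * P * (m : ℝ) ^ (d)) :=
          mul_le_mul_of_nonneg_right h4 h5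
      _ = (1 + ε) * (J * P * (1 - ε₁) * (m : ℝ) ^ (d)) := by ring
      _ ≤ _ := mul_le_mul_of_nonneg_left hG (by linarith only [hε₁, hε₁''])
  · refine le_trans ?_ hG
    have h1 : 0 < P * (m : ℝ) ^ (d) := by (clear * - hP hm0; positivity)
    have h2 : (1 : ℝ) / 2 ≤ J * (1 - ε₁) := by nlinarith only [hε₁', hJ']
    calc P / 2 * (m : ℝ) ^ (d) = 1 / 2 * (P * (m : ℝ) ^ (d)) := by ring
      _ ≤ (J * (1 - ε₁)) * (P * (m : ℝ) ^ (d)) := mul_le_mul_of_nonneg_right h2 h1.le
      _ = _ := by ring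

end Vale.Agent.P110
end
end

section

section

/-!
# P110, module C5: cell systems exist
-/

set_option autoImplicit false

namespace Vale.Agent.P110.CellProof

open Finset

variable {d : ℕ} {X : Finset (Fin d → ℤ)} {V : Fin d → ℤ}

open Classical in
/-- the cells not covered by the combs -/
noncomputable def fill (S : CombSystem d X V) : Finset ℕ :=
  (range (KK S)).filter fun j => ∀ i : Slot S, ¬ (startS S i ≤ j ∧ j < startS S i + lenS S i)

lemma sum_lenS (hG : GoodSet d X V) (S : CombSystem d X V) :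
    ∑ i : Slot S, (lenS S i : ℝ) = S.P * ∑ χ ∈ X, (mm S χ : ℝ) * dot χ V := by
  rw [Fintype.sum_prod_type]
  have h1 : ∀ p : Fin S.P, ∑ x : (Σ χ : {x // x ∈ X}, Fin (mm S χ.1)), (lenS S (p, x) : ℝ) =
      ∑ χ ∈ X, (mm S χ : ℝ) * dot χ V := by
    intro p
    rw [← Finset.univ_sigma_univ, Finset.sum_sigma, ← Finset.sum_coe_sort X]
    refine Finset.sum_congr rfl fun χ _ => ?_
    have h2 : ∀ s : Fin (mm S χ.1), (lenS S (p, ⟨χ, s⟩) : ℝ) = dot χ.1 V := by
      intro s; exact_mod_cast lenS_cast hG S (p, ⟨χ, s⟩)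
    rw [Finset.sum_congr rfl fun s _ => h2 s]
    simp only [sum_const, card_univ, Fintype.card_fin, nsmul_eq_mul]
  rw [Finset.sum_congr rfl fun p _ => h1 p]
  simp only [sum_const, card_univ, Fintype.card_fin, nsmul_eq_mul]

lemma card_fill (hG : GoodSet d X V) (S : CombSystem d X V)
    (hL : ∀ χ ∈ X, dot χ V ≤ (S.q χ : ℤ) * S.g) :
    ((fill S).card : ℝ) = KK S - ∑ i : Slot S, (lenS S i : ℝ) := by
  classical
  have h1 : fill S = range (KK S) \
      (univ.biUnion fun i : Slot S => Finset.Ico (startS S i) (startS S i + lenS S i)) := by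
    ext j
    unfold fill
    simp only [mem_filter, mem_sdiff, mem_biUnion, mem_univ, true_and, Finset.mem_Ico]
    push Not
    exact Iff.rfl
  have hsub : (univ.biUnion fun i : Slot S => Finset.Ico (startS S i) (startS S i + lenS S i)) ⊆
      range (KK S) := by
    intro j hj
    simp only [mem_biUnion, mem_univ, true_and, Finset.mem_Ico] at hj
    obtain ⟨i, h2, h3⟩ := hj
    have := startS_le hG S i
    rw [mem_range]; omega
  have hdisj : ((univ : Finset (Slot S)) : Set (Slot S)).PairwiseDisjoint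
      (fun i => Finset.Ico (startS S i) (startS S i + lenS S i)) := by
    intro i _ i' _ hne
    rw [Function.onFun, Finset.disjoint_left]
    intro j hj hj'
    rw [Finset.mem_Ico] at hj hj'
    exact hne (slot_unique hG S hL i i' j hj.1 hj.2 hj'.1 hj'.2)
  have hcard : (univ.biUnion fun i : Slot S =>
      Finset.Ico (startS S i) (startS S i + lenS S i)).card = ∑ i : Slot S, lenS S i := by
    rw [Finset.card_biUnion hdisj]
    simp only [Nat.card_Ico, add_tsub_cancel_left]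
  rw [h1, Finset.card_sdiff_of_subset hsub, Nat.cast_sub (Finset.card_le_card hsub), hcard,
    card_range]
  push_cast
  ring

/-- the density of the combs -/
lemma fill_small (hG : GoodSet d X V) (S : CombSystem d X V)
    (hL : ∀ χ ∈ X, dot χ V ≤ (S.q χ : ℤ) * S.g) (p : (Fin d → ℤ) → ℝ)
    (hp : ∀ χ ∈ X, 0 < p χ) (hsum : 2 * ∑ χ ∈ X, p χ = 1) (ε : ℝ) (hε : 0 < ε)
    (hq2 : ∀ χ ∈ X, (S.q χ : ℝ) ≤ (1 + ε) * ((S.P * dot χ V : ℝ) / (S.g * p χ))) :
    ((fill S).card : ℝ) ≤ ε * KK S := by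
  rw [card_fill hG S hL, sum_lenS hG S]
  have hgpos : (0 : ℝ) < S.g := by exact_mod_cast S.g_pos
  have hMpos : (0 : ℝ) < MM S := by exact_mod_cast MM_pos S
  have hK : (KK S : ℝ) = MM S * S.g / 2 := by
    have := two_KK S
    have h2 : (2 * KK S : ℝ) = MM S * S.g := by exact_mod_cast this
    linarith only [h2]
  have h1 : ∀ χ ∈ X, (MM S : ℝ) * S.g * p χ / (1 + ε) ≤ S.P * ((mm S χ : ℝ) * dot χ V) := by
    intro χ hχ
    have hqpos : (0 : ℝ) < S.q χ := by exact_mod_cast q_pos S hχ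
    have hmpos : (0 : ℝ) < mm S χ := by exact_mod_cast mm_pos S χ
    have hMM : (MM S : ℝ) = S.q χ * mm S χ := by
      rw [← q_mul_mm S hχ]; push_cast; ring
    have h := hq2 χ hχ
    have hpp := hp χ hχ
    rw [← mul_div_assoc, le_div_iff₀ (by positivity)] at h
    rw [div_le_iff₀ (by linarith only [hε]), hMM]
    calc (S.q χ : ℝ) * mm S χ * S.g * p χ = mm S χ * (S.q χ * (S.g * p χ)) := by ring
      _ ≤ mm S χ * ((1 + ε) * (S.P * dot χ V)) := mul_le_mul_of_nonneg_left h hmpos.le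
      _ = _ := by ring
  have h2 := Finset.sum_le_sum h1
  rw [← Finset.sum_div, ← Finset.mul_sum, ← Finset.mul_sum] at h2
  have h3 : ∑ χ ∈ X, p χ = 1 / 2 := by linarith only [hsum]
  rw [h3] at h2
  have h4 : (MM S : ℝ) * S.g * (1 / 2) / (1 + ε) = KK S / (1 + ε) := by rw [hK]; ring
  rw [h4] at h2
  have hKpos : (0 : ℝ) < KK S := by exact_mod_cast KK_pos S
  have h5 : (1 - ε) * KK S ≤ KK S / (1 + ε) := by
    rw [le_div_iff₀ (by linarith only [hε])]
    nlinarith only [mul_pos (mul_pos hε hε) hKpos]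
  linarith only [h2, h5]

open Classical in
/-- the cell system built from a comb system -/
noncomputable def build (hG : GoodSet d X V) (S : CombSystem d X V)
    (hL : ∀ χ ∈ X, dot χ V ≤ (S.q χ : ℤ) * S.g) (om : Slot S → ℝ) (β : ℝ) (hβ : 0 < β) (η : ℝ)
    (hsum : S.P * β + (fill S).card * (4 / (2 * KK S)) ≤ 1 + η)
    (halg : ∀ (p : Fin S.P) (k : ℤ) (ζ : ℝ),
      |∑ x : (Σ χ : {x // x ∈ X}, Fin (mm S χ.1)),
      2 * Real.sqrt ((lenS S (p, x) : ℝ) / (2 * KK S) / β) *
        Real.cos (2 * Real.pi * (om (p, x)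
          - k * (if upS S (p, x) then (startS S (p, x) : ℝ) / (2 * KK S)
              else ((startS S (p, x) + lenS S (p, x) : ℕ) : ℝ) / (2 * KK S))
          - (if upS S (p, x) then 1 else -1) * ((lenS S (p, x) : ℝ) / (2 * KK S)) * ζ))| ≤ 1) :
    CellSystem η where
  K := KK S
  ι := Slot S ⊕ {j // j ∈ fill S}
  κ := Fin S.P ⊕ {j // j ∈ fill S}
  fι := inferInstance
  fκ := inferInstance
  dκ := Classical.decEq _
  start := Sum.elim (startS S) (fun j => j.1)
  len := Sum.elim (lenS S) (fun _ => 1)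
  up := Sum.elim (upS S) (fun _ => true)
  ω := Sum.elim om (fun _ => 0)
  blk := Sum.map (fun i => i.1) id
  β := Sum.elim (fun _ => β) (fun _ => 4 / (2 * KK S))
  K_pos := KK_pos S
  len_pos := by
    rintro (i | j)
    · exact lenS_pos hG S i
    · exact Nat.one_pos
  le_K := by
    rintro (i | ⟨j, hj⟩)
    · exact startS_le hG S i
    · simp only [Sum.elim_inr]
      unfold fill at hj
      rw [mem_filter, mem_range] at hj
      exact hj.1
  cover := by
    intro j hj
    by_cases h : ∃ i : Slot S, startS S i ≤ j ∧ j < startS S i + lenS S i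
    · obtain ⟨i, hi⟩ := h
      refine ⟨Sum.inl i, hi, ?_⟩
      rintro (i' | ⟨j', hj'⟩) h'
      · congr 1
        exact slot_unique hG S hL i' i j h'.1 h'.2 hi.1 hi.2
      · exfalso
        simp only [Sum.elim_inr] at h'
        unfold fill at hj'
        rw [mem_filter] at hj'
        have : j' = j := by omega
        subst this
        exact hj'.2 i hi
    · push Not at h
      have hmem : j ∈ fill S := by
        unfold fill
        rw [mem_filter, mem_range]
        exact ⟨hj, fun i hi => absurd (h i hi.1) (by omega)⟩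
      refine ⟨Sum.inr ⟨j, hmem⟩, ?_, ?_⟩
      · simp
      · rintro (i' | ⟨j', hj'⟩) h'
        · exfalso
          simp only [Sum.elim_inl] at h'
          have := h i' h'.1
          omega
        · simp only [Sum.elim_inr] at h'
          congr 1
          apply Subtype.ext
          simp only
          omega
  β_pos := by
    rintro (p | j)
    · exact hβ
    · simp only [Sum.elim_inr]
      have := KK_pos S
      positivity
  sum_β := by
    rw [Fintype.sum_sum_type]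
    simp only [Sum.elim_inl, Sum.elim_inr, Finset.sum_const, nsmul_eq_mul]
    simpa using hsum
  alg := by
    rintro (p | j) k ζ
    · rw [Finset.sum_filter, Fintype.sum_sum_type, Fintype.sum_prod_type]
      have h2 : ∀ j : {j // j ∈ fill S}, ¬ ((Sum.map (fun i : Slot S => i.1) id (Sum.inr j) :
          Fin S.P ⊕ {j // j ∈ fill S}) = Sum.inl p) := by
        intro j; simp
      simp only [h2, if_false, Finset.sum_const_zero, add_zero]
      rw [Finset.sum_eq_single_of_mem p (mem_univ _)]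
      · simp only [Sum.map_inl, if_true, Sum.elim_inl]
        exact halg p k ζ
      · intro p' _ hp'
        apply Finset.sum_eq_zero
        intro x _
        rw [if_neg]
        simp only [Sum.map_inl, Sum.inl.injEq]
        exact hp'
    · rw [Finset.sum_filter, Fintype.sum_sum_type]
      have h2 : ∀ i : Slot S, ¬ ((Sum.map (fun i : Slot S => i.1) id (Sum.inl i) :
          Fin S.P ⊕ {j // j ∈ fill S}) = Sum.inr j) := by
        intro i; simp
      simp only [h2, if_false, Finset.sum_const_zero, zero_add]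
      rw [Finset.sum_eq_single_of_mem j (mem_univ _)]
      · simp only [Sum.map_inr, id_eq, if_true, Sum.elim_inr]
        rw [abs_mul]
        have hKpos : (0 : ℝ) < KK S := by exact_mod_cast KK_pos S
        have h3 : |2 * Real.sqrt (((1 : ℕ) : ℝ) / (2 * KK S) / (4 / (2 * KK S)))| = 1 := by
          have h4 : ((1 : ℕ) : ℝ) / (2 * KK S) / (4 / (2 * KK S)) = (1 / 2) ^ 2 := by
            push_cast
            field_simp
            norm_num
          rw [h4, Real.sqrt_sq (by norm_num)]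
          norm_num
        rw [h3, one_mul]
        exact Real.abs_cos_le_one _
      · intro j' _ hj'
        rw [if_neg]
        simp only [Sum.map_inr, id_eq, Sum.inr.injEq]
        exact hj'

/-- Module C5. -/
theorem cell : NearSignStatement → CombStatement → GaussStatement → CellStatement := by
  intro hN hC hGauss η hη
  -- parameters
  set η' : ℝ := min η 1 with hη'
  have hη'0 : 0 < η' := lt_min hη one_pos
  have hη'1 : η' ≤ 1 := min_le_right _ _
  have hη'η : η' ≤ η := min_le_left _ _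
  obtain ⟨d, X, V, a, hG, ha, hF, hmass⟩ := hN (η' / 8) (by positivity)
  set S2 : ℝ := 2 * ∑ χ ∈ X, a χ ^ 2 with hS2
  have hS2pos : 0 < S2 := by linarith only [hη'1, hmass]
  set δ : ℝ := η' / 16 with hδ
  have hδ0 : 0 < δ := by positivity
  have hsa : 0 ≤ ∑ χ ∈ X, |a χ| := Finset.sum_nonneg fun _ _ => abs_nonneg _
  set ε : ℝ := min (η' / 8) (δ / (2 * ∑ χ ∈ X, |a χ| + 1)) with hε
  have hε0 : 0 < ε := lt_min (by positivity) (by (clear * - hη; positivity))
  have hε1 : ε ≤ η' / 8 := min_le_left _ _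
  have hε2 : 2 * ε * ∑ χ ∈ X, |a χ| ≤ δ := by
    have h1 : ε ≤ δ / (2 * ∑ χ ∈ X, |a χ| + 1) := min_le_right _ _
    rw [le_div_iff₀ (by (clear * -; positivity))] at h1
    nlinarith only [hε0, h1]
  set p : (Fin d → ℤ) → ℝ := fun χ => a χ ^ 2 / S2 with hp
  have hp0 : ∀ χ ∈ X, 0 < p χ := by
    intro χ hχ
    have := ha χ hχ
    simp only [hp]
    (clear * - this hS2pos; positivity)
  have hp1 : 2 * ∑ χ ∈ X, p χ = 1 := by
    simp only [hp]
    rw [← Finset.sum_div, ← mul_div_assoc, ← hS2, div_self hS2pos.ne']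
  obtain ⟨S, hS⟩ := hC d X V hG p hp0 hp1 ε hε0
  have hPpos : (0 : ℝ) < S.P := by exact_mod_cast S.P_pos
  have hgpos : (0 : ℝ) < S.g := by exact_mod_cast S.g_pos
  -- lengths
  have hL : ∀ χ ∈ X, dot χ V ≤ (S.q χ : ℤ) * S.g := by
    intro χ hχ
    have h1 := (hS χ hχ).1
    have hpp := hp0 χ hχ
    rw [div_le_iff₀ (by (clear * - hgpos hpp; positivity))] at h1
    have hLpos : (0 : ℝ) < dot χ V := by exact_mod_cast hG.V_pos χ hχ
    have hP1 : (1 : ℝ) ≤ S.P := by exact_mod_cast S.P_pos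
    have hple : p χ ≤ 1 := by
      have h2 : p χ ≤ ∑ χ ∈ X, p χ := Finset.single_le_sum (fun i hi => (hp0 i hi).le) hχ
      linarith only [hp1, h2]
    have hqpos : (0 : ℝ) < S.q χ := by exact_mod_cast q_pos S hχ
    have h3 : (dot χ V : ℝ) ≤ S.q χ * S.g := by
      calc (dot χ V : ℝ) = 1 * dot χ V := (one_mul _).symm
        _ ≤ S.P * dot χ V := mul_le_mul_of_nonneg_right hP1 hLpos.le
        _ ≤ S.q χ * (S.g * p χ) := h1
        _ ≤ S.q χ * (S.g * 1) := by (clear * - hple hgpos hqpos; gcongr)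
        _ = _ := by ring
    exact_mod_cast h3
  -- Gauss phases
  have hW : ∀ χ : Fin d → ℤ, ∃ w : ℕ → ℝ, χ ∈ X → ∀ k : ℤ,
      ∑ s ∈ range (mm S χ), e (w s - k * s / (mm S χ)) =
      (Real.sqrt (mm S χ) : ℂ) * e (-((Ac S χ) * k ^ 2 / (mm S χ))) := by
    intro χ
    by_cases hχ : χ ∈ X
    · obtain ⟨w, hw⟩ := hGauss (mm S χ) (mm_odd S χ) (Ac S χ) (Ac_coprime S hχ)
      exact ⟨w, fun _ => hw⟩
    · exact ⟨fun _ => 0, fun h => absurd h hχ⟩
  choose W hW using hW
  have hβ : 0 < (1 + δ) ^ 2 / (S.P * S2) := by (clear * - hη hPpos hS2pos; positivity)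
  refine ⟨build hG S hL (omS S a W) ((1 + δ) ^ 2 / (S.P * S2)) hβ η ?_ ?_⟩
  · have hfs := fill_small hG S hL p hp0 hp1 ε hε0 (fun χ hχ => (hS χ hχ).2)
    have hKpos : (0 : ℝ) < KK S := by exact_mod_cast KK_pos S
    have h1 : ((fill S).card : ℝ) * (4 / (2 * KK S)) ≤ 2 * ε := by
      have : ((fill S).card : ℝ) * (4 / (2 * KK S)) ≤ ε * KK S * (4 / (2 * KK S)) :=
        mul_le_mul_of_nonneg_right hfs (by (clear * - hKpos; positivity))
      have e1 : ε * KK S * (4 / (2 * KK S)) = 2 * ε := by field_simp; ring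
      linarith only [this, e1]
    have h2 : S.P * ((1 + δ) ^ 2 / (S.P * S2)) = (1 + δ) ^ 2 / S2 := by (clear * - hPpos hS2pos hδ0; field_simp)
    have h3 : (1 + δ) ^ 2 / S2 ≤ 1 + η' / 2 := by
      rw [div_le_iff₀ hS2pos]
      have h4 : (1 + η' / 2) * (1 - η' / 8) ≤ (1 + η' / 2) * S2 :=
        mul_le_mul_of_nonneg_left hmass (by positivity)
      have h5 : (1 + δ) ^ 2 ≤ (1 + η' / 2) * (1 - η' / 8) := by
        rw [hδ]
        nlinarith only [hη'0, hη'1]
      linarith only [h4, h5]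
    rw [h2]
    linarith only [hη'η, hδ, hδ0, hε1, h1, h3]
  · intro p' k ζ
    have h1 := comb_alg hG S a W (fun χ hχ => hW χ hχ) _ hβ p' k ζ
    rw [h1]
    exact comb_bound hG S a hF S2 ε δ hS2pos hε0 hδ0.le hε2 ha (fun χ hχ => (hS χ hχ).1)
      (fun χ hχ => (hS χ hχ).2) _

end Vale.Agent.P110.CellProof
end
end

section

section

namespace Vale.Agent.P110

open Finset

/-- enumeration of a tiling of `[0,K)` by integer intervals -/
theorem exists_enum {ι : Type} (K : ℕ) (start len : ι → ℕ) (hK : 0 < K)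
    (hlen : ∀ i, 0 < len i) (hle : ∀ i, start i + len i ≤ K)
    (hcover : ∀ j < K, ∃! i, start i ≤ j ∧ j < start i + len i) :
    ∃ (n : ℕ) (pos : ℕ → ℕ) (f : ℕ → ι), 0 < n ∧ pos 0 = 0 ∧ pos n = K ∧
      (∀ i < n, pos i < pos (i + 1)) ∧ (∀ i < n, start (f i) = pos i) ∧
      (∀ i < n, start (f i) + len (f i) = pos (i + 1)) ∧
      (∀ i < n, ∀ j < n, f i = f j → i = j) ∧ (∀ x, ∃ i < n, f i = x) := by
  classical
  obtain ⟨i0, hi0, -⟩ := hcover 0 hK
  -- choice of the slot containing `j`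
  have hex : ∀ j : ℕ, ∃ x : ι, j < K → (start x ≤ j ∧ j < start x + len x) := by
    intro j
    by_cases hj : j < K
    · obtain ⟨x, hx, -⟩ := hcover j hj
      exact ⟨x, fun _ => hx⟩
    · exact ⟨i0, fun h => absurd h hj⟩
  choose g hg using hex
  let pos : ℕ → ℕ := fun i =>
    Nat.rec (motive := fun _ => ℕ) 0 (fun _ p => if p < K then p + len (g p) else p) i
  have pos_zero : pos 0 = 0 := rfl
  have pos_succ : ∀ i : ℕ, pos (i + 1) = if pos i < K then pos i + len (g (pos i)) else pos i :=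
    fun i => rfl
  have uniq : ∀ j < K, ∀ x y, (start x ≤ j ∧ j < start x + len x) →
      (start y ≤ j ∧ j < start y + len y) → x = y := by
    intro j hj x y hx hy
    obtain ⟨z, -, hz⟩ := hcover j hj
    rw [hz x hx, hz y hy]
  -- invariant
  have inv : ∀ i, pos i ≤ K ∧ (pos i < K → start (g (pos i)) = pos i) := by
    intro i
    induction i with
    | zero =>
      refine ⟨by simp only [pos_zero, zero_le], fun h => ?_⟩
      have := (hg (pos 0) h).1
      rw [pos_zero] at this ⊢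
      omega
    | succ i ih =>
      obtain ⟨h1, h2⟩ := ih
      rw [pos_succ]
      split_ifs with h
      · have h3 := h2 h
        have h4 := hle (g (pos i))
        refine ⟨by omega, fun h5 => ?_⟩
        set j := pos i + len (g (pos i)) with hj
        have h6 := hg j h5
        by_contra hne
        have h7 : start (g j) < j := lt_of_le_of_ne h6.1 hne
        have hl := hlen (g (pos i))
        have h8 : g j = g (pos i) := by
          apply uniq (j - 1) (by omega)
          · constructor <;> omega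
          · constructor <;> omega
        rw [h8] at h6
        omega
      · exact ⟨h1, fun h' => absurd h' h⟩
  have grow : ∀ i, pos i < K → pos i < pos (i + 1) := by
    intro i h
    rw [pos_succ, if_pos h]
    have := hlen (g (pos i))
    omega
  have hreach : ∃ i, pos i = K := by
    by_contra hcon
    push Not at hcon
    have hlt : ∀ i, pos i < K := fun i => lt_of_le_of_ne (inv i).1 (hcon i)
    have : ∀ i, i ≤ pos i := by
      intro i
      induction i with
      | zero => simp only [zero_le]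
      | succ i ih => have := grow i (hlt i); omega
    have h1 := this K
    have h2 := hlt K
    omega
  let n := Nat.find hreach
  have hn : pos n = K := Nat.find_spec hreach
  have hlt : ∀ i < n, pos i < K := fun i hi =>
    lt_of_le_of_ne (inv i).1 (Nat.find_min hreach hi)
  have hn0 : 0 < n := by
    rcases Nat.eq_zero_or_pos n with h | h
    · rw [h, pos_zero] at hn; omega
    · exact h
  have mono : ∀ i j, i < j → j ≤ n → pos i < pos j := by
    intro i j hij hjn
    induction j with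
    | zero => omega
    | succ j ih =>
      rcases Nat.lt_or_ge i j with h | h
      · exact (ih h (by omega)).trans (grow j (hlt j (by omega)))
      · have : i = j := by omega
        subst this
        exact grow i (hlt i (by omega))
  refine ⟨n, pos, fun i => g (pos i), hn0, pos_zero, hn, fun i hi => grow i (hlt i hi),
    fun i hi => (inv i).2 (hlt i hi), ?_, ?_, ?_⟩
  · intro i hi
    rw [pos_succ, if_pos (hlt i hi)]
    have := (inv i).2 (hlt i hi)
    simp only
    omega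
  · intro i hi j hj hij
    have h1 := (inv i).2 (hlt i hi)
    have h2 := (inv j).2 (hlt j hj)
    simp only at hij
    rw [hij, h2] at h1
    rcases lt_trichotomy i j with h | h | h
    · have := mono i j h hj.le; omega
    · exact h
    · have := mono j i h hi.le; omega
  · intro x
    have hx := hle x
    have hlx := hlen x
    have hsx : start x < K := by omega
    -- find the index
    have hex2 : ∃ i, start x < pos i := ⟨n, by rw [hn]; exact hsx⟩
    obtain ⟨i, hi1, hi2⟩ : ∃ i, start x < pos (i + 1) ∧ pos i ≤ start x := by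
      have h1 := Nat.find_spec hex2
      have h3 : Nat.find hex2 ≠ 0 := by
        intro h
        rw [h, pos_zero] at h1
        omega
      obtain ⟨k, hk⟩ := Nat.exists_eq_succ_of_ne_zero h3
      refine ⟨k, ?_, ?_⟩
      · rw [hk] at h1; exact h1
      · have := Nat.find_min hex2 (m := k) (by omega)
        omega
    have hik : pos i < K := by omega
    have hin : i < n := by
      by_contra h
      push Not at h
      rcases Nat.lt_or_ge n i with h' | h'
      · -- pos is monotone after n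
        have : ∀ k, pos (n + k) = K := by
          intro k
          induction k with
          | zero => simpa using hn
          | succ k ih => rw [← add_assoc, pos_succ, ih]; simp
        have := this (i - n)
        rw [Nat.add_sub_cancel' h] at this
        omega
      · have : i = n := by omega
        rw [this, hn] at hik
        omega
    refine ⟨i, hin, ?_⟩
    have h1 := (inv i).2 hik
    rw [pos_succ, if_pos hik] at hi1
    change g (pos i) = x
    exact uniq (start x) hsx _ _ ⟨by omega, by omega⟩ ⟨le_refl _, by omega⟩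

theorem sort_statement : SortStatement := by
  classical
  intro η hη C
  let _ := C.fι
  let _ := C.fκ
  let _ := C.dκ
  obtain ⟨n, pos, f, hn, pos0, posn, hlt, hst, hend, hinj, hsurj⟩ :=
    exists_enum C.K C.start C.len C.K_pos C.len_pos C.le_K C.cover
  have hKpos : (0 : ℝ) < C.K := by exact_mod_cast C.K_pos
  let en : C.κ ≃ Fin (Fintype.card C.κ) := Fintype.equivFin C.κ
  have hlen : ∀ i < n, ((pos (i + 1) : ℝ) / (2 * C.K) - (pos i : ℝ) / (2 * C.K))
      = (C.len (f i) : ℝ) / (2 * C.K) := by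
    intro i hi
    rw [← hend i hi, ← hst i hi]
    push_cast
    ring
  have key : ∀ F : C.ι → ℝ, ∑ i ∈ range n, F (f i) = ∑ x, F x := by
    intro F
    refine Finset.sum_bij (fun i _ => f i) (fun _ _ => Finset.mem_univ _) ?_ ?_ (fun _ _ => rfl)
    · intro a ha b hb hab
      exact hinj a (Finset.mem_range.mp ha) b (Finset.mem_range.mp hb) hab
    · intro x _
      obtain ⟨i, hi, hx⟩ := hsurj x
      exact ⟨i, Finset.mem_range.mpr hi, hx⟩
  refine ⟨{
    n := n
    P := Fintype.card C.κ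
    τ := fun i => (pos i : ℝ) / (2 * C.K)
    up := fun i => C.up (f i)
    blk := fun i => (en (C.blk (f i)) : ℕ)
    ω := fun i => C.ω (f i)
    β := fun p => if h : p < Fintype.card C.κ then C.β (en.symm ⟨p, h⟩) else 1
    n_pos := hn
    τ_zero := by simp only [pos0, CharP.cast_eq_zero, zero_div]
    τ_last := by rw [posn]; (clear * - hKpos; field_simp)
    τ_lt := ?_
    blk_lt := fun i _ => (en (C.blk (f i))).2
    β_pos := ?_
    sum_β := ?_
    alg := ?_ }⟩
  · intro i hi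
    have h1 : (pos i : ℝ) < pos (i + 1) := by exact_mod_cast hlt i hi
    exact div_lt_div_of_pos_right h1 (by positivity)
  · intro p
    by_cases h : p < Fintype.card C.κ
    · rw [dif_pos h]; exact C.β_pos _
    · rw [dif_neg h]; exact one_pos
  · have h1 : ∑ p ∈ range (Fintype.card C.κ),
        (if h : p < Fintype.card C.κ then C.β (en.symm ⟨p, h⟩) else 1)
        = ∑ p : Fin (Fintype.card C.κ), C.β (en.symm p) := by
      rw [Finset.sum_range]
      refine Finset.sum_congr rfl fun p _ => ?_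
      rw [dif_pos p.2]
    rw [h1, Equiv.sum_comp en.symm C.β]
    exact C.sum_β
  · intro p hp k ζ
    have h2 := C.alg (en.symm ⟨p, hp⟩) k ζ
    rw [Finset.sum_filter, ← key] at h2
    rw [Finset.sum_filter]
    refine le_trans (le_of_eq ?_) h2
    congr 1
    refine Finset.sum_congr rfl fun i hi => ?_
    have hi' := Finset.mem_range.mp hi
    have hiff : ((en (C.blk (f i)) : ℕ) = p) ↔ (C.blk (f i) = en.symm ⟨p, hp⟩) := by
      rw [Equiv.eq_symm_apply, Fin.ext_iff]
    by_cases hc : C.blk (f i) = en.symm ⟨p, hp⟩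
    · rw [if_pos (hiff.mpr hc), if_pos hc, dif_pos hp, hlen i hi', hend i hi', hst i hi']
    · rw [if_neg (fun h => hc (hiff.mp h)), if_neg hc]

end Vale.Agent.P110
end
end

section

section

open Finset AddMonoidAlgebra

namespace Vale.Agent.P110

open TrigF

lemma abs_sum_pow_le (B : ℤ) (hB : 1 ≤ B) (c : ℕ → ℤ) (hc : ∀ i, |c i| ≤ B - 1) (n : ℕ) :
    |∑ i ∈ range n, c i * B ^ i| ≤ B ^ n - 1 := by
  induction n with
  | zero => simp only [range_zero, sum_empty, abs_zero, pow_zero, sub_self, Std.le_refl]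
  | succ n ih =>
    rw [Finset.sum_range_succ]
    refine (abs_add_le _ _).trans ?_
    rw [abs_mul, abs_of_nonneg (show (0 : ℤ) ≤ B ^ n by positivity)]
    have h1 : |c n| * B ^ n ≤ (B - 1) * B ^ n :=
      mul_le_mul_of_nonneg_right (hc n) (by positivity)
    have h2 : (B : ℤ) ^ (n + 1) = (B - 1) * B ^ n + B ^ n := by ring
    rw [h2]
    linarith only [ih, h1]

lemma dot_pow_pos {d : ℕ} (B : ℤ) (hB : 1 ≤ B) (χ : Fin d → ℤ) (hχ : ∀ i, |χ i| ≤ B - 1)
    (m : Fin d) (hm : χ m = 1) (hm' : ∀ i, m < i → χ i = 0) :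
    0 < dot χ (fun i => B ^ (i : ℕ)) := by
  let c : ℕ → ℤ := fun i => if h : i < d then χ ⟨i, h⟩ else 0
  have hc : ∀ i, |c i| ≤ B - 1 := by
    intro i
    by_cases h : i < d
    · simp only [c, h, dif_pos]
      exact hχ _
    · simp only [c, h, dif_neg, not_false_eq_true, abs_zero]
      linarith only [hB]
  have h1 : dot χ (fun i => B ^ (i : ℕ)) = ∑ i ∈ range d, c i * B ^ i := by
    rw [← Fin.sum_univ_eq_sum_range (fun i => c i * B ^ i) d]
    unfold dot
    apply Finset.sum_congr rfl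
    intro i _
    simp [c]
  have h2 : ∑ i ∈ range d, c i * B ^ i = ∑ i ∈ range ((m : ℕ) + 1), c i * B ^ i := by
    symm
    apply Finset.sum_subset
    · intro i hi
      rw [mem_range] at *
      omega
    · intro i hi hi'
      rw [mem_range] at *
      have : c i = 0 := by
        simp only [c, hi, dif_pos]
        apply hm'
        rw [Fin.lt_def]
        push Not at hi'
        simpa using by omega
      rw [this, zero_mul]
  have h3 : c m = 1 := by
    simp only [c, m.2, dif_pos]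
    exact hm
  rw [h1, h2, Finset.sum_range_succ, h3, one_mul]
  have h4 := (abs_le.mp (abs_sum_pow_le B hB c hc m)).1
  linarith only [h4]

theorem nearSign : NearSignStatement := by
  classical
  intro η hη
  set ε : ℝ := min η (1 / 2) with hεdef
  have hε : 0 < ε := lt_min hη (by norm_num)
  obtain ⟨e0, he0⟩ := exists_nat_ge (1 / (ε ^ 2 / 8))
  let d := e0 + 2
  let X := (Fp d d).coeff.support.filter Pos
  obtain ⟨B0, hB0⟩ : ∃ B0 : ℕ, ∀ χ ∈ X, ∀ i, (χ i).natAbs ≤ B0 := by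
    refine ⟨∑ χ ∈ X, ∑ i, (χ i).natAbs, ?_⟩
    intro χ hχ i
    calc (χ i).natAbs ≤ ∑ i, (χ i).natAbs :=
          Finset.single_le_sum (f := fun i => (χ i).natAbs) (fun _ _ => Nat.zero_le _)
            (Finset.mem_univ i)
      _ ≤ _ := Finset.single_le_sum (f := fun χ : Fin d → ℤ => ∑ i, (χ i).natAbs)
            (fun _ _ => Nat.zero_le _) hχ
  have hmass : 1 - ε ≤ mass (Fp d d) := by
    refine le_trans ?_ (mass_lower ε hε d le_rfl)
    refine le_min le_rfl ?_
    have h2 : 0 < ε ^ 2 / 8 := by positivity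
    have h3 : 1 ≤ (e0 : ℝ) * (ε ^ 2 / 8) := by
      rw [div_le_iff₀ h2] at he0
      exact he0
    have h4 : ((d : ℕ) : ℝ) = e0 + 2 := by simp only [Nat.cast_add, Nat.cast_ofNat, d]
    rw [h4]
    nlinarith only [hε, h3]
  have hmass2 : mass (Fp d d) = 2 * ∑ χ ∈ X, (Fp d d).coeff χ ^ 2 := by
    rw [mass_eq (sym_Fp d), sum_half d le_rfl (fun χ => (Fp d d).coeff χ ^ 2)]
    intro χ
    rw [(sym_Fp d).coeff]
  refine ⟨d, X, fun i => ((B0 : ℤ) + 1) ^ (i : ℕ), fun χ => (Fp d d).coeff χ, ⟨?_, ?_, ?_, ?_⟩,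
    ?_, ?_, ?_⟩
  · omega
  · by_contra h
    rw [Finset.not_nonempty_iff_eq_empty] at h
    rw [hmass2, h] at hmass
    have : ε ≤ 1 / 2 := min_le_right _ _
    simp only [sum_empty, mul_zero, tsub_le_iff_right, zero_add] at hmass
    linarith only [this, hmass]
  · intro χ hχ
    exact (Finset.mem_filter.mp hχ).2
  · intro χ hχ
    obtain ⟨m, hm, hm'⟩ := (Finset.mem_filter.mp hχ).2
    refine dot_pow_pos _ (by linarith only []) χ ?_ m hm hm'
    intro i
    have h1 := hB0 χ hχ i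
    have h2 : ((χ i).natAbs : ℤ) = |χ i| := Int.natCast_natAbs _
    rw [← h2]
    have : ((χ i).natAbs : ℤ) ≤ B0 := by exact_mod_cast h1
    linarith only [h1, h2]
  · intro χ hχ
    simpa only [ne_eq, Finsupp.mem_support_iff] using (Finset.mem_filter.mp hχ).1
  · intro x
    have h1 : 2 * ∑ χ ∈ X, (Fp d d).coeff χ * Real.cos (2 * Real.pi * ∑ i, (χ i : ℝ) * x i)
        = (ev x (Fp d d)).re := by
      rw [ev_eq_sum, sum_half d le_rfl (fun χ => (Fp d d).coeff χ
        * Real.cos (2 * Real.pi * ∑ i, (χ i : ℝ) * x i))]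
      intro χ
      rw [(sym_Fp d).coeff]
      congr 1
      rw [← Real.cos_neg]
      congr 1
      simp only [Pi.neg_apply, Int.cast_neg, neg_mul, sum_neg_distrib, mul_neg, neg_neg]
    rw [h1]
    let y : ℕ → ℝ := fun n => if h : n < d then x ⟨n, h⟩ else 0
    have hy : x = fun i : Fin d => y i := by
      funext i
      simp [y]
    rw [hy, ev_Fp y d le_rfl, Complex.ofReal_re]
    exact abs_fr_le y d
  · rw [← hmass2]
    have : ε ≤ η := min_le_left _ _
    linarith only [hmass, this]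

end Vale.Agent.P110
end
end

section

section

/-! # The combinatorial part: slot systems exist -/

namespace Vale.Agent.P110

theorem slotSystem : SlotSystemStatement := fun η hη => by
  obtain ⟨C⟩ := CellProof.cell nearSign (comb coloring) gaussStatement η hη
  exact sort_statement η hη C

end Vale.Agent.P110
end
end

section

section

/-! P110, rounding module: rounding of real coefficients to signs with small sup norm error. -/

namespace Vale.Agent.P110.RT

open Finset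

theorem real_rounding {κ J : Type*} [Fintype κ] [DecidableEq κ] [Fintype J] [DecidableEq J]
    (v : J → κ → ℝ) (hv : ∀ j k, |v j k| ≤ 1) (hJ : Fintype.card κ ≤ Fintype.card J)
    (D W : ℝ) (hD : 0 < D)
    (hW : W = (2 * D) ^ (1 / 8 : ℝ) * ((Fintype.card J : ℝ) + 1) ^ (3 / 8 : ℝ))
    (hWD : 4000 * W ≤ D) (x : κ → ℝ) (hx : ∀ k, |x k| ≤ 1) (hsum : ∑ k, (1 - |x k|) ≤ D / 2) :
    ∃ e : κ → ℝ, (∀ k, e k = 1 ∨ e k = -1) ∧ ∀ j, |∑ k, (e k - x k) * v j k| ≤ 7000 * W := by
  classical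
  have hW0 : 0 < W := by rw [hW]; positivity
  set ε : ℝ := min (D / 2) W with hε
  have hε0 : 0 < ε := lt_min (by linarith only [hWD, hW0]) hW0
  obtain ⟨n, hn⟩ := pow_unbounded_of_one_lt ((Fintype.card κ : ℝ) / ε) (one_lt_two)
  have hp : (0 : ℝ) < 2 ^ n := by positivity
  have hn' : (Fintype.card κ : ℝ) / 2 ^ n ≤ ε := by
    rw [div_lt_iff₀ hε0] at hn
    rw [div_le_iff₀ hp]; linarith only [hn]
  set z : κ → ℤ := fun k => round (x k * 2 ^ n) with hz
  have hclose : ∀ k, |x k - (z k : ℝ) / 2 ^ n| ≤ 1 / 2 ^ n := by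
    intro k
    have h1 := abs_sub_round (x k * 2 ^ n)
    have h2 : x k - (z k : ℝ) / 2 ^ n = (x k * 2 ^ n - round (x k * 2 ^ n)) / 2 ^ n := by
      rw [hz]; (clear * -; field_simp)
    rw [h2, abs_div, abs_of_pos hp]
    exact div_le_div_of_nonneg_right (by linarith only [h1]) hp.le
  have hzb : ∀ k, |z k| ≤ 2 ^ n := by
    intro k
    have h1 := abs_le.1 (hx k)
    have h2 : x k * 2 ^ n ≤ ((2 ^ n : ℤ) : ℝ) := by push_cast; nlinarith only [hp, h1]
    have h3 : ((-2 ^ n : ℤ) : ℝ) ≤ x k * 2 ^ n := by push_cast; nlinarith only [hp, h1]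
    have h4 : z k ≤ 2 ^ n := by
      show round (x k * 2 ^ n) ≤ 2 ^ n
      rw [round_eq, ← Int.lt_add_one_iff, Int.floor_lt]
      push_cast at h2 ⊢
      linarith only [h2]
    have h5 : -2 ^ n ≤ z k := by
      show -2 ^ n ≤ round (x k * 2 ^ n)
      rw [round_eq, Int.le_floor]
      push_cast at h3 ⊢
      linarith only [h3]
    exact abs_le.2 ⟨by linarith only [h5], h4⟩
  have hsum' : ∑ k, (1 - |(z k : ℝ) / 2 ^ n|) ≤ 2 * D - 4000 * W * (1 - 0.55 ^ n) := by
    have h1 : ∑ k, (1 - |(z k : ℝ) / 2 ^ n|) ≤ ∑ k, ((1 - |x k|) + 1 / 2 ^ n) := by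
      refine Finset.sum_le_sum fun k _ => ?_
      have h2 := hclose k
      have h3 : |x k| ≤ |x k - (z k : ℝ) / 2 ^ n| + |(z k : ℝ) / 2 ^ n| := by
        calc |x k| = |(x k - (z k : ℝ) / 2 ^ n) + (z k : ℝ) / 2 ^ n| := by ring_nf
          _ ≤ _ := abs_add_le _ _
      linarith only [h2, h3]
    rw [Finset.sum_add_distrib, Finset.sum_const, Finset.card_univ, nsmul_eq_mul, mul_one_div] at h1
    have h2 : ε ≤ D / 2 := min_le_left _ _
    have h3 : (0 : ℝ) ≤ 0.55 ^ n := by positivity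
    have h4 : 0 ≤ 4000 * W * 0.55 ^ n := by positivity
    linarith
  obtain ⟨e, he, heb⟩ := dyadic_rounding v hv hJ D W hD.le hW n z hzb hsum'
  refine ⟨e, he, fun j => ?_⟩
  have e1 : ∑ k, (e k - x k) * v j k
      = ∑ k, (e k - (z k : ℝ) / 2 ^ n) * v j k + ∑ k, ((z k : ℝ) / 2 ^ n - x k) * v j k := by
    rw [← Finset.sum_add_distrib]
    exact Finset.sum_congr rfl fun k _ => by ring
  rw [e1]
  refine (abs_add_le _ _).trans ?_
  have h1 := heb j
  have h2 : |∑ k, ((z k : ℝ) / 2 ^ n - x k) * v j k| ≤ W := by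
    calc |∑ k, ((z k : ℝ) / 2 ^ n - x k) * v j k|
        ≤ ∑ k, |((z k : ℝ) / 2 ^ n - x k) * v j k| := Finset.abs_sum_le_sum_abs _ _
      _ ≤ ∑ _k : κ, (1 / 2 ^ n : ℝ) := by
          refine Finset.sum_le_sum fun k _ => ?_
          rw [abs_mul, abs_sub_comm]
          calc |x k - (z k : ℝ) / 2 ^ n| * |v j k| ≤ |x k - (z k : ℝ) / 2 ^ n| * 1 :=
                mul_le_mul_of_nonneg_left (hv j k) (abs_nonneg _)
            _ ≤ _ := by rw [mul_one]; exact hclose k
      _ = (Fintype.card κ : ℝ) / 2 ^ n := by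
          rw [Finset.sum_const, Finset.card_univ, nsmul_eq_mul, mul_one_div]
      _ ≤ ε := hn'
      _ ≤ W := min_le_right _ _
  have h3 : (0 : ℝ) ≤ 0.55 ^ n := by positivity
  have h4 : 0 ≤ 4000 * W * 0.55 ^ n := by positivity
  nlinarith only [hW0, h1, h2, h4]

theorem norm_e (t : ℝ) : ‖e t‖ = 1 := by
  rw [e, Complex.norm_exp_ofReal_mul_I]

theorem e_add (s t : ℝ) : e (s + t) = e s * e t := by
  rw [e, e, e, ← Complex.exp_add]
  congr 1
  push_cast
  ring

theorem e_int (n : ℤ) : e n = 1 := by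
  rw [e, Complex.exp_eq_one_iff]
  exact ⟨n, by push_cast; ring⟩

theorem e_pow (t : ℝ) (k : ℕ) : e (k * t) = e t ^ k := by
  rw [e, e, ← Complex.exp_nat_mul]
  congr 1
  push_cast
  ring

theorem norm_e_sub (s t : ℝ) : ‖e s - e t‖ ≤ 2 * Real.pi * |s - t| := by
  have h1 : e s - e t = e t * (e (s - t) - 1) := by
    rw [mul_sub, ← e_add, mul_one]
    congr 2
    ring
  rw [h1, norm_mul, norm_e, one_mul, e]
  have h2 := Real.norm_exp_I_mul_ofReal_sub_one_le (x := 2 * Real.pi * (s - t))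
  rw [mul_comm Complex.I] at h2
  refine h2.trans (le_of_eq ?_)
  rw [Real.norm_eq_abs, abs_mul, abs_of_pos (by positivity : (0 : ℝ) < 2 * Real.pi)]

/-- the polynomial `∑_{k<N} q_k z^k` -/
noncomputable def poly (N : ℕ) (q : ℕ → ℂ) (z : ℂ) : ℂ := ∑ k ∈ range N, q k * z ^ k

theorem differentiable_poly (N : ℕ) (q : ℕ → ℂ) : Differentiable ℂ (poly N q) := by
  unfold poly
  fun_prop

theorem poly_e (N : ℕ) (q : ℕ → ℂ) (θ : ℝ) :
    poly N q (e θ) = ∑ k ∈ range N, q k * e (k * θ) := by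
  unfold poly
  exact Finset.sum_congr rfl fun k _ => by rw [e_pow]

theorem poly_disc (N : ℕ) (q : ℕ → ℂ) (A : ℝ) (hA : ∀ z : ℂ, ‖z‖ = 1 → ‖poly N q z‖ ≤ A)
    (u : ℂ) (hu : ‖u‖ ≤ 1) : ‖poly N q u‖ ≤ A := by
  refine Complex.norm_le_of_forall_mem_frontier_norm_le (U := Metric.ball (0 : ℂ) 1)
    Metric.isBounded_ball (differentiable_poly N q).diffContOnCl ?_ ?_
  · intro z hz
    rw [frontier_ball _ one_ne_zero, mem_sphere_zero_iff_norm] at hz
    exact hA z hz
  · rw [closure_ball _ one_ne_zero, mem_closedBall_zero_iff]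
    exact hu

theorem poly_growth (N : ℕ) (hN : 1 ≤ N) (q : ℕ → ℂ) (A : ℝ) (hA0 : 0 ≤ A)
    (hA : ∀ z : ℂ, ‖z‖ = 1 → ‖poly N q z‖ ≤ A) (u : ℂ) (hu : ‖u‖ ≤ 1 + 1 / N) :
    ‖poly N q u‖ ≤ 3 * A := by
  rcases le_or_gt ‖u‖ 1 with h1 | h1
  · exact (poly_disc N q A hA u h1).trans (by linarith only [hA0])
  · have hu0 : u ≠ 0 := by
      rintro rfl; simp only [norm_zero] at h1; linarith only [h1]
    set q' : ℕ → ℂ := fun k => q (N - 1 - k) with hq'
    have hrev : ∀ w : ℂ, w ≠ 0 → poly N q w = w ^ (N - 1) * poly N q' w⁻¹ := by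
      intro w hw
      unfold poly
      rw [Finset.mul_sum, ← Finset.sum_range_reflect]
      refine Finset.sum_congr rfl fun k hk => ?_
      have hk' := Finset.mem_range.1 hk
      have e1 : w ^ (N - 1) = w ^ (N - 1 - k) * w ^ k := by
        rw [← pow_add]; congr 1; omega
      rw [e1, inv_pow]
      have : w ^ k ≠ 0 := pow_ne_zero _ hw
      field_simp
      rfl
    have hA' : ∀ z : ℂ, ‖z‖ = 1 → ‖poly N q' z‖ ≤ A := by
      intro z hz
      have hz0 : z ≠ 0 := by rintro rfl; simp at hz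
      have h2 := hrev z⁻¹ (inv_ne_zero hz0)
      rw [inv_inv] at h2
      have h3 : ‖poly N q z⁻¹‖ = ‖poly N q' z‖ := by
        rw [h2, norm_mul, norm_pow, norm_inv, hz]; simp only [inv_one, one_pow, one_mul]
      rw [← h3]
      exact hA _ (by rw [norm_inv, hz, inv_one])
    rw [hrev u hu0, norm_mul, norm_pow]
    have h2 : ‖poly N q' u⁻¹‖ ≤ A := poly_disc N q' A hA' _ (by
      rw [norm_inv]; exact inv_le_one_of_one_le₀ h1.le)
    have h3 : ‖u‖ ^ (N - 1) ≤ 3 := by
      calc ‖u‖ ^ (N - 1) ≤ ‖u‖ ^ N := pow_le_pow_right₀ h1.le (by omega)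
        _ ≤ (1 + 1 / N) ^ N := pow_le_pow_left₀ (norm_nonneg _) hu _
        _ ≤ (Real.exp (1 / N)) ^ N := by
            refine pow_le_pow_left₀ (by positivity) ?_ _
            have := Real.add_one_le_exp (1 / (N : ℝ)); linarith only [this]
        _ = Real.exp 1 := by
            rw [← Real.exp_nat_mul]
            congr 1
            have : (N : ℝ) ≠ 0 := by positivity
            field_simp
        _ ≤ 3 := by have := Real.exp_one_lt_d9; linarith only [this]
    exact mul_le_mul h3 h2 (norm_nonneg _) (by norm_num)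

theorem poly_lipschitz (N : ℕ) (hN : 1 ≤ N) (q : ℕ → ℂ) (A : ℝ) (hA0 : 0 ≤ A)
    (hA : ∀ z : ℂ, ‖z‖ = 1 → ‖poly N q z‖ ≤ A) (u w : ℂ) (hu : ‖u‖ ≤ 1) (hw : ‖w‖ ≤ 1) :
    ‖poly N q w - poly N q u‖ ≤ 3 * A * N * ‖w - u‖ := by
  have hN0 : (0 : ℝ) < N := by exact_mod_cast hN
  refine Convex.norm_image_sub_le_of_norm_deriv_le (s := Metric.closedBall (0 : ℂ) 1)
    (fun x _ => (differentiable_poly N q).differentiableAt) ?_ (convex_closedBall _ _)
    (mem_closedBall_zero_iff.2 hu) (mem_closedBall_zero_iff.2 hw)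
  intro x hx
  rw [mem_closedBall_zero_iff] at hx
  have h1 := Complex.norm_deriv_le_of_forall_mem_sphere_norm_le (c := x) (R := 1 / N) (C := 3 * A)
    (f := poly N q) (by positivity) (differentiable_poly N q).diffContOnCl (by
      intro z hz
      refine poly_growth N hN q A hA0 hA z ?_
      rw [mem_sphere_iff_norm] at hz
      calc ‖z‖ = ‖x + (z - x)‖ := by ring_nf
        _ ≤ ‖x‖ + ‖z - x‖ := norm_add_le _ _
        _ ≤ _ := by rw [hz]; linarith only [hx])
  refine h1.trans (le_of_eq ?_)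
  field_simp

/-- a polynomial that is small on a grid of `40 N` points is small -/
theorem grid_bound (N : ℕ) (hN : 1 ≤ N) (q : ℕ → ℂ) (B : ℝ)
    (h : ∀ j : Fin (40 * N), ‖∑ k ∈ range N, q k * e (k * ((j : ℕ) / (40 * N : ℝ)))‖ ≤ B) (θ : ℝ) :
    ‖∑ k ∈ range N, q k * e (k * θ)‖ ≤ 2 * B := by
  have hN0 : (0 : ℝ) < N := by exact_mod_cast hN
  obtain ⟨z, hz, hmax⟩ := (isCompact_sphere (0 : ℂ) 1).exists_isMaxOn
    ⟨1, by simp only [mem_sphere_iff_norm, sub_zero, norm_one]⟩ ((differentiable_poly N q).continuous.norm.continuousOn (s := Metric.sphere 0 1))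
  rw [mem_sphere_zero_iff_norm] at hz
  set A : ℝ := ‖poly N q z‖ with hA
  have hA0 : 0 ≤ A := norm_nonneg _
  have hAle : ∀ w : ℂ, ‖w‖ = 1 → ‖poly N q w‖ ≤ A := fun w hw =>
    hmax (mem_sphere_zero_iff_norm.2 hw)
  obtain ⟨t, ht⟩ : ∃ t : ℝ, e t = z := by
    refine ⟨Complex.arg z / (2 * Real.pi), ?_⟩
    rw [e]
    have h1 := Complex.norm_mul_exp_arg_mul_I z
    rw [hz, Complex.ofReal_one, one_mul] at h1
    conv_rhs => rw [← h1]
    congr 2
    rw [mul_div_cancel₀]
    have := Real.pi_pos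
    positivity
  have hfr : e (Int.fract t) = z := by
    have h1 : t = Int.fract t + ⌊t⌋ := (Int.fract_add_floor t).symm
    rw [← ht]
    conv_rhs => rw [h1, e_add, e_int, mul_one]
  set f : ℝ := Int.fract t with hf
  have hf0 : 0 ≤ f := Int.fract_nonneg t
  have hf1 : f < 1 := Int.fract_lt_one t
  have h40 : (0 : ℝ) < 40 * N := by positivity
  set j : ℕ := ⌊f * (40 * N)⌋₊ with hj
  have hjlt : j < 40 * N := by
    rw [hj, Nat.floor_lt (by (clear * - hN; positivity))]
    push_cast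
    nlinarith only [hN0, hf1]
  have hj1 : (j : ℝ) ≤ f * (40 * N) := Nat.floor_le (by (clear * - hN; positivity))
  have hj2 : f * (40 * N) < j + 1 := Nat.lt_floor_add_one _
  have hdist : |f - (j : ℝ) / (40 * N)| ≤ 1 / (40 * N) := by
    have h1 : f - (j : ℝ) / (40 * N) = (f * (40 * N) - j) / (40 * N) := by field_simp
    rw [h1, abs_div, abs_of_pos h40]
    exact div_le_div_of_nonneg_right (by rw [abs_le]; constructor <;> linarith only [hj1, hj2]) h40.le
  have h1 := poly_lipschitz N hN q A hA0 hAle (e (j / (40 * N))) (e f) (norm_e _).le (norm_e _).le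
  have h2 := norm_e_sub f (j / (40 * N))
  have h3 : ‖poly N q (e (j / (40 * N)))‖ ≤ B := by
    rw [poly_e]; exact h ⟨j, hjlt⟩
  have h4 : ‖poly N q (e f)‖ = A := by rw [hfr]
  have h5 : A ≤ B + 3 * A * N * (2 * Real.pi * (1 / (40 * N))) := by
    calc A = ‖poly N q (e (j / (40 * N))) + (poly N q (e f) - poly N q (e (j / (40 * N))))‖ := by
          rw [add_sub_cancel, h4]
      _ ≤ ‖poly N q (e (j / (40 * N)))‖ + ‖poly N q (e f) - poly N q (e (j / (40 * N)))‖ :=
          norm_add_le _ _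
      _ ≤ B + 3 * A * N * ‖e f - e (j / (40 * N))‖ := add_le_add h3 h1
      _ ≤ _ := by
          have : ‖e f - e (j / (40 * N))‖ ≤ 2 * Real.pi * (1 / (40 * N)) :=
            h2.trans (mul_le_mul_of_nonneg_left hdist (by positivity))
          have h6 : 0 ≤ 3 * A * N := by (clear * - hN; positivity)
          nlinarith only [this, h6]
  have h6 : 3 * A * N * (2 * Real.pi * (1 / (40 * N))) = 3 * Real.pi / 20 * A := by
    field_simp
    ring
  rw [h6] at h5
  have h7 := Real.pi_lt_d2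
  have h8 : A ≤ 2 * B := by nlinarith only [hA0, h5, h7]
  rw [← poly_e]
  exact (hAle _ (norm_e _)).trans h8

theorem rounding : RoundingStatement := by
  intro c hc
  -- `W = (2D)^{1/8} (80N+1)^{3/8}`, `D = 2 δ N`
  set δ : ℝ := min 1 ((c / 10 ^ 7) ^ 8) with hδ
  have hδ0 : 0 < δ := lt_min one_pos (by positivity)
  refine ⟨δ, hδ0, ⌈(10 ^ 8 / δ) ^ 2⌉₊ + 1, fun N hN x hx hsum => ?_⟩
  have hN1 : 1 ≤ N := by omega
  have hN0 : (0 : ℝ) < N := by exact_mod_cast hN1
  have hNlarge : (10 ^ 8 / δ) ^ 2 ≤ N := by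
    have h1 := Nat.le_ceil ((10 ^ 8 / δ) ^ 2)
    have h3 : ⌈(10 ^ 8 / δ) ^ 2⌉₊ ≤ N := by omega
    have h2 : ((⌈(10 ^ 8 / δ) ^ 2⌉₊ : ℕ) : ℝ) ≤ N := Nat.cast_le.2 h3
    linarith only [h1, h2]
  have hsq : 10 ^ 8 / δ ≤ Real.sqrt N := Real.le_sqrt_of_sq_le hNlarge
  set v : (Fin (40 * N) × Bool) → Fin N → ℝ := fun j k =>
    if j.2 then (e ((k : ℕ) * ((j.1 : ℕ) / (40 * N : ℝ)))).re
    else (e ((k : ℕ) * ((j.1 : ℕ) / (40 * N : ℝ)))).im with hv
  have hvb : ∀ j k, |v j k| ≤ 1 := by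
    intro j k
    simp only [hv]
    split_ifs
    · exact (Complex.abs_re_le_norm _).trans (norm_e _).le
    · exact (Complex.abs_im_le_norm _).trans (norm_e _).le
  have hcard : Fintype.card (Fin (40 * N) × Bool) = 80 * N := by
    rw [Fintype.card_prod, Fintype.card_fin, Fintype.card_bool]; ring
  set D : ℝ := 2 * (δ * N) with hD
  have hD0 : 0 < D := by positivity
  set W : ℝ := (2 * D) ^ (1 / 8 : ℝ) *
    ((Fintype.card (Fin (40 * N) × Bool) : ℝ) + 1) ^ (3 / 8 : ℝ) with hW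
  have hWle : W ≤ 8 * δ ^ (1 / 8 : ℝ) * Real.sqrt N := by
    have h1 : (2 * D) ^ (1 / 8 : ℝ) = (4 : ℝ) ^ (1 / 8 : ℝ) * (δ ^ (1 / 8 : ℝ) * (N : ℝ) ^ (1 / 8 : ℝ)) := by
      rw [← Real.mul_rpow hδ0.le hN0.le, ← Real.mul_rpow (by norm_num) (by positivity)]
      congr 1
      rw [hD]; ring
    have h2 : ((Fintype.card (Fin (40 * N) × Bool) : ℝ) + 1) ^ (3 / 8 : ℝ) ≤
        (81 : ℝ) ^ (3 / 8 : ℝ) * (N : ℝ) ^ (3 / 8 : ℝ) := by
      rw [← Real.mul_rpow (by norm_num) hN0.le]
      refine Real.rpow_le_rpow (by positivity) ?_ (by norm_num)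
      rw [hcard]; push_cast
      have : (1 : ℝ) ≤ N := by exact_mod_cast hN1
      linarith only [this]
    have h3 : (4 : ℝ) ^ (1 / 8 : ℝ) * (81 : ℝ) ^ (3 / 8 : ℝ) ≤ 8 := by
      have h4 : (4 : ℝ) ^ (1 / 8 : ℝ) * (81 : ℝ) ^ (3 / 8 : ℝ)
          = ((4 : ℝ) * 81 ^ 3) ^ (1 / 8 : ℝ) := by
        rw [Real.mul_rpow (by norm_num) (by norm_num)]
        congr 1
        rw [← Real.rpow_natCast, ← Real.rpow_mul (by norm_num)]
        norm_num
      rw [h4]
      calc ((4 : ℝ) * 81 ^ 3) ^ (1 / 8 : ℝ) ≤ (8 ^ 8 : ℝ) ^ (1 / 8 : ℝ) :=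
            Real.rpow_le_rpow (by norm_num) (by norm_num) (by norm_num)
        _ = 8 := by
            rw [← Real.rpow_natCast, ← Real.rpow_mul (by norm_num)]; norm_num
    have h5 : (N : ℝ) ^ (1 / 8 : ℝ) * (N : ℝ) ^ (3 / 8 : ℝ) = Real.sqrt N := by
      rw [← Real.rpow_add hN0, Real.sqrt_eq_rpow]; norm_num
    calc W ≤ ((4 : ℝ) ^ (1 / 8 : ℝ) * (δ ^ (1 / 8 : ℝ) * (N : ℝ) ^ (1 / 8 : ℝ))) *
          ((81 : ℝ) ^ (3 / 8 : ℝ) * (N : ℝ) ^ (3 / 8 : ℝ)) := by
          rw [hW, h1]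
          exact mul_le_mul_of_nonneg_left h2 (by (clear * - hc hN1; positivity))
      _ = ((4 : ℝ) ^ (1 / 8 : ℝ) * (81 : ℝ) ^ (3 / 8 : ℝ)) *
          (δ ^ (1 / 8 : ℝ) * ((N : ℝ) ^ (1 / 8 : ℝ) * (N : ℝ) ^ (3 / 8 : ℝ))) := by ring
      _ ≤ 8 * (δ ^ (1 / 8 : ℝ) * ((N : ℝ) ^ (1 / 8 : ℝ) * (N : ℝ) ^ (3 / 8 : ℝ))) :=
          mul_le_mul_of_nonneg_right h3 (by positivity)
      _ = _ := by rw [h5]; ring
  have hδ1 : δ ≤ 1 := min_le_left _ _
  have hδ8 : δ ^ (1 / 8 : ℝ) ≤ 1 := Real.rpow_le_one hδ0.le hδ1 (by norm_num)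
  have hδc : δ ^ (1 / 8 : ℝ) ≤ c / 10 ^ 7 := by
    calc δ ^ (1 / 8 : ℝ) ≤ ((c / 10 ^ 7) ^ 8) ^ (1 / 8 : ℝ) :=
          Real.rpow_le_rpow hδ0.le (min_le_right _ _) (by norm_num)
      _ = c / 10 ^ 7 := by
          rw [← Real.rpow_natCast, ← Real.rpow_mul (by positivity)]; norm_num
  have hsN : Real.sqrt N * Real.sqrt N = N := Real.mul_self_sqrt hN0.le
  have hsN0 : 0 < Real.sqrt N := Real.sqrt_pos.2 hN0
  have hWD : 4000 * W ≤ D := by
    have h1 : W ≤ 8 * Real.sqrt N := by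
      refine hWle.trans ?_
      (clear * - hδ8 hsN0; nlinarith)
    have h2 : 10 ^ 8 ≤ δ * Real.sqrt N := by
      rw [div_le_iff₀ hδ0] at hsq; linarith only [hsq]
    have h3 : 10 ^ 8 * Real.sqrt N ≤ δ * N := by
      calc 10 ^ 8 * Real.sqrt N ≤ (δ * Real.sqrt N) * Real.sqrt N :=
            mul_le_mul_of_nonneg_right h2 hsN0.le
        _ = δ * N := by rw [mul_assoc, hsN]
    rw [hD]; linarith only [hsN0, h1, h3]
  obtain ⟨ε, hε, hεb⟩ := real_rounding v hvb (by rw [Fintype.card_fin, hcard]; (clear * - hN1; omega)) D W hD0 hW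
    hWD (fun k => x k) (fun k => hx k) (by
      have h1 : ∑ k : Fin N, (1 - |x k|) = ∑ k ∈ range N, (1 - |x k|) :=
        Fin.sum_univ_eq_sum_range (fun k => 1 - |x k|) N
      rw [h1]
      have h2 : ∑ k ∈ range N, (1 - |x k|) ≤ ∑ k ∈ range N, (1 - x k ^ 2) := by
        refine Finset.sum_le_sum fun k _ => ?_
        have h3 := hx k
        have h4 := abs_nonneg (x k)
        rw [← sq_abs]
        nlinarith only [h3, h4]
      rw [hD]; linarith only [hsum, h2])
  refine ⟨fun k => if h : k < N then ε ⟨k, h⟩ else 1, fun k => ?_, fun θ => ?_⟩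
  · show (if h : k < N then ε ⟨k, h⟩ else 1) = 1 ∨ (if h : k < N then ε ⟨k, h⟩ else 1) = -1
    split_ifs with h
    · exact hε _
    · exact Or.inl rfl
  · have hfin := grid_bound N hN1 (fun k => (((if h : k < N then ε ⟨k, h⟩ else 1) - x k : ℝ) : ℂ))
      (14000 * W) (fun j => by
        have hre : ∀ t : ℕ → ℝ, (∑ k ∈ range N,
            (((if h : k < N then ε ⟨k, h⟩ else 1) - x k : ℝ) : ℂ) * e (t k)).re
            = ∑ k : Fin N, (ε k - x k) * (e (t k)).re := by
          intro t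
          rw [Complex.re_sum, ← Fin.sum_univ_eq_sum_range (fun k =>
            ((((if h : k < N then ε ⟨k, h⟩ else 1) - x k : ℝ) : ℂ) * e (t k)).re) N]
          refine Finset.sum_congr rfl fun k _ => ?_
          rw [Complex.re_ofReal_mul, dif_pos k.2]
        have him : ∀ t : ℕ → ℝ, (∑ k ∈ range N,
            (((if h : k < N then ε ⟨k, h⟩ else 1) - x k : ℝ) : ℂ) * e (t k)).im
            = ∑ k : Fin N, (ε k - x k) * (e (t k)).im := by
          intro t
          rw [Complex.im_sum, ← Fin.sum_univ_eq_sum_range (fun k =>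
            ((((if h : k < N then ε ⟨k, h⟩ else 1) - x k : ℝ) : ℂ) * e (t k)).im) N]
          refine Finset.sum_congr rfl fun k _ => ?_
          rw [Complex.im_ofReal_mul, dif_pos k.2]
        refine (Complex.norm_le_abs_re_add_abs_im _).trans ?_
        have h1 := hεb (j, true)
        have h2 := hεb (j, false)
        simp only [hv, if_true] at h1
        simp only [hv, Bool.false_eq_true, if_false] at h2
        rw [hre (fun k => (k : ℝ) * ((j : ℕ) / (40 * N : ℝ))),
          him (fun k => (k : ℝ) * ((j : ℕ) / (40 * N : ℝ)))]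
        linarith only [h1, h2]) θ
    refine hfin.trans ?_
    have h1 : δ ^ (1 / 8 : ℝ) * Real.sqrt N ≤ c / 10 ^ 7 * Real.sqrt N :=
      mul_le_mul_of_nonneg_right hδc hsN0.le
    nlinarith only [hWle, h1, hc, hsN0]

end Vale.Agent.P110.RT
end
end

section

section

/-!
Frequency paths: linear legs, concatenation, reversal.
-/

open MeasureTheory

namespace Vale.Agent.P110.AT

open Vale.Agent.P110 (e)

theorem IsPath.continuous {B : ℝ → ℝ} {l b0 b1 L : ℝ} (h : IsPath B l b0 b1 L) :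
    Continuous B := by
  have hL : LipschitzWith (Real.toNNReal L) B := by
    apply LipschitzWith.of_dist_le_mul
    intro x y
    rw [Real.dist_eq, Real.dist_eq]
    refine (h.lip x y).trans ?_
    gcongr
    exact Real.le_coe_toNNReal L
  exact hL.continuous

theorem IsPath.mono {B : ℝ → ℝ} {l b0 b1 L L' : ℝ} (h : IsPath B l b0 b1 L) (hL : L ≤ L') :
    IsPath B l b0 b1 L' :=
  ⟨fun x y => (h.lip x y).trans (by (clear * - hL; gcongr)), h.left, h.right⟩

theorem continuous_phase {B : ℝ → ℝ} (hB : Continuous B) (k : ℝ) :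
    Continuous fun x : ℝ => e ((∫ t in (0 : ℝ)..x, B t) - k * x) := by
  apply continuous_e.comp
  apply Continuous.sub
  · exact intervalIntegral.continuous_primitive (fun a b => hB.intervalIntegrable a b) 0
  · fun_prop

/-! ### Legs -/

/-- truncation to `[0,1]` -/
noncomputable def clamp (x : ℝ) : ℝ := max 0 (min 1 x)

theorem clamp_nonneg (x : ℝ) : 0 ≤ clamp x := le_max_left _ _

theorem clamp_le_one (x : ℝ) : clamp x ≤ 1 := max_le zero_le_one (min_le_left _ _)

theorem clamp_of_mem {x : ℝ} (h0 : 0 ≤ x) (h1 : x ≤ 1) : clamp x = x := by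
  unfold clamp
  rw [min_eq_right h1, max_eq_right h0]

theorem clamp_of_nonpos {x : ℝ} (h0 : x ≤ 0) : clamp x = 0 := by
  unfold clamp
  rw [min_eq_right (h0.trans zero_le_one), max_eq_left h0]

theorem clamp_of_one_le {x : ℝ} (h0 : 1 ≤ x) : clamp x = 1 := by
  unfold clamp
  rw [min_eq_left h0, max_eq_right zero_le_one]

theorem clamp_lip (x y : ℝ) : |clamp x - clamp y| ≤ |x - y| := by
  unfold clamp
  have h1 : |max 0 (min 1 x) - max 0 (min 1 y)| ≤ |min 1 x - min 1 y| := by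
    have := abs_max_sub_max_le_abs (min 1 x) (min 1 y) (0 : ℝ)
    rwa [max_comm (min 1 x), max_comm (min 1 y)] at this
  have h2 : |min 1 x - min 1 y| ≤ |x - y| := by
    have := abs_min_sub_min_le_max 1 x 1 y
    simpa only [ge_iff_le, sub_self, abs_zero, abs_nonneg, sup_of_le_right] using this
  exact h1.trans h2

/-- linear path from `b0` to `b1` over `[0,w]` -/
noncomputable def leg (w b0 b1 : ℝ) (x : ℝ) : ℝ := b0 + (b1 - b0) * clamp (x / w)

theorem leg_isPath {w : ℝ} (hw : 0 < w) (b0 b1 : ℝ) :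
    IsPath (leg w b0 b1) w b0 b1 (|b1 - b0| / w) := by
  refine ⟨fun x y => ?_, fun x hx => ?_, fun x hx => ?_⟩
  · unfold leg
    have h1 : b0 + (b1 - b0) * clamp (x / w) - (b0 + (b1 - b0) * clamp (y / w)) =
      (b1 - b0) * (clamp (x / w) - clamp (y / w)) := by ring
    rw [h1, abs_mul]
    have h2 : |clamp (x / w) - clamp (y / w)| ≤ |x - y| / w := by
      refine (clamp_lip _ _).trans ?_
      rw [← sub_div, abs_div, abs_of_pos hw]
    calc |b1 - b0| * |clamp (x / w) - clamp (y / w)| ≤ |b1 - b0| * (|x - y| / w) := by gcongr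
      _ = _ := by ring
  · unfold leg
    rw [clamp_of_nonpos (div_nonpos_of_nonpos_of_nonneg hx hw.le)]
    ring
  · unfold leg
    rw [clamp_of_one_le ((one_le_div hw).mpr hx)]
    ring

theorem leg_range {w b0 b1 lo hi : ℝ} (h0 : lo ≤ b0 ∧ b0 ≤ hi) (h1 : lo ≤ b1 ∧ b1 ≤ hi)
    (x : ℝ) : lo ≤ leg w b0 b1 x ∧ leg w b0 b1 x ≤ hi := by
  unfold leg
  have h2 := clamp_nonneg (x / w)
  have h3 := clamp_le_one (x / w)
  obtain ⟨h4, h5⟩ := h0
  obtain ⟨h6, h7⟩ := h1
  generalize clamp (x / w) = c at *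
  constructor <;> nlinarith only [h4, h3, h6, h2, h5, h7]

theorem leg_eq {w b0 b1 x : ℝ} (hw : 0 < w) (h0 : 0 ≤ x) (h1 : x ≤ w) :
    leg w b0 b1 x = b0 + (b1 - b0) / w * x := by
  unfold leg
  rw [clamp_of_mem (by positivity) ((div_le_one hw).mpr h1)]
  ring

theorem integral_leg_of_le {w b0 b1 x : ℝ} (hw : 0 < w) (h0 : 0 ≤ x) (h1 : x ≤ w) :
    ∫ t in (0 : ℝ)..x, leg w b0 b1 t = b0 * x + (b1 - b0) / w * x ^ 2 / 2 := by
  have h2 : ∫ t in (0 : ℝ)..x, leg w b0 b1 t = ∫ t in (0 : ℝ)..x, (b0 + (b1 - b0) / w * t) := by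
    apply intervalIntegral.integral_congr
    intro t ht
    rw [Set.uIcc_of_le h0] at ht
    exact leg_eq hw ht.1 (ht.2.trans h1)
  rw [h2, intervalIntegral.integral_add, intervalIntegral.integral_const_mul, integral_id]
  · simp only [intervalIntegral.integral_const, sub_zero, smul_eq_mul, ne_eq, OfNat.ofNat_ne_zero, not_false_eq_true, zero_pow]
    ring
  · exact intervalIntegrable_const
  · exact (continuous_const.mul continuous_id).intervalIntegrable _ _

theorem integral_leg {w b0 b1 : ℝ} (hw : 0 < w) :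
    ∫ t in (0 : ℝ)..w, leg w b0 b1 t = w * (b0 + b1) / 2 := by
  rw [integral_leg_of_le hw hw.le le_rfl]
  field_simp
  ring

theorem J_leg_le (hFB : ∀ c : ℝ, 0 < c → ∀ u v : ℝ, ‖∫ x in u..v, e (c * x ^ 2 / 2)‖ ≤ 10 / √c)
    {w b0 b1 : ℝ} (hw : 0 < w) (hb : b0 ≠ b1) (k : ℝ) :
    ‖J (leg w b0 b1) w k‖ ≤ 10 / √(|b1 - b0| / w) := by
  set s : ℝ := (b1 - b0) / w with hs
  have hs0 : s ≠ 0 := by
    rw [hs]
    exact div_ne_zero (sub_ne_zero.mpr hb.symm) hw.ne'
  have habs : |b1 - b0| / w = |s| := by rw [hs, abs_div, abs_of_pos hw]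
  rw [habs]
  set c : ℝ := (b0 - k) / s with hc
  have h1 : J (leg w b0 b1) w k =
      e (-(s * c ^ 2 / 2)) * ∫ x in (0 : ℝ)..w, e (s * (x + c) ^ 2 / 2) := by
    unfold J
    rw [← intervalIntegral.integral_const_mul]
    apply intervalIntegral.integral_congr
    intro x hx
    rw [Set.uIcc_of_le hw.le] at hx
    simp only
    rw [integral_leg_of_le hw hx.1 hx.2, ← e_add, ← hs]
    congr 1
    rw [hc]
    field_simp
    ring
  rw [h1, norm_mul, norm_e, one_mul, intervalIntegral.integral_comp_add_right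
    (fun x => e (s * x ^ 2 / 2))]
  rcases lt_or_gt_of_ne hs0 with h | h
  · have h2 : ∀ x : ℝ, e (s * x ^ 2 / 2) = starRingEnd ℂ (e (-s * x ^ 2 / 2)) := by
      intro x
      rw [← e_neg]
      congr 1
      ring
    simp_rw [h2]
    have h3 : ∫ x in (0 + c)..(w + c), starRingEnd ℂ (e (-s * x ^ 2 / 2)) =
        starRingEnd ℂ (∫ x in (0 + c)..(w + c), e (-s * x ^ 2 / 2)) := by
      exact intervalIntegral.intervalIntegral_conj
    rw [h3, RCLike.norm_conj, abs_of_neg h]
    exact hFB (-s) (by linarith only [h]) _ _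
  · rw [abs_of_pos h]
    exact hFB s h _ _

/-! ### Concatenation -/

/-- concatenation of paths -/
noncomputable def concat (B1 : ℝ → ℝ) (l1 b1 : ℝ) (B2 : ℝ → ℝ) (x : ℝ) : ℝ :=
  B1 x + B2 (x - l1) - b1

theorem concat_left {B1 B2 : ℝ → ℝ} {l1 l2 b1 b2 L x : ℝ} (h2 : IsPath B2 l2 b1 b2 L)
    (hx : x ≤ l1) : concat B1 l1 b1 B2 x = B1 x := by
  unfold concat
  rw [h2.left _ (by linarith)]
  ring

theorem concat_right {B1 B2 : ℝ → ℝ} {l1 b0 b1 L x : ℝ} (h1 : IsPath B1 l1 b0 b1 L)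
    (hx : l1 ≤ x) : concat B1 l1 b1 B2 x = B2 (x - l1) := by
  unfold concat
  rw [h1.right _ hx]
  ring

theorem isPath_concat {B1 B2 : ℝ → ℝ} {l1 l2 b0 b1 b2 L : ℝ} (hl1 : 0 ≤ l1) (hl2 : 0 ≤ l2)
    (h1 : IsPath B1 l1 b0 b1 L) (h2 : IsPath B2 l2 b1 b2 L) :
    IsPath (concat B1 l1 b1 B2) (l1 + l2) b0 b2 L := by
  have key : ∀ x y, x ≤ y → |concat B1 l1 b1 B2 x - concat B1 l1 b1 B2 y| ≤ L * |x - y| := by
    intro x y hxy
    rcases le_total y l1 with hy | hy
    · rw [concat_left h2 hy, concat_left h2 (hxy.trans hy)]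
      exact h1.lip x y
    · rcases le_total x l1 with hx | hx
      · have h3 : |concat B1 l1 b1 B2 x - concat B1 l1 b1 B2 l1| ≤ L * (l1 - x) := by
          rw [concat_left h2 hx, concat_left h2 le_rfl]
          have := h1.lip x l1
          rwa [abs_sub_comm x l1, abs_of_nonneg (by linarith : (0 : ℝ) ≤ l1 - x)] at this
        have h4 : |concat B1 l1 b1 B2 l1 - concat B1 l1 b1 B2 y| ≤ L * (y - l1) := by
          rw [concat_right h1 le_rfl, concat_right h1 hy]
          have := h2.lip (l1 - l1) (y - l1)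
          have h5 : l1 - l1 - (y - l1) = -(y - l1) := by ring
          rwa [h5, abs_neg, abs_of_nonneg (by linarith : (0 : ℝ) ≤ y - l1)] at this
        have h5 : |x - y| = y - x := by
          rw [abs_sub_comm, abs_of_nonneg (by linarith only [hxy])]
        rw [h5]
        have h6 := abs_sub_le (concat B1 l1 b1 B2 x) (concat B1 l1 b1 B2 l1)
          (concat B1 l1 b1 B2 y)
        linarith
      · rw [concat_right h1 hx, concat_right h1 hy]
        have := h2.lip (x - l1) (y - l1)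
        have h5 : x - l1 - (y - l1) = x - y := by ring
        rwa [h5] at this
  refine ⟨fun x y => ?_, fun x hx => ?_, fun x hx => ?_⟩
  · rcases le_total x y with h | h
    · exact key x y h
    · rw [abs_sub_comm, abs_sub_comm x y]
      exact key y x h
  · rw [concat_left h2 (hx.trans hl1)]
    exact h1.left x hx
  · rw [concat_right h1 (by linarith)]
    exact h2.right _ (by linarith)

theorem concat_range {B1 B2 : ℝ → ℝ} {l1 l2 b0 b1 b2 L lo hi : ℝ}
    (h1 : IsPath B1 l1 b0 b1 L) (h2 : IsPath B2 l2 b1 b2 L)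
    (r1 : ∀ x, lo ≤ B1 x ∧ B1 x ≤ hi) (r2 : ∀ x, lo ≤ B2 x ∧ B2 x ≤ hi) (x : ℝ) :
    lo ≤ concat B1 l1 b1 B2 x ∧ concat B1 l1 b1 B2 x ≤ hi := by
  rcases le_total x l1 with hx | hx
  · rw [concat_left h2 hx]
    exact r1 x
  · rw [concat_right h1 hx]
    exact r2 _

theorem integral_concat_of_le {B1 B2 : ℝ → ℝ} {l1 l2 b1 b2 L x : ℝ}
    (h2 : IsPath B2 l2 b1 b2 L) (h0 : 0 ≤ x) (hx : x ≤ l1) :
    ∫ t in (0 : ℝ)..x, concat B1 l1 b1 B2 t = ∫ t in (0 : ℝ)..x, B1 t := by
  apply intervalIntegral.integral_congr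
  intro t ht
  rw [Set.uIcc_of_le h0] at ht
  exact concat_left h2 (ht.2.trans hx)

theorem integral_concat_of_ge {B1 B2 : ℝ → ℝ} {l1 l2 b0 b1 b2 L x : ℝ} (hl1 : 0 ≤ l1)
    (hl2 : 0 ≤ l2) (h1 : IsPath B1 l1 b0 b1 L) (h2 : IsPath B2 l2 b1 b2 L) (hx : l1 ≤ x) :
    ∫ t in (0 : ℝ)..x, concat B1 l1 b1 B2 t =
      (∫ t in (0 : ℝ)..l1, B1 t) + ∫ t in (0 : ℝ)..(x - l1), B2 t := by
  have hc := (isPath_concat hl1 hl2 h1 h2).continuous
  rw [← intervalIntegral.integral_add_adjacent_intervals (b := l1)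
    (hc.intervalIntegrable _ _) (hc.intervalIntegrable _ _),
    integral_concat_of_le h2 hl1 le_rfl]
  congr 1
  have h3 : ∫ t in l1..x, concat B1 l1 b1 B2 t = ∫ t in l1..x, B2 (t - l1) := by
    apply intervalIntegral.integral_congr
    intro t ht
    rw [Set.uIcc_of_le hx] at ht
    exact concat_right h1 ht.1
  rw [h3, intervalIntegral.integral_comp_sub_right (fun t => B2 t), sub_self]

theorem integral_concat {B1 B2 : ℝ → ℝ} {l1 l2 b0 b1 b2 L : ℝ} (hl1 : 0 ≤ l1)
    (hl2 : 0 ≤ l2) (h1 : IsPath B1 l1 b0 b1 L) (h2 : IsPath B2 l2 b1 b2 L) :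
    ∫ t in (0 : ℝ)..(l1 + l2), concat B1 l1 b1 B2 t =
      (∫ t in (0 : ℝ)..l1, B1 t) + ∫ t in (0 : ℝ)..l2, B2 t := by
  rw [integral_concat_of_ge hl1 hl2 h1 h2 (by linarith)]
  congr 2
  ring

theorem J_concat {B1 B2 : ℝ → ℝ} {l1 l2 b0 b1 b2 L : ℝ} (hl1 : 0 ≤ l1)
    (hl2 : 0 ≤ l2) (h1 : IsPath B1 l1 b0 b1 L) (h2 : IsPath B2 l2 b1 b2 L) (k : ℝ) :
    J (concat B1 l1 b1 B2) (l1 + l2) k =
      J B1 l1 k + e ((∫ t in (0 : ℝ)..l1, B1 t) - k * l1) * J B2 l2 k := by
  have hc := (isPath_concat hl1 hl2 h1 h2).continuous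
  unfold J
  rw [← intervalIntegral.integral_add_adjacent_intervals (b := l1)
    ((continuous_phase hc k).intervalIntegrable _ _)
    ((continuous_phase hc k).intervalIntegrable _ _)]
  congr 1
  · apply intervalIntegral.integral_congr
    intro x hx
    rw [Set.uIcc_of_le hl1] at hx
    simp only
    rw [integral_concat_of_le h2 hx.1 hx.2]
  · have h3 : ∫ x in l1..(l1 + l2), e ((∫ t in (0 : ℝ)..x, concat B1 l1 b1 B2 t) - k * x) =
        ∫ x in l1..(l1 + l2), e ((∫ t in (0 : ℝ)..l1, B1 t) - k * l1) *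
          e ((∫ t in (0 : ℝ)..(x - l1), B2 t) - k * (x - l1)) := by
      apply intervalIntegral.integral_congr
      intro x hx
      rw [Set.uIcc_of_le (by linarith)] at hx
      simp only
      rw [integral_concat_of_ge hl1 hl2 h1 h2 hx.1, ← e_add]
      congr 1
      ring
    rw [h3, intervalIntegral.integral_const_mul,
      intervalIntegral.integral_comp_sub_right
        (fun x => e ((∫ t in (0 : ℝ)..x, B2 t) - k * x)), sub_self]
    congr 3
    ring

/-! ### Reversal -/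

/-- reversed path -/
noncomputable def rev (B : ℝ → ℝ) (l : ℝ) (x : ℝ) : ℝ := B (l - x)

theorem isPath_rev {B : ℝ → ℝ} {l b0 b1 L : ℝ} (h : IsPath B l b0 b1 L) :
    IsPath (rev B l) l b1 b0 L := by
  refine ⟨fun x y => ?_, fun x hx => ?_, fun x hx => ?_⟩
  · unfold rev
    have := h.lip (l - x) (l - y)
    have h1 : l - x - (l - y) = -(x - y) := by ring
    rwa [h1, abs_neg] at this
  · unfold rev
    exact h.right _ (by linarith)
  · unfold rev
    exact h.left _ (by linarith)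

theorem integral_rev {B : ℝ → ℝ} (hB : Continuous B) (l x : ℝ) :
    ∫ t in (0 : ℝ)..x, rev B l t = (∫ t in (0 : ℝ)..l, B t) - ∫ t in (0 : ℝ)..(l - x), B t := by
  unfold rev
  rw [intervalIntegral.integral_comp_sub_left (fun t => B t), sub_zero,
    intervalIntegral.integral_interval_sub_left (hB.intervalIntegrable _ _)
      (hB.intervalIntegrable _ _)]

theorem J_rev {B : ℝ → ℝ} (hB : Continuous B) (l k : ℝ) :
    J (rev B l) l k =
      e ((∫ t in (0 : ℝ)..l, B t) - k * l) * starRingEnd ℂ (J B l k) := by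
  unfold J
  simp_rw [integral_rev hB]
  have h1 : ∀ x : ℝ, e ((∫ t in (0 : ℝ)..l, B t) - (∫ t in (0 : ℝ)..(l - x), B t) - k * x) =
      e ((∫ t in (0 : ℝ)..l, B t) - k * l) *
        starRingEnd ℂ (e ((∫ t in (0 : ℝ)..(l - x), B t) - k * (l - x))) := by
    intro x
    rw [← e_neg, ← e_add]
    congr 1
    ring
  simp_rw [h1]
  rw [intervalIntegral.integral_const_mul]
  congr 1
  rw [intervalIntegral.integral_comp_sub_left
    (fun x => starRingEnd ℂ (e ((∫ t in (0 : ℝ)..x, B t) - k * x))), sub_self, sub_zero]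
  exact intervalIntegral.intervalIntegral_conj

end Vale.Agent.P110.AT
end
end

section

section

/-!
The active sweep of a slot.
-/

open MeasureTheory

namespace Vale.Agent.P110.AT

open Vale.Agent.P110 (e)

theorem Prof.cont_bd550 {D : ℝ → ℝ} {κ L : ℝ} (h : Prof D κ L) : Continuous D := by
  have hL : LipschitzWith (Real.toNNReal L) D := by
    apply LipschitzWith.of_dist_le_mul
    intro x y
    rw [Real.dist_eq, Real.dist_eq]
    refine (h.lip x y).trans ?_
    gcongr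
    exact Real.le_coe_toNNReal L
  exact hL.continuous

/-- time change -/
noncomputable def tc (D : ℝ → ℝ) (l y : ℝ) : ℝ := l * ∫ u in (0 : ℝ)..y, D u

theorem hasDerivAt_tc {D : ℝ → ℝ} (hD : Continuous D) (l y : ℝ) :
    HasDerivAt (tc D l) (l * D y) y := by
  unfold tc
  apply HasDerivAt.const_mul
  exact intervalIntegral.integral_hasDerivAt_right (hD.intervalIntegrable _ _)
    (hD.stronglyMeasurableAtFilter _ _) hD.continuousAt

theorem tc_sub {D : ℝ → ℝ} (hD : Continuous D) (l a b : ℝ) :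
    tc D l b - tc D l a = l * ∫ u in a..b, D u := by
  unfold tc
  rw [← mul_sub, intervalIntegral.integral_interval_sub_left (hD.intervalIntegrable _ _)
    (hD.intervalIntegrable _ _)]

theorem le_tc_sub {D : ℝ → ℝ} {κ L l a b : ℝ} (hP : Prof D κ L) (hl : 0 < l) (hab : a ≤ b) :
    l * κ * (b - a) ≤ tc D l b - tc D l a := by
  rw [tc_sub hP.cont_bd550, mul_assoc]
  have h1 : ∫ _u in a..b, κ ≤ ∫ u in a..b, D u :=
    intervalIntegral.integral_mono_on hab (by simp) (hP.cont_bd550.intervalIntegrable _ _)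
      fun x _ => hP.lower x
  rw [intervalIntegral.integral_const, smul_eq_mul] at h1
  have h2 : κ * (b - a) ≤ ∫ u in a..b, D u := by linarith
  gcongr

theorem active_path {D : ℝ → ℝ} {κ L l K Bt : ℝ} (hD : Prof D κ L) (hl : 0 < l) (hB : 0 < Bt) :
    ∃ A : ℝ → ℝ, IsPath A (l * ∫ u in (0 : ℝ)..1, D u) K (K + Bt) (Bt / (l * κ)) ∧
      (∀ x, K ≤ A x ∧ A x ≤ K + Bt) ∧
      ∀ k : ℝ, J A (l * ∫ u in (0 : ℝ)..1, D u) k =
        l * e (-(l * Bt * ∫ u in (0 : ℝ)..((k - K) / Bt), D u * ((k - K) / Bt - u))) *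
          slotInt D (l * Bt) ((k - K) / Bt) := by
  have hDc := hD.cont_bd550
  have hk := hD.kpos
  have hlk : 0 < l * κ := by positivity
  have h0 : tc D l 0 = 0 := by simp [tc]
  have hmono : StrictMono (tc D l) := by
    intro a b hab
    have := le_tc_sub hD hl hab.le
    have h2 : 0 < l * κ * (b - a) := mul_pos hlk (by linarith)
    linarith only [this, h2]
  have hcont : Continuous (tc D l) :=
    continuous_iff_continuousAt.mpr fun y => (hasDerivAt_tc hDc l y).continuousAt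
  have hsurj : Function.Surjective (tc D l) := by
    apply hcont.surjective
    · refine Filter.tendsto_atTop_mono' _ ?_
        (Filter.Tendsto.const_mul_atTop hlk Filter.tendsto_id)
      filter_upwards [Filter.eventually_ge_atTop 0] with y hy
      have := le_tc_sub hD hl hy
      simp only [id]
      rw [h0] at this
      linarith only [this]
    · refine Filter.tendsto_atBot_mono' _ ?_
        (Filter.Tendsto.const_mul_atBot hlk Filter.tendsto_id)
      filter_upwards [Filter.eventually_le_atBot 0] with y hy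
      have := le_tc_sub hD hl hy
      simp only [id]
      rw [h0] at this
      linarith
  set Φ := hmono.orderIsoOfSurjective _ hsurj with hΦ
  have hFG : ∀ x, tc D l (Φ.symm x) = x := fun x => Φ.apply_symm_apply x
  have hGF : ∀ y, Φ.symm (tc D l y) = y := fun y => Φ.symm_apply_apply y
  have hGmono : StrictMono Φ.symm := Φ.symm.strictMono
  have hG0 : Φ.symm 0 = 0 := by
    have := hGF 0
    rwa [h0] at this
  have hF1 : tc D l 1 = l * ∫ u in (0 : ℝ)..1, D u := rfl
  have hlipG : ∀ x y, |Φ.symm x - Φ.symm y| ≤ |x - y| / (l * κ) := by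
    have key : ∀ x y, x ≤ y → |Φ.symm x - Φ.symm y| ≤ |x - y| / (l * κ) := by
      intro x y hxy
      have h1 : Φ.symm x ≤ Φ.symm y := hGmono.monotone hxy
      have h2 := le_tc_sub hD hl h1
      rw [hFG, hFG] at h2
      rw [abs_sub_comm, abs_of_nonneg (by linarith), abs_sub_comm, abs_of_nonneg (by linarith),
        le_div_iff₀ hlk]
      linarith only [h2]
    intro x y
    rcases le_total x y with h | h
    · exact key x y h
    · rw [abs_sub_comm, abs_sub_comm x y]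
      exact key y x h
  set A : ℝ → ℝ := fun x => K + Bt * clamp (Φ.symm x) with hA
  have hAlip : ∀ x y, |A x - A y| ≤ Bt / (l * κ) * |x - y| := by
    intro x y
    have h1 : A x - A y = Bt * (clamp (Φ.symm x) - clamp (Φ.symm y)) := by
      rw [hA]
      ring
    rw [h1, abs_mul, abs_of_pos hB]
    calc Bt * |clamp (Φ.symm x) - clamp (Φ.symm y)| ≤ Bt * (|x - y| / (l * κ)) := by
          gcongr
          exact (clamp_lip _ _).trans (hlipG x y)
      _ = _ := by ring
  have hAc : Continuous A := by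
    have hL : LipschitzWith (Real.toNNReal (Bt / (l * κ))) A := by
      apply LipschitzWith.of_dist_le_mul
      intro x y
      rw [Real.dist_eq, Real.dist_eq]
      refine (hAlip x y).trans ?_
      gcongr
      exact Real.le_coe_toNNReal _
    exact hL.continuous
  have hAF : ∀ u ∈ Set.Icc (0 : ℝ) 1, A (tc D l u) = K + Bt * u := by
    intro u hu
    rw [hA]
    simp only
    rw [hGF, clamp_of_mem hu.1 hu.2]
  -- inner integral
  have hinner : ∀ y ∈ Set.Icc (0 : ℝ) 1,
      ∫ x in (0 : ℝ)..(tc D l y), A x = ∫ u in (0 : ℝ)..y, l * D u * (K + Bt * u) := by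
    intro y hy
    have h1 := intervalIntegral.integral_comp_mul_deriv (a := 0) (b := y) (f := tc D l)
      (f' := fun u => l * D u) (g := A) (fun u _ => hasDerivAt_tc hDc l u)
      (by (clear * - hDc; fun_prop)) hAc
    rw [h0] at h1
    rw [← h1]
    apply intervalIntegral.integral_congr
    intro u hu
    rw [Set.uIcc_of_le hy.1] at hu
    simp only [Function.comp]
    rw [hAF u ⟨hu.1, hu.2.trans hy.2⟩]
    ring
  refine ⟨A, ⟨hAlip, ?_, ?_⟩, ?_, ?_⟩
  · intro x hx
    rw [hA]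
    simp only
    rw [clamp_of_nonpos]
    · ring
    · rw [← hG0]
      exact hGmono.monotone hx
  · intro x hx
    rw [hA]
    simp only
    rw [clamp_of_one_le]
    · ring
    · rw [← hGF 1, hF1]
      exact hGmono.monotone hx
  · intro x
    have h1 := clamp_nonneg (Φ.symm x)
    have h2 := clamp_le_one (Φ.symm x)
    rw [hA]
    simp only
    constructor <;> nlinarith only [hB, h1, h2]
  · intro k
    set a : ℝ := (k - K) / Bt with ha
    have hcp := continuous_phase hAc k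
    have h1 := intervalIntegral.integral_deriv_smul_comp (a := 0) (b := 1) (f := tc D l)
      (f' := fun u => l * D u)
      (g := fun x : ℝ => e ((∫ t in (0 : ℝ)..x, A t) - k * x))
      (fun u _ => hasDerivAt_tc hDc l u) (by fun_prop) hcp
    rw [h0, hF1] at h1
    unfold J
    rw [← h1]
    unfold slotInt
    rw [← intervalIntegral.integral_const_mul]
    apply intervalIntegral.integral_congr
    intro y hy
    rw [Set.uIcc_of_le zero_le_one] at hy
    simp only [Function.comp]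
    rw [hinner y hy]
    have hphase : (∫ u in (0 : ℝ)..y, l * D u * (K + Bt * u)) - k * tc D l y =
        -(l * Bt * ∫ u in (0 : ℝ)..a, D u * (a - u)) +
          l * Bt * ∫ u in a..y, D u * (u - a) := by
      have h2 : k * tc D l y = ∫ u in (0 : ℝ)..y, k * (l * D u) := by
        unfold tc
        rw [← intervalIntegral.integral_const_mul, ← intervalIntegral.integral_const_mul]
      have h3 : (∫ u in (0 : ℝ)..y, l * D u * (K + Bt * u)) - k * tc D l y =
          ∫ u in (0 : ℝ)..y, l * Bt * (D u * (u - a)) := by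
        rw [h2, ← intervalIntegral.integral_sub]
        · apply intervalIntegral.integral_congr
          intro u _
          simp only
          rw [ha]
          field_simp
          ring
        · exact Continuous.intervalIntegrable (by fun_prop) _ _
        · exact Continuous.intervalIntegrable (by fun_prop) _ _
      have h4 : ∫ u in (0 : ℝ)..a, D u * (a - u) = -∫ u in (0 : ℝ)..a, D u * (u - a) := by
        rw [← intervalIntegral.integral_neg]
        apply intervalIntegral.integral_congr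
        intro u _
        simp only
        ring
      have h5 : ∫ u in (0 : ℝ)..y, D u * (u - a) =
          (∫ u in (0 : ℝ)..a, D u * (u - a)) + ∫ u in a..y, D u * (u - a) :=
        (intervalIntegral.integral_add_adjacent_intervals
          (Continuous.intervalIntegrable (by fun_prop) _ _)
          (Continuous.intervalIntegrable (by fun_prop) _ _)).symm
      rw [h3, intervalIntegral.integral_const_mul, h5, h4]
      ring
    rw [hphase, e_add, Complex.real_smul]
    push_cast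
    ring

end Vale.Agent.P110.AT
end
end

section

section

/-!
One slot module: connector, active sweep, connector.
-/

open MeasureTheory

namespace Vale.Agent.P110.AT

open Vale.Agent.P110 (e)

/-- two-leg connector with prescribed area modulo 1 -/
theorem connector_exists {g n b0 b1 : ℝ} (hg : 0 < g) (hn : 0 < n) (h0 : 0 ≤ b0 ∧ b0 ≤ n)
    (h1 : 0 ≤ b1 ∧ b1 ≤ n) (hh : b0 = n / 2 ∨ b1 = n / 2) (t : ℝ) :
    ∃ C : ℝ → ℝ, IsPath C g b0 b1 ((n + 2 / g) * (2 / g)) ∧
      (∀ x, -(2 / g) ≤ C x ∧ C x ≤ n + 2 / g) ∧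
      (∃ z : ℤ, ∫ x in (0 : ℝ)..g, C x = t + z) ∧
      ∀ k : ℝ, ‖J C g k‖ ≤ 20 / √(n / g) := by
  -- the turning level
  obtain ⟨h, hhr, hd0, hd1, z, hz⟩ : ∃ h : ℝ, (-(2 / g) ≤ h ∧ h ≤ n + 2 / g) ∧ n / 2 ≤ |h - b0| ∧
      n / 2 ≤ |b1 - h| ∧ ∃ z : ℤ, g / 4 * (b0 + 2 * h + b1) = t + z := by
    have hg2 : 0 < 2 / g := by positivity
    rcases le_total (b0 + b1) n with hs | hs
    · set r : ℝ := t - g / 4 * (b0 + 2 * n + b1) with hr
      refine ⟨n + 2 / g * Int.fract r, ⟨?_, ?_⟩, ?_, ?_, -⌊r⌋, ?_⟩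
      · have := Int.fract_nonneg r
        have : 0 ≤ 2 / g * Int.fract r := by positivity
        (clear * - hn hg2 this; linarith)
      · have := (Int.fract_lt_one r).le
        have : 2 / g * Int.fract r ≤ 2 / g * 1 := by (clear * - this hg; gcongr)
        linarith only [this]
      · have := Int.fract_nonneg r
        have h3 : 0 ≤ 2 / g * Int.fract r := by positivity
        refine le_trans ?_ (le_abs_self _)
        rcases hh with hh | hh <;> linarith only [h3, hh, hs]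
      · have := Int.fract_nonneg r
        have h3 : 0 ≤ 2 / g * Int.fract r := by (clear * - hg; positivity)
        rw [abs_sub_comm]
        refine le_trans ?_ (le_abs_self _)
        rcases hh with hh | hh <;> linarith
      · have h3 : g / 4 * (b0 + 2 * (n + 2 / g * Int.fract r) + b1) =
            g / 4 * (b0 + 2 * n + b1) + Int.fract r := by
          field_simp
          ring
        rw [h3, Int.fract, hr]
        push_cast
        ring
    · set r : ℝ := g / 4 * (b0 + b1) - t with hr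
      refine ⟨-(2 / g * Int.fract r), ⟨?_, ?_⟩, ?_, ?_, ⌊r⌋, ?_⟩
      · have := (Int.fract_lt_one r).le
        have : 2 / g * Int.fract r ≤ 2 / g * 1 := by gcongr
        linarith only [this]
      · have := Int.fract_nonneg r
        have : 0 ≤ 2 / g * Int.fract r := by (clear * - hg; positivity)
        linarith only [hn, hg2, this]
      · have := Int.fract_nonneg r
        have h3 : 0 ≤ 2 / g * Int.fract r := by positivity
        rw [abs_sub_comm]
        refine le_trans ?_ (le_abs_self _)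
        rcases hh with hh | hh <;> linarith only [h3, hh, hs]
      · have := Int.fract_nonneg r
        have h3 : 0 ≤ 2 / g * Int.fract r := by (clear * - hg; positivity)
        refine le_trans ?_ (le_abs_self _)
        rcases hh with hh | hh <;> linarith only [h3, hh, hs]
      · have h3 : g / 4 * (b0 + 2 * (-(2 / g * Int.fract r)) + b1) =
            g / 4 * (b0 + b1) - Int.fract r := by
          field_simp
          ring
        rw [h3, Int.fract, hr]
        ring
  have hg2 : 0 < g / 2 := by positivity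
  have hne0 : b0 ≠ h := by
    intro hc
    rw [hc, sub_self, abs_zero] at hd0
    linarith only [hn, hd0]
  have hne1 : h ≠ b1 := by
    intro hc
    rw [hc, sub_self, abs_zero] at hd1
    linarith only [hn, hd1]
  have hgg : 0 < 2 / g := by positivity
  have hP1 : IsPath (leg (g / 2) b0 h) (g / 2) b0 h ((n + 2 / g) * (2 / g)) := by
    apply (leg_isPath hg2 b0 h).mono
    have h3 : |h - b0| ≤ n + 2 / g := by
      rw [abs_le]
      constructor <;> linarith only [h0, hhr]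
    calc |h - b0| / (g / 2) = |h - b0| * (2 / g) := by (clear * - hg hne0; field_simp)
      _ ≤ _ := by gcongr
  have hP2 : IsPath (leg (g / 2) h b1) (g / 2) h b1 ((n + 2 / g) * (2 / g)) := by
    apply (leg_isPath hg2 h b1).mono
    have h3 : |b1 - h| ≤ n + 2 / g := by
      rw [abs_le]
      constructor <;> linarith only [h1, hhr]
    calc |b1 - h| / (g / 2) = |b1 - h| * (2 / g) := by (clear * - hg hne1; field_simp)
      _ ≤ _ := by (clear * - h3 hg; gcongr)
  have hgs : g / 2 + g / 2 = g := by ring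
  have hrange : ∀ b, 0 ≤ b ∧ b ≤ n → -(2 / g) ≤ b ∧ b ≤ n + 2 / g := fun b hb =>
    ⟨by linarith only [hgg, hb], by linarith only [hgg, hb]⟩
  refine ⟨concat (leg (g / 2) b0 h) (g / 2) h (leg (g / 2) h b1), ?_, ?_, ⟨z, ?_⟩, ?_⟩
  · have := isPath_concat hg2.le hg2.le hP1 hP2
    rwa [hgs] at this
  · intro x
    exact concat_range hP1 hP2 (leg_range (hrange _ h0) hhr) (leg_range hhr (hrange _ h1)) x
  · have := integral_concat hg2.le hg2.le hP1 hP2
    rw [hgs] at this
    rw [this, integral_leg hg2, integral_leg hg2, ← hz]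
    ring
  · intro k
    have := J_concat hg2.le hg2.le hP1 hP2 k
    rw [hgs] at this
    rw [this]
    have hs : ∀ d : ℝ, n / 2 ≤ d → 10 / √(d / (g / 2)) ≤ 10 / √(n / g) := by
      intro d hd
      have h5 : n / g ≤ d / (g / 2) := by
        rw [div_le_div_iff₀ hg hg2]
        nlinarith only [hg, hd]
      have h6 : 0 < √(n / g) := Real.sqrt_pos.mpr (by positivity)
      (clear * - hn hg h5; gcongr)
    have h3 := (J_leg_le (fun c hc u v => fresnel_bound hc u v) hg2 hne0 k).trans (hs _ hd0)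
    have h4 := (J_leg_le (fun c hc u v => fresnel_bound hc u v) hg2 hne1 k).trans (hs _ hd1)
    refine (norm_add_le _ _).trans ?_
    rw [norm_mul, norm_e, one_mul]
    have h5 : 20 / √(n / g) = 10 / √(n / g) + 10 / √(n / g) := by ring
    rw [h5]
    exact add_le_add h3 h4

/-- common phase of a block -/
noncomputable def zeta (D : ℝ → ℝ) (om Bt x : ℝ) : ℝ :=
  om * x + Bt * ∫ u in (0 : ℝ)..(x / Bt), D u * (x / Bt - u)

/-- main term of a slot -/
noncomputable def mainTerm (D : ℝ → ℝ) (om Bt r c w l x : ℝ) : ℂ :=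
  if 0 ≤ x / Bt ∧ x / Bt ≤ 1 then
    (r * √(D (x / Bt)) * c : ℝ) * e (w - l * zeta D om Bt x) else 0

theorem exists_phase (z : ℂ) : ∃ φ : ℝ, z = (‖z‖ : ℂ) * e φ := by
  refine ⟨Complex.arg z / (2 * Real.pi), ?_⟩
  unfold e
  have h1 : 2 * Real.pi * (Complex.arg z / (2 * Real.pi)) = Complex.arg z := by
    (clear * -; field_simp)
  rw [h1, Complex.norm_mul_exp_arg_mul_I]

theorem module_exists {D : ℝ → ℝ} {κ L : ℝ} (hD : Prof D κ L)
    (hI1 : ∫ u in (0 : ℝ)..1, D u < 1) {κF : ℂ} (hκF : ‖κF‖ ≤ 1)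
    (hF : ∀ R : ℝ, 0 < R → ‖(∫ x in (-R)..R, e (x ^ 2 / 2)) - κF‖ ≤ 1 / R)
    {l β ε : ℝ} (hl : 0 < l) (hβ : 0 < β) (hε : 0 < ε) :
    ∃ (C : ℝ) (N0 : ℕ), ∀ N : ℕ, N0 ≤ N → ∀ n : ℝ, (N : ℝ) ≤ n → ∀ K : ℝ, 0 ≤ K →
      K + β * N ≤ n → ∀ w : ℝ, ∃ B : ℝ → ℝ, IsPath B l (n / 2) (n / 2) (C * n) ∧
        (∀ x, -C ≤ B x ∧ B x ≤ n + C) ∧ (∃ z : ℤ, ∫ x in (0 : ℝ)..l, B x = z) ∧
        ∀ k : ℝ, ‖√N * J B l k -
          mainTerm D ((1 - ∫ u in (0 : ℝ)..1, D u) / 2) (β * N) (√(l / β)) ‖κF‖ w l (k - K)‖ ≤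
            √(l / β) * (20 * √κ + ε) +
              40 * √(l * ((1 - ∫ u in (0 : ℝ)..1, D u) / 2)) := by
  set I : ℝ := ∫ u in (0 : ℝ)..1, D u with hI
  set om : ℝ := (1 - I) / 2 with hom
  have hom0 : 0 < om := by rw [hom]; (clear * - hI1; linarith)
  have hI0 : 0 ≤ I := by
    rw [hI]
    exact intervalIntegral.integral_nonneg zero_le_one fun x _ => hD.kpos.le.trans (hD.lower x)
  obtain ⟨Λ, hΛ⟩ := slot_asymp hκF hF hD hε
  obtain ⟨φ, hφ⟩ := exists_phase κF
  set g : ℝ := l * om with hg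
  have hg0 : 0 < g := by positivity
  have hkp := hD.kpos
  set C : ℝ := (1 + 2 / g) * (2 / g) + β / (l * κ) + 2 / g with hC
  refine ⟨C, max 1 ⌈Λ / (l * β)⌉₊, ?_⟩
  intro N hN n hNn K hK0 hKn w
  have hN1 : (1 : ℝ) ≤ N := by exact_mod_cast (le_max_left _ _).trans hN
  have hN0 : (0 : ℝ) < N := by linarith only [hN1]
  have hn1 : 1 ≤ n := hN1.trans hNn
  have hΛN : Λ ≤ l * (β * N) := by
    have h1 : Λ / (l * β) ≤ N := by
      refine (Nat.le_ceil _).trans ?_
      exact_mod_cast (le_max_right _ _).trans hN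
    rw [div_le_iff₀ (by positivity)] at h1
    linarith only [h1]
  set Bt : ℝ := β * N with hBt
  have hBt0 : 0 < Bt := by (clear * - hβ hN1; positivity)
  obtain ⟨A, hA, hAr, hAJ⟩ := active_path (K := K) hD hl hBt0
  rw [← hI] at hA hAJ
  -- connectors
  obtain ⟨C1, hC1, hC1r, ⟨z1, hC1i⟩, hC1J⟩ := connector_exists (g := g) (n := n) (b0 := n / 2)
    (b1 := K) hg0 (by linarith only [hNn, hN1]) ⟨by linarith only [hNn], by linarith only [hNn]⟩ ⟨hK0, by linarith only [hKn, hBt0]⟩ (Or.inl rfl)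
    (w + K * g - φ)
  obtain ⟨C2, hC2, hC2r, ⟨z2, hC2i⟩, hC2J⟩ := connector_exists (g := g) (n := n) (b0 := K + Bt)
    (b1 := n / 2) hg0 (by linarith only [hNn, hN1]) ⟨by linarith only [hK0, hBt0], hKn⟩ ⟨by linarith only [hNn], by linarith only [hNn]⟩ (Or.inr rfl)
    (-((w + K * g - φ) + ∫ x in (0 : ℝ)..(l * I), A x))
  have h2g : 0 < 2 / g := by positivity
  have hCpos : 0 < β / (l * κ) := by positivity
  have hCn : (n + 2 / g) * (2 / g) ≤ C * n := by
    have h1 : (n + 2 / g) * (2 / g) ≤ (1 + 2 / g) * (2 / g) * n := by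
      have : n + 2 / g ≤ (1 + 2 / g) * n := by nlinarith only [hNn, h2g, hN1]
      nlinarith only [h2g, this]
    rw [hC]
    nlinarith only [h1, h2g, hCpos, hNn]
  have hAn : Bt / (l * κ) ≤ C * n := by
    have h1 : Bt / (l * κ) = β / (l * κ) * N := by rw [hBt]; ring
    rw [h1, hC]
    have : 0 < (1 + 2 / g) * (2 / g) := by positivity
    nlinarith only [h2g, this, hNn, hCpos]
  have hC1' := hC1.mono hCn
  have hC2' := hC2.mono hCn
  have hA' := hA.mono hAn
  have hlI : 0 ≤ l * I := by (clear * - hl hI0; positivity)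
  have hsum : l = g + (l * I + g) := by rw [hg, hom]; ring
  have hP2 := isPath_concat hlI hg0.le hA' hC2'
  have hP := isPath_concat hg0.le (by (clear * - hl hI0 hI1; positivity)) hC1' hP2
  have hCge : 2 / g ≤ C := by
    rw [hC]
    have : 0 < (1 + 2 / g) * (2 / g) := by positivity
    linarith only [hCpos, this]
  refine ⟨concat C1 g K (concat A (l * I) (K + Bt) C2), ?_, ?_, ?_, ?_⟩
  · rwa [← hsum] at hP
  · intro x
    have hr1 : ∀ x, -C ≤ C1 x ∧ C1 x ≤ n + C := fun x =>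
      ⟨by linarith only [hCge, (hC1r x).1], by linarith only [hCge, (hC1r x).2]⟩
    have hr2 : ∀ x, -C ≤ C2 x ∧ C2 x ≤ n + C := fun x =>
      ⟨by linarith only [hCge, (hC2r x).1], by linarith only [hCge, (hC2r x).2]⟩
    have hr3 : ∀ x, -C ≤ A x ∧ A x ≤ n + C := fun x =>
      ⟨by linarith only [hK0, h2g, hCge, (hAr x).1], by linarith only [hKn, h2g, hCge, (hAr x).2]⟩
    exact concat_range hC1' hP2 hr1 (concat_range hA' hC2' hr3 hr2) x
  · refine ⟨z1 + z2, ?_⟩
    have h1 := integral_concat hg0.le (by (clear * - hl hI0 hI1; positivity)) hC1' hP2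
    rw [← hsum] at h1
    rw [h1, integral_concat hlI hg0.le hA' hC2', hC1i, hC2i]
    push_cast
    ring
  · intro k
    have h1 := J_concat hg0.le (by (clear * - hl hI0 hI1; positivity)) hC1' hP2 k
    rw [← hsum] at h1
    rw [h1, J_concat hlI hg0.le hA' hC2' k, hAJ k, hC1i]
    -- the connector bound
    have hcon : ∀ k : ℝ, ∀ Cc : ℝ → ℝ, ‖J Cc g k‖ ≤ 20 / √(n / g) →
        √N * ‖J Cc g k‖ ≤ 20 * √g := by
      intro k Cc h
      have h3 : 20 / √(n / g) ≤ 20 / √(N / g) := by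
        have : 0 < √((N : ℝ) / g) := Real.sqrt_pos.mpr (by (clear * - hN1 hl hI1; positivity))
        (clear * - hN1 hl hI1 hNn; gcongr)
      have h4 : √N * (20 / √(N / g)) = 20 * √g := by
        rw [Real.sqrt_div hN0.le]
        have h5 : √(N : ℝ) ≠ 0 := (Real.sqrt_pos.mpr hN0).ne'
        (clear * - h5 hg0; field_simp)
      calc √N * ‖J Cc g k‖ ≤ √N * (20 / √(N / g)) := by
            gcongr
            exact h.trans h3
        _ = _ := h4
    have hc1 := hcon k C1 (hC1J k)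
    have hc2 := hcon k C2 (hC2J k)
    set x : ℝ := k - K with hx
    set a : ℝ := x / Bt with ha
    -- main part
    have hmain : ‖√N * (e (w + K * g - φ + z1 - k * g) *
        (l * e (-(l * Bt * ∫ u in (0 : ℝ)..a, D u * (a - u))) * slotInt D (l * Bt) a)) -
        mainTerm D om Bt (√(l / β)) ‖κF‖ w l x‖ ≤ √(l / β) * (20 * √κ + ε) := by
      have h3 := hΛ (l * Bt) hΛN a
      have h4 : (√N : ℂ) * (e (w + K * g - φ + z1 - k * g) *
        (l * e (-(l * Bt * ∫ u in (0 : ℝ)..a, D u * (a - u))) * slotInt D (l * Bt) a)) =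
          (√(l / β) : ℂ) * e (-φ + (w - l * zeta D om Bt x)) *
            (√(l * Bt) * slotInt D (l * Bt) a) := by
        have h5 : e (w + K * g - φ + z1 - k * g) *
            e (-(l * Bt * ∫ u in (0 : ℝ)..a, D u * (a - u))) =
            e (-φ + (w - l * zeta D om Bt x)) := by
          rw [← e_add]
          have h6 : w + K * g - φ + z1 - k * g +
              -(l * Bt * ∫ u in (0 : ℝ)..a, D u * (a - u)) =
              (-φ + (w - l * zeta D om Bt x)) + z1 := by
            unfold zeta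
            rw [hg, hx, ← ha]
            ring
          rw [h6, e_add_int]
        have h7 : (√N : ℂ) * l = (√(l / β) : ℂ) * (√(l * Bt) : ℂ) := by
          have h8 : √N * l = √(l / β) * √(l * Bt) := by
            rw [← Real.sqrt_mul (by positivity)]
            have h9 : l / β * (l * Bt) = N * l ^ 2 := by
              rw [hBt]
              (clear * - hβ hN1 hl; field_simp)
            rw [h9, Real.sqrt_mul hN0.le, Real.sqrt_sq hl.le]
          exact_mod_cast h8
        rw [← h5]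
        linear_combination (e (w + K * g - φ + z1 - k * g) *
            e (-(l * Bt * ∫ u in (0 : ℝ)..a, D u * (a - u))) * slotInt D (l * Bt) a) * h7
      rw [h4]
      have h10 : mainTerm D om Bt (√(l / β)) ‖κF‖ w l x =
          (√(l / β) : ℂ) * e (-φ + (w - l * zeta D om Bt x)) *
            (if 0 ≤ a ∧ a ≤ 1 then (√(D a) : ℂ) * κF else 0) := by
        unfold mainTerm
        rw [← ha]
        by_cases hc : 0 ≤ a ∧ a ≤ 1
        · rw [if_pos hc, if_pos hc]
          nth_rewrite 2 [hφ]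
          rw [e_add]
          have h11 : e (-φ) * e φ = 1 := by
            rw [← e_add, neg_add_cancel, e_zero]
          push_cast
          linear_combination (-(√(l / β) : ℂ) * (√(D a) : ℂ) * (‖κF‖ : ℂ) *
            e (w - l * zeta D om Bt x)) * h11
        · rw [if_neg hc, if_neg hc, mul_zero]
      rw [h10, ← mul_sub, norm_mul, norm_mul, norm_e, mul_one, Complex.norm_real,
        Real.norm_eq_abs, abs_of_nonneg (Real.sqrt_nonneg _)]
      (clear * - h3 hl hβ; gcongr)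
    -- combine
    have hsplit : (√N : ℂ) * (J C1 g k + e (w + K * g - φ + z1 - k * g) *
        ((l * e (-(l * Bt * ∫ u in (0 : ℝ)..a, D u * (a - u))) * slotInt D (l * Bt) a) +
          e ((∫ t in (0 : ℝ)..(l * I), A t) - k * (l * I)) * J C2 g k)) -
        mainTerm D om Bt (√(l / β)) ‖κF‖ w l x =
        (√N * (e (w + K * g - φ + z1 - k * g) *
        (l * e (-(l * Bt * ∫ u in (0 : ℝ)..a, D u * (a - u))) * slotInt D (l * Bt) a)) -
        mainTerm D om Bt (√(l / β)) ‖κF‖ w l x) + (√N * J C1 g k +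
          √N * (e (w + K * g - φ + z1 - k * g) *
            (e ((∫ t in (0 : ℝ)..(l * I), A t) - k * (l * I)) * J C2 g k))) := by ring
    rw [hsplit]
    refine (norm_add_le _ _).trans (add_le_add hmain ?_)
    refine (norm_add_le _ _).trans ?_
    have hn1' : ‖(√N : ℂ) * J C1 g k‖ = √N * ‖J C1 g k‖ := by
      rw [norm_mul, Complex.norm_real, Real.norm_eq_abs, abs_of_nonneg (Real.sqrt_nonneg _)]
    have hn2' : ‖(√N : ℂ) * (e (w + K * g - φ + z1 - k * g) *
            (e ((∫ t in (0 : ℝ)..(l * I), A t) - k * (l * I)) * J C2 g k))‖ =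
            √N * ‖J C2 g k‖ := by
      rw [norm_mul, norm_mul, norm_mul, norm_e, norm_e, one_mul, one_mul,
        Complex.norm_real, Real.norm_eq_abs, abs_of_nonneg (Real.sqrt_nonneg _)]
    rw [hn1', hn2']
    linarith only [hc1, hc2]

end Vale.Agent.P110.AT
end
end

section

section

/-!
The analytic theorem: a slot system gives flat real polynomials.
-/

open MeasureTheory Finset

namespace Vale.Agent.P110.AT

open Vale.Agent.P110 (e)

/-- first integer frequency of block `p` at scale `N` -/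
noncomputable def blockStart (β : ℕ → ℝ) (N p : ℕ) : ℕ := ∑ q ∈ range p, (⌊β q * N⌋₊ + 1)

theorem blockStart_succ (β : ℕ → ℝ) (N p : ℕ) :
    blockStart β N (p + 1) = blockStart β N p + (⌊β p * N⌋₊ + 1) := by
  unfold blockStart
  rw [Finset.sum_range_succ]

theorem blockStart_mono (β : ℕ → ℝ) (N : ℕ) {p q : ℕ} (h : p ≤ q) :
    blockStart β N p ≤ blockStart β N q := by
  unfold blockStart
  exact Finset.sum_le_sum_of_subset (Finset.range_mono h)

theorem block_end_lt {β : ℕ → ℝ} {N p q : ℕ} (h : p < q) :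
    (blockStart β N p : ℝ) + β p * N < blockStart β N q := by
  have h1 := blockStart_mono β N (Nat.succ_le_of_lt h)
  rw [Nat.succ_eq_add_one, blockStart_succ] at h1
  have h2 : ((blockStart β N p : ℝ) + (⌊β p * N⌋₊ + 1)) ≤ blockStart β N q := by
    exact_mod_cast h1
  have h3 := Nat.lt_floor_add_one (β p * N)
  linarith only [h2, h3]

theorem blockStart_le {β : ℕ → ℝ} (hβ : ∀ p, 0 < β p) (N P : ℕ) :
    (blockStart β N P : ℝ) ≤ (∑ q ∈ range P, β q) * N + P := by
  unfold blockStart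
  push_cast
  rw [Finset.sum_add_distrib, Finset.sum_const, Finset.card_range, nsmul_eq_mul, mul_one,
    Finset.sum_mul]
  gcongr with q _
  exact Nat.floor_le (mul_nonneg (hβ q).le (Nat.cast_nonneg N))

/-- at most one block is active at a given frequency -/
theorem active_unique {β : ℕ → ℝ} (hβ : ∀ p, 0 < β p) {N : ℕ} (hN : 0 < N) {k : ℝ} {p q : ℕ}
    (hp : 0 ≤ (k - blockStart β N p) / (β p * N) ∧ (k - blockStart β N p) / (β p * N) ≤ 1)
    (hq : 0 ≤ (k - blockStart β N q) / (β q * N) ∧ (k - blockStart β N q) / (β q * N) ≤ 1) :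
    p = q := by
  have hN' : (0 : ℝ) < N := by exact_mod_cast hN
  have key : ∀ p q : ℕ, (k - blockStart β N p) / (β p * N) ≤ 1 →
      0 ≤ (k - blockStart β N q) / (β q * N) → ¬ p < q := by
    intro p q h1 h2 hlt
    have hp' : 0 < β p * N := mul_pos (hβ p) hN'
    have hq' : 0 < β q * N := mul_pos (hβ q) hN'
    rw [div_le_one hp'] at h1
    have h3 : 0 ≤ k - blockStart β N q := by
      by_contra hc
      push Not at hc
      have := div_neg_of_neg_of_pos hc hq'
      linarith only [h2, this]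
    have h4 := block_end_lt (β := β) (N := N) hlt
    linarith only [h1, h3, h4]
  rcases lt_trichotomy p q with h | h | h
  · exact absurd h (key p q hp.2 hq.1)
  · exact h
  · exact absurd h (key q p hq.2 hp.1)

variable {η : ℝ} (S : SlotSystem η)

/-- slot length -/
noncomputable def slen (i : ℕ) : ℝ := S.τ (i + 1) - S.τ i

/-- the phase parameter of the module of slot `i` -/
noncomputable def modPhase (N i : ℕ) : ℝ :=
  if S.up i then S.ω i + blockStart S.β N (S.blk i) * S.τ i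
  else -(S.ω i + blockStart S.β N (S.blk i) * S.τ (i + 1))

/-- the main term of slot `i` at frequency `k` -/
noncomputable def slotMain (D : ℝ → ℝ) (om c : ℝ) (N : ℕ) (k : ℝ) (i : ℕ) : ℂ :=
  if 0 ≤ (k - blockStart S.β N (S.blk i)) / (S.β (S.blk i) * N) ∧
      (k - blockStart S.β N (S.blk i)) / (S.β (S.blk i) * N) ≤ 1 then
    (√(slen S i / S.β (S.blk i)) *
        √(D ((k - blockStart S.β N (S.blk i)) / (S.β (S.blk i) * N))) * c : ℝ) *
      e (S.ω i - (k - blockStart S.β N (S.blk i)) * (if S.up i then S.τ i else S.τ (i + 1)) -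
        (if S.up i then (1 : ℝ) else -1) * (S.τ (i + 1) - S.τ i) *
          zeta D om (S.β (S.blk i) * N) (k - blockStart S.β N (S.blk i)))
  else 0

theorem slotMain_up (D : ℝ → ℝ) (om c : ℝ) (N : ℕ) (k : ℝ) (i : ℕ) (h : S.up i = true) :
    e (-(k * S.τ i)) * mainTerm D om (S.β (S.blk i) * N) (√(slen S i / S.β (S.blk i))) c
      (modPhase S N i) (slen S i) (k - blockStart S.β N (S.blk i)) = slotMain S D om c N k i := by
  unfold mainTerm slotMain modPhase slen
  rw [h]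
  simp only [if_true]
  by_cases hc : 0 ≤ (k - blockStart S.β N (S.blk i)) / (S.β (S.blk i) * N) ∧
      (k - blockStart S.β N (S.blk i)) / (S.β (S.blk i) * N) ≤ 1
  · rw [if_pos hc, if_pos hc, mul_left_comm, ← e_add]
    congr 2
    ring
  · rw [if_neg hc, if_neg hc, mul_zero]

theorem slotMain_down (D : ℝ → ℝ) (om c : ℝ) (N : ℕ) (k : ℝ) (i : ℕ) (h : S.up i = false) :
    e (-(k * S.τ i)) * (e (-(k * slen S i)) * starRingEnd ℂ
      (mainTerm D om (S.β (S.blk i) * N) (√(slen S i / S.β (S.blk i))) c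
      (modPhase S N i) (slen S i) (k - blockStart S.β N (S.blk i)))) =
      slotMain S D om c N k i := by
  unfold mainTerm slotMain modPhase slen
  rw [h]
  simp only [Bool.false_eq_true, if_false]
  by_cases hc : 0 ≤ (k - blockStart S.β N (S.blk i)) / (S.β (S.blk i) * N) ∧
      (k - blockStart S.β N (S.blk i)) / (S.β (S.blk i) * N) ≤ 1
  · have key : ∀ (a b c : ℝ) (x : ℂ), e a * (e b * (x * e c)) = x * e (a + b + c) := by
      intro a b c x
      rw [e_add, e_add]
      ring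
    rw [if_pos hc, if_pos hc, map_mul, Complex.conj_ofReal, ← e_neg, key]
    congr 2
    ring
  · rw [if_neg hc, if_neg hc, map_zero, mul_zero, mul_zero]

/-- the sum of the main terms is bounded by `1` (the algebraic condition) -/
theorem sum_slotMain_le {D : ℝ → ℝ} {κ L om c : ℝ} (hD : Prof D κ L) (hc0 : 0 ≤ c) (hc1 : c ≤ 1)
    {N : ℕ} (hN : 0 < N) (k : ℤ) :
    |2 * (∑ i ∈ range S.n, slotMain S D om c N k i).re| ≤ 1 := by
  have hre : ∀ i, i < S.n → 0 ≤ ((k : ℝ) - blockStart S.β N (S.blk i)) / (S.β (S.blk i) * N) ∧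
      ((k : ℝ) - blockStart S.β N (S.blk i)) / (S.β (S.blk i) * N) ≤ 1 →
      2 * (slotMain S D om c N k i).re =
        √(D (((k : ℝ) - blockStart S.β N (S.blk i)) / (S.β (S.blk i) * N))) * c *
        (2 * √((S.τ (i + 1) - S.τ i) / S.β (S.blk i)) *
          Real.cos (2 * Real.pi * (S.ω i - ((k - blockStart S.β N (S.blk i) : ℤ) : ℝ) *
            (if S.up i then S.τ i else S.τ (i + 1)) -
            (if S.up i then 1 else -1) * (S.τ (i + 1) - S.τ i) *
            zeta D om (S.β (S.blk i) * N) (k - blockStart S.β N (S.blk i))))) := by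
    intro i _ hi
    unfold slotMain
    rw [if_pos hi, Complex.re_ofReal_mul, e_re]
    unfold slen
    push_cast
    ring
  by_cases hex : ∃ p < S.P, 0 ≤ ((k : ℝ) - blockStart S.β N p) / (S.β p * N) ∧
      ((k : ℝ) - blockStart S.β N p) / (S.β p * N) ≤ 1
  · obtain ⟨p, hpP, hp⟩ := hex
    have h1 : 2 * (∑ i ∈ range S.n, slotMain S D om c N k i).re =
        √(D (((k : ℝ) - blockStart S.β N p) / (S.β p * N))) * c *
        ∑ i ∈ (range S.n).filter (fun i => S.blk i = p),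
        2 * √((S.τ (i + 1) - S.τ i) / S.β p) *
          Real.cos (2 * Real.pi * (S.ω i - ((k - blockStart S.β N p : ℤ) : ℝ) *
            (if S.up i then S.τ i else S.τ (i + 1)) -
            (if S.up i then 1 else -1) * (S.τ (i + 1) - S.τ i) *
            zeta D om (S.β p * N) (k - blockStart S.β N p))) := by
      rw [Complex.re_sum, Finset.mul_sum, Finset.mul_sum, Finset.sum_filter]
      refine Finset.sum_congr rfl fun i hi => ?_
      rw [Finset.mem_range] at hi
      by_cases hb : S.blk i = p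
      · rw [if_pos hb, ← hb]
        rw [← hb] at hp
        exact hre i hi hp
      · rw [if_neg hb]
        unfold slotMain
        rw [if_neg, Complex.zero_re, mul_zero]
        intro hc
        exact hb (active_unique S.β_pos hN hc hp)
    rw [h1, abs_mul, abs_of_nonneg (by (clear * - hc0; positivity))]
    have h2 := S.alg p hpP (k - blockStart S.β N p)
      (zeta D om (S.β p * N) (k - blockStart S.β N p))
    have h3 : √(D (((k : ℝ) - blockStart S.β N p) / (S.β p * N))) ≤ 1 := by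
      exact Real.sqrt_le_one.mpr (hD.upper _)
    calc √(D (((k : ℝ) - blockStart S.β N p) / (S.β p * N))) * c *
        |∑ i ∈ (range S.n).filter (fun i => S.blk i = p),
        2 * √((S.τ (i + 1) - S.τ i) / S.β p) *
          Real.cos (2 * Real.pi * (S.ω i - ((k - blockStart S.β N p : ℤ) : ℝ) *
            (if S.up i then S.τ i else S.τ (i + 1)) -
            (if S.up i then 1 else -1) * (S.τ (i + 1) - S.τ i) *
            zeta D om (S.β p * N) (k - blockStart S.β N p)))| ≤ 1 * 1 * 1 := by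
          (clear * - h3 hc1 hc0 h2; gcongr)
      _ = 1 := by norm_num
  · have h1 : ∀ i ∈ range S.n, slotMain S D om c N k i = 0 := by
      intro i hi
      rw [Finset.mem_range] at hi
      unfold slotMain
      rw [if_neg]
      intro hc
      exact hex ⟨S.blk i, S.blk_lt i hi, hc⟩
    rw [Finset.sum_eq_zero h1]
    simp only [Complex.zero_re, mul_zero, abs_zero, zero_le_one]

end Vale.Agent.P110.AT
end
end

section

section

/-!
The analytic theorem: a slot system gives flat real polynomials.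
-/

open MeasureTheory Finset

namespace Vale.Agent.P110.AT

open Vale.Agent.P110 (e)

theorem continuous_of_lip {b : ℝ → ℝ} {L : ℝ} (h : ∀ x y, |b x - b y| ≤ L * |x - y|) :
    Continuous b := by
  have hL : LipschitzWith (Real.toNNReal L) b := by
    apply LipschitzWith.of_dist_le_mul
    intro x y
    rw [Real.dist_eq, Real.dist_eq]
    refine (h x y).trans ?_
    gcongr
    exact Real.le_coe_toNNReal L
  exact hL.continuous

/-- coefficients: for every slot system and `ε > 0` there is, for all large `N`, a frequency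
function `b` whose exponential has all scaled Fourier coefficients bounded by `1 + ε`. -/
theorem coeff_exists {η : ℝ} (hη : 0 < η) (S : SlotSystem η) {ε : ℝ} (hε : 0 < ε) :
    ∃ (L : ℝ) (N0 : ℕ), 0 < L ∧ ∀ N : ℕ, N0 ≤ N → ∃ b : ℝ → ℝ,
      (∀ x y, |b x - b y| ≤ L * |x - y|) ∧
      (∀ x, 0 ≤ b x ∧ b x ≤ 1 + η + ε) ∧ (∀ x, b (x + 1) = b x) ∧
      (∃ z : ℤ, N * (∫ t in (0 : ℝ)..1, b t) = z) ∧
      ∀ k : ℤ, ∃ f : ℝ, |f| ≤ 1 + ε ∧
        (f : ℂ) = √N * ∫ t in (0 : ℝ)..1, e (N * (∫ s in (0 : ℝ)..t, b s) - k * t) := by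
  obtain ⟨κF, hκF, hF⟩ := fresnel_full
  -- choice of the profile
  set Q : ℝ := ∑ i ∈ range S.n, 2 * (√(slen S i / S.β (S.blk i)) * 21 + 40 * √(slen S i)) with hQ
  have hQ0 : 0 ≤ Q := Finset.sum_nonneg fun i _ => by (clear * -; positivity)
  obtain ⟨δ, hδ0, hδ1, hδQ⟩ : ∃ δ : ℝ, 0 < δ ∧ δ ≤ 1 ∧ √δ * Q ≤ ε := by
    refine ⟨min 1 ((ε / (Q + 1)) ^ 2), by (clear * - hε; positivity), min_le_left _ _, ?_⟩
    have h1 : √(min 1 ((ε / (Q + 1)) ^ 2)) ≤ ε / (Q + 1) := by
      calc √(min 1 ((ε / (Q + 1)) ^ 2)) ≤ √((ε / (Q + 1)) ^ 2) :=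
            Real.sqrt_le_sqrt (min_le_right _ _)
        _ = ε / (Q + 1) := Real.sqrt_sq (by (clear * - hε; positivity))
    calc √(min 1 ((ε / (Q + 1)) ^ 2)) * Q ≤ ε / (Q + 1) * Q := by (clear * - h1; gcongr)
      _ = ε * (Q / (Q + 1)) := by ring
      _ ≤ ε * 1 := by
          gcongr
          rw [div_le_one (by (clear * -; positivity))]
          linarith only []
      _ = ε := mul_one ε
  obtain ⟨D, κ, LD, hD, hκδ, hI0, hI1⟩ := profile_exists hδ0
  set om : ℝ := (1 - ∫ u in (0 : ℝ)..1, D u) / 2 with hom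
  have hom0 : 0 < om := by rw [hom]; linarith only [hI1]
  have homδ : om ≤ δ := by rw [hom]; linarith only [hδ0, hI0]
  have hsδ : 0 < √δ := Real.sqrt_pos.mpr hδ0
  have hslen : ∀ i, i < S.n → 0 < slen S i := fun i hi => by
    unfold slen
    linarith only [S.τ_lt i hi]
  have hmod : ∀ i, i < S.n → ∃ (C : ℝ) (N0 : ℕ), ∀ N : ℕ, N0 ≤ N → ∀ n : ℝ, (N : ℝ) ≤ n →
      ∀ K : ℝ, 0 ≤ K → K + S.β (S.blk i) * N ≤ n → ∀ w : ℝ, ∃ B : ℝ → ℝ,
        IsPath B (slen S i) (n / 2) (n / 2) (C * n) ∧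
        (∀ x, -C ≤ B x ∧ B x ≤ n + C) ∧ (∃ z : ℤ, ∫ x in (0 : ℝ)..(slen S i), B x = z) ∧
        ∀ k : ℝ, ‖√N * J B (slen S i) k -
          mainTerm D om (S.β (S.blk i) * N) (√(slen S i / S.β (S.blk i))) ‖κF‖ w (slen S i)
            (k - K)‖ ≤ √(slen S i / S.β (S.blk i)) * (20 * √κ + √δ) +
              40 * √(slen S i * om) := by
    intro i hi
    exact module_exists hD hI1 hκF hF (hslen i hi) (S.β_pos _) hsδ
  choose! C N0 hCN using hmod
  set Cm : ℝ := ∑ i ∈ range S.n, |C i| with hCm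
  have hCm0 : 0 ≤ Cm := Finset.sum_nonneg fun i _ => abs_nonneg _
  have hCle : ∀ i, i < S.n → C i ≤ Cm := fun i hi =>
    (le_abs_self _).trans (Finset.single_le_sum (f := fun i => |C i|)
      (fun i _ => abs_nonneg _) (Finset.mem_range.mpr hi))
  set Nm : ℕ := ∑ i ∈ range S.n, N0 i with hNm
  have hNle : ∀ i, i < S.n → N0 i ≤ Nm := fun i hi =>
    Finset.single_le_sum (f := fun i => N0 i) (fun i _ => Nat.zero_le _) (Finset.mem_range.mpr hi)
  obtain ⟨Cc, hCc⟩ : ∃ m : ℕ, Cm ≤ m := ⟨⌈Cm⌉₊, Nat.le_ceil _⟩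
  have hP0 : (0 : ℝ) ≤ S.P := Nat.cast_nonneg _
  refine ⟨(Cm + 1) * (1 + η + S.P), max (max 1 Nm) ⌈((S.P : ℝ) + 2 * Cc) / ε⌉₊, by (clear * - hη; positivity), ?_⟩
  intro N hN
  have hN1' : 1 ≤ N := (le_max_left _ _).trans ((le_max_left _ _).trans hN)
  have hNNm : Nm ≤ N := (le_max_right _ _).trans ((le_max_left _ _).trans hN)
  have hN1 : (1 : ℝ) ≤ N := by exact_mod_cast hN1'
  have hNpos : (0 : ℝ) < N := by linarith only [hN1]
  have hNε : ((S.P : ℝ) + 2 * Cc) ≤ ε * N := by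
    have h1 : ((S.P : ℝ) + 2 * Cc) / ε ≤ N :=
      (Nat.le_ceil _).trans (by exact_mod_cast (le_max_right _ _).trans hN)
    rw [div_le_iff₀ hε] at h1
    linarith only [h1]
  set n : ℝ := (1 + η) * N + S.P with hn
  have hNn : (N : ℝ) ≤ n := by rw [hn]; nlinarith only [hη]
  have hblock : ∀ i, i < S.n →
      (blockStart S.β N (S.blk i) : ℝ) + S.β (S.blk i) * N ≤ n := by
    intro i hi
    have h1 := block_end_lt (β := S.β) (N := N) (S.blk_lt i hi)
    have h2 := blockStart_le S.β_pos N S.P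
    have h3 : (∑ q ∈ range S.P, S.β q) * N ≤ (1 + η) * N := by
      gcongr
      exact S.sum_β
    linarith only [h1, h2, h3]
  -- the modules
  have hmods : ∀ i, i < S.n → ∃ B : ℝ → ℝ,
      IsPath B (slen S i) (n / 2) (n / 2) (Cm * n) ∧
      (∀ x, -(Cc : ℝ) ≤ B x ∧ B x ≤ n + Cc) ∧ (∃ z : ℤ, ∫ x in (0 : ℝ)..(slen S i), B x = z) ∧
      ∀ k : ℤ, ‖√N * (e (-(k * S.τ i)) * J B (slen S i) k) -
        slotMain S D om ‖κF‖ N k i‖ ≤
        √(slen S i / S.β (S.blk i)) * (20 * √κ + √δ) + 40 * √(slen S i * om) := by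
    intro i hi
    obtain ⟨B, hB1, hB2, ⟨z, hB3⟩, hB4⟩ := hCN i hi N ((hNle i hi).trans hNNm) n hNn
      (blockStart S.β N (S.blk i)) (Nat.cast_nonneg _) (hblock i hi) (modPhase S N i)
    have hB1' : IsPath B (slen S i) (n / 2) (n / 2) (Cm * n) := by
      apply hB1.mono
      have := hCle i hi
      (clear * - this hη hN1'; gcongr)
    have hB2' : ∀ x, -(Cc : ℝ) ≤ B x ∧ B x ≤ n + Cc := fun x =>
      ⟨by linarith only [hCc, (hB2 x).1, hCle i hi], by linarith only [hCc, (hB2 x).2, hCle i hi]⟩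
    rcases hup : S.up i with _ | _
    · refine ⟨rev B (slen S i), isPath_rev hB1', fun x => hB2' _, ⟨z, ?_⟩, fun k => ?_⟩
      · rw [integral_rev hB1.continuous, sub_self, intervalIntegral.integral_same, sub_zero, hB3]
      · rw [J_rev hB1.continuous, hB3, ← slotMain_down S D om _ N k i hup]
        have h1 : e (z - k * slen S i) = e (-(k * slen S i)) := by
          have : (z : ℝ) - k * slen S i = -(k * slen S i) + z := by ring
          rw [this, e_add_int]
        rw [h1]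
        have h2 : (√N : ℂ) * (e (-(k * S.τ i)) * (e (-(k * slen S i)) *
            starRingEnd ℂ (J B (slen S i) k))) -
            e (-(k * S.τ i)) * (e (-(k * slen S i)) * starRingEnd ℂ
            (mainTerm D om (S.β (S.blk i) * N) (√(slen S i / S.β (S.blk i))) ‖κF‖
            (modPhase S N i) (slen S i) (k - blockStart S.β N (S.blk i)))) =
            e (-(k * S.τ i)) * (e (-(k * slen S i)) * starRingEnd ℂ
            (√N * J B (slen S i) k - mainTerm D om (S.β (S.blk i) * N)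
              (√(slen S i / S.β (S.blk i))) ‖κF‖
            (modPhase S N i) (slen S i) (k - blockStart S.β N (S.blk i)))) := by
          rw [map_sub, map_mul, Complex.conj_ofReal]
          ring
        rw [h2, norm_mul, norm_mul, norm_e, norm_e, one_mul, one_mul, RCLike.norm_conj]
        exact hB4 k
    · refine ⟨B, hB1', hB2', ⟨z, hB3⟩, fun k => ?_⟩
      rw [← slotMain_up S D om _ N k i hup]
      have h2 : (√N : ℂ) * (e (-(k * S.τ i)) * J B (slen S i) k) -
          e (-(k * S.τ i)) * mainTerm D om (S.β (S.blk i) * N) (√(slen S i / S.β (S.blk i)))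
            ‖κF‖ (modPhase S N i) (slen S i) (k - blockStart S.β N (S.blk i)) =
          e (-(k * S.τ i)) * (√N * J B (slen S i) k -
            mainTerm D om (S.β (S.blk i) * N) (√(slen S i / S.β (S.blk i)))
            ‖κF‖ (modPhase S N i) (slen S i) (k - blockStart S.β N (S.blk i))) := by ring
      rw [h2, norm_mul, norm_e, one_mul]
      exact hB4 k
  choose! B hB1 hB2 hB3 hB4 using hmods
  obtain ⟨Bt, hBt1, hBt2, hBt3, hBt4⟩ := glue S.n S.τ S.τ_zero S.τ_lt B (n / 2) (Cm * n)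
    (-(Cc : ℝ)) (n + Cc) ⟨by have : (0 : ℝ) ≤ Cc := Nat.cast_nonneg _; linarith only [hNn],
      by have : (0 : ℝ) ≤ Cc := Nat.cast_nonneg _; linarith only [hNn]⟩
    (mul_nonneg hCm0 (by linarith only [hNn])) hB1 hB2 hB3
  rw [S.τ_last] at hBt3 hBt4
  obtain ⟨b, hb1, hb2, hb3, ⟨z, hb4⟩, hb5⟩ := even_ext Bt (Cm * n) (-(Cc : ℝ)) (n + Cc) hBt1
    hBt2 hBt3
  -- shift by the integer `Cc` and normalise
  have hbc : Continuous b := continuous_of_lip hb1
  have hint : ∀ x : ℝ, N * (∫ t in (0 : ℝ)..x, (b t + Cc) / N) = (∫ t in (0 : ℝ)..x, b t) + Cc * x := by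
    intro x
    have h1 : ∀ t : ℝ, (b t + Cc) / N = (N : ℝ)⁻¹ * (b t + Cc) := fun t => by ring
    simp_rw [h1]
    rw [intervalIntegral.integral_const_mul, intervalIntegral.integral_add
      (hbc.intervalIntegrable _ _) intervalIntegrable_const, intervalIntegral.integral_const,
      smul_eq_mul]
    field_simp
    ring
  have hCc0 : (0 : ℝ) ≤ Cc := Nat.cast_nonneg _
  refine ⟨fun x => (b x + Cc) / N, ?_, ?_, ?_, ?_, ?_⟩
  · intro x y
    have h1 : (b x + Cc) / N - (b y + Cc) / N = (b x - b y) / N := by ring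
    rw [h1, abs_div, abs_of_pos hNpos, div_le_iff₀ hNpos]
    refine (hb1 x y).trans ?_
    have h2 : Cm * n ≤ (Cm + 1) * (1 + η + S.P) * N := by
      have h3 : n ≤ (1 + η + S.P) * N := by
        rw [hn]
        nlinarith only [hN1]
      calc Cm * n ≤ (Cm + 1) * ((1 + η + S.P) * N) := by
            apply mul_le_mul (by linarith only []) h3 _ (by linarith only [hCm0])
            rw [hn]
            (clear * - hη hN1'; positivity)
        _ = _ := by ring
    calc Cm * n * |x - y| ≤ (Cm + 1) * (1 + η + S.P) * N * |x - y| := by (clear * - h2; gcongr)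
      _ = _ := by ring
  · intro x
    constructor
    · apply div_nonneg _ hNpos.le
      linarith only [(hb2 x).1]
    · rw [div_le_iff₀ hNpos]
      have := (hb2 x).2
      rw [hn] at this
      linarith only [hNε, this]
  · intro x
    simp only [hb3]
  · refine ⟨z + Cc, ?_⟩
    rw [hint 1, hb4]
    push_cast
    ring
  · intro k
    refine ⟨√N * (2 * (J Bt (1 / 2) ((k - Cc : ℤ) : ℝ)).re), ?_, ?_⟩
    · set k' : ℤ := k - Cc with hk'
      have h1 : √N * (2 * (J Bt (1 / 2) (k' : ℝ)).re) =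
          2 * (∑ i ∈ range S.n, √N * (e (-(k' * S.τ i)) * J (B i) (slen S i) k')).re := by
        rw [hBt4]
        unfold slen
        rw [← Finset.mul_sum, Complex.re_ofReal_mul]
        ring
      have h2 : ∑ i ∈ range S.n, (√N : ℂ) * (e (-(k' * S.τ i)) * J (B i) (slen S i) k') =
          ∑ i ∈ range S.n, slotMain S D om ‖κF‖ N k' i +
          ∑ i ∈ range S.n, (√N * (e (-(k' * S.τ i)) * J (B i) (slen S i) k') -
            slotMain S D om ‖κF‖ N k' i) := by
        rw [← Finset.sum_add_distrib]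
        refine Finset.sum_congr rfl fun i _ => ?_
        ring
      rw [h1, h2, Complex.add_re, mul_add]
      refine (abs_add_le _ _).trans ?_
      refine add_le_add (sum_slotMain_le S hD (norm_nonneg _) hκF hN1' k') ?_
      rw [abs_mul, abs_two]
      have h3 : |(∑ i ∈ range S.n, ((√N : ℂ) * (e (-(k' * S.τ i)) * J (B i) (slen S i) k') -
            slotMain S D om ‖κF‖ N k' i)).re| ≤
          ∑ i ∈ range S.n, (√δ * (√(slen S i / S.β (S.blk i)) * 21 + 40 * √(slen S i))) := by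
        refine (Complex.abs_re_le_norm _).trans ?_
        refine (norm_sum_le _ _).trans ?_
        refine Finset.sum_le_sum fun i hi => ?_
        rw [Finset.mem_range] at hi
        refine (hB4 i hi k').trans ?_
        have h4 : √κ ≤ √δ := Real.sqrt_le_sqrt hκδ
        have h5 : √(slen S i * om) ≤ √(slen S i) * √δ := by
          rw [← Real.sqrt_mul (hslen i hi).le]
          apply Real.sqrt_le_sqrt
          have := (hslen i hi).le
          (clear * - homδ this; gcongr)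
        have h6 := Real.sqrt_nonneg (slen S i / S.β (S.blk i))
        nlinarith only [h5, h4, h6]
      calc 2 * |(∑ i ∈ range S.n, ((√N : ℂ) * (e (-(k' * S.τ i)) * J (B i) (slen S i) k') -
            slotMain S D om ‖κF‖ N k' i)).re| ≤
          2 * ∑ i ∈ range S.n, (√δ * (√(slen S i / S.β (S.blk i)) * 21 + 40 * √(slen S i))) := by
            (clear * - h3; gcongr)
        _ = √δ * Q := by
            rw [hQ, ← Finset.mul_sum, ← Finset.mul_sum]
            ring
        _ ≤ ε := hδQ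
    · rw [Complex.ofReal_mul, ← hb5 (k - Cc)]
      congr 1
      apply intervalIntegral.integral_congr
      intro t _
      simp only
      rw [hint t]
      congr 1
      push_cast
      ring

/-- **AT**: a slot system gives flat real polynomials. -/
theorem analytic_of_trunc (hT : TruncStatement) : AnalyticStatement := by
  intro η hη S ε hε
  obtain ⟨L, N0, hL, hco⟩ := coeff_exists hη S (ε := ε / 4) (by linarith)
  obtain ⟨N1, hN1⟩ := hT L (1 + η + ε / 4) (ε / 4) hL (by linarith only [hη, hε]) (by linarith)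
  refine ⟨max N0 N1, fun N hN => ?_⟩
  obtain ⟨b, hb1, hb2, hb3, hb4, hb5⟩ := hco N ((le_max_left _ _).trans hN)
  obtain ⟨K, K', v, hK, hK', hv, hθ⟩ := hN1 N ((le_max_right _ _).trans hN) b hb1 hb2 hb3 hb4
  choose f hf1 hf2 using hb5
  refine ⟨K + K', fun j => v ((j : ℤ) - K) * f ((j : ℤ) - K), ?_, ?_, ?_⟩
  · push_cast
    linarith only [hK, hK']
  · intro j
    rw [abs_mul, abs_of_nonneg (hv _).1]
    have h1 := hf1 ((j : ℤ) - K)
    have h2 := (hv ((j : ℤ) - K)).2
    have h3 := (hv ((j : ℤ) - K)).1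
    calc v ((j : ℤ) - K) * |f ((j : ℤ) - K)| ≤ 1 * (1 + ε / 4) := by (clear * - h2 h1; gcongr)
      _ ≤ 1 + η + ε := by linarith only [hη, hε]
  · intro θ
    have h1 := hθ θ
    have h2 : ∑ k ∈ range (K + K'), ((v ((k : ℤ) - K) * f ((k : ℤ) - K) : ℝ) : ℂ) * e (k * θ) =
        e (K * θ) * (√N * ∑ k ∈ Finset.Ico (-(K : ℤ)) K', (v k : ℂ) *
          (∫ t in (0 : ℝ)..1, e (N * (∫ s in (0 : ℝ)..t, b s) - k * t)) * e (k * θ)) := by
      rw [Finset.mul_sum, Finset.mul_sum]
      have h3 : Finset.Ico (-(K : ℤ)) K' =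
          (range (K + K')).image (fun k : ℕ => (k : ℤ) - K) := by
        ext x
        simp only [Finset.mem_Ico, Finset.mem_image, Finset.mem_range]
        constructor
        · rintro ⟨h4, h5⟩
          refine ⟨(x + K).toNat, ?_, ?_⟩
          · omega
          · omega
        · rintro ⟨k, hk, rfl⟩
          omega
      rw [h3, Finset.sum_image]
      · refine Finset.sum_congr rfl fun k _ => ?_
        have h4 := hf2 ((k : ℤ) - K)
        have h5 : e (k * θ) = e (K * θ) * e ((((k : ℤ) - K : ℤ) : ℝ) * θ) := by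
          rw [← e_add]
          congr 1
          push_cast
          ring
        rw [h5]
        push_cast at h4 ⊢
        rw [h4]
        ring
      · intro x _ y _ hxy
        simp only at hxy
        omega
    rw [h2, norm_mul, norm_e, one_mul, norm_mul, Complex.norm_real, Real.norm_eq_abs,
      abs_of_nonneg (Real.sqrt_nonneg _)]
    have h6 : |‖∑ k ∈ Finset.Ico (-(K : ℤ)) K', (v k : ℂ) *
          (∫ t in (0 : ℝ)..1, e (N * (∫ s in (0 : ℝ)..t, b s) - k * t)) * e (k * θ)‖ - 1| ≤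
          ε / 4 := by
      have h7 := abs_norm_sub_norm_le (∑ k ∈ Finset.Ico (-(K : ℤ)) K', (v k : ℂ) *
          (∫ t in (0 : ℝ)..1, e (N * (∫ s in (0 : ℝ)..t, b s) - k * t)) * e (k * θ))
          (e (N * ∫ t in (0 : ℝ)..θ, b t))
      rw [norm_e] at h7
      exact h7.trans h1
    have h8 : √(N : ℝ) * ‖∑ k ∈ Finset.Ico (-(K : ℤ)) K', (v k : ℂ) *
          (∫ t in (0 : ℝ)..1, e (N * (∫ s in (0 : ℝ)..t, b s) - k * t)) * e (k * θ)‖ - √N =
        √N * (‖∑ k ∈ Finset.Ico (-(K : ℤ)) K', (v k : ℂ) *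
          (∫ t in (0 : ℝ)..1, e (N * (∫ s in (0 : ℝ)..t, b s) - k * t)) * e (k * θ)‖ - 1) := by
      ring
    rw [h8, abs_mul, abs_of_nonneg (Real.sqrt_nonneg _), mul_comm]
    have h9 := Real.sqrt_nonneg (N : ℝ)
    nlinarith only [hε, h9, h6]

/-- **AT**, complete. -/
theorem analytic : AnalyticStatement := analytic_of_trunc trunc

end Vale.Agent.P110.AT
end
end

section

section

/-! # Flat Littlewood polynomials of every large length -/

namespace Vale.Agent.P110

theorem ultraflat (c : ℝ) (hc : 0 < c) :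
    ∃ N₀ : ℕ, ∀ N : ℕ, N₀ ≤ N → ∃ a : Fin N → ℤˣ, ∀ z : ℂ, ‖z‖ = 1 →
      (1 - c) * Real.sqrt N ≤ ‖∑ k : Fin N, ((a k : ℤ) : ℂ) * z ^ (k : ℕ)‖ ∧
      ‖∑ k : Fin N, ((a k : ℤ) : ℂ) * z ^ (k : ℕ)‖ ≤ (1 + c) * Real.sqrt N :=
  ultraflat_of RT.rounding AT.analytic slotSystem c hc

end Vale.Agent.P110
end
end
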